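import Vale.Agent.P301Z.Stmt
import Vale.Agent.P301Z.Semi.Defs
import Vale.Agent.P281Z.Defs

/-!
# P301Z, block ABUN: the interface (tubes, Lemma H, abundance)
-/

open scoped Manifold ContDiff Topology Matrix
open Set Filter Metric
open Vale.Agent.P272.K Vale.Agent.P301.H599 Vale.Agent.P301.H99
open Vale.Agent.P277Z (Hol)
open Vale.Agent.P277Z.Slc (Ind)
open Vale.Agent.P281Z (Thin)

noncomputable section

namespace Vale.Agent.P301Z.Sa

section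

variable {d : ℕ} {X : Type} [TopologicalSpace X] [ChartedSpace (Cm d) X] {ι : Type}

/-- the gradient in the chart `e` -/
def gr (f : X → ℂ) (e : Chart d X) (x : X) : Fin d → ℂ :=
  fun a => dz a (fun z => f (e.symm z)) (e x)

/-- the Poisson bracket -/
def pb (s : Chart d X → Cm d → Matrix (Fin d) (Fin d) ℂ) (f g : X → ℂ) (e : Chart d X) (x : X) :
    ℂ :=
  gr f e x ⬝ᵥ ((s e (e x))⁻¹ *ᵥ gr g e x)

/-- the functions `u j` commute at `x` -/
def Com (s : Chart d X → Cm d → Matrix (Fin d) (Fin d) ℂ) {α : Type} (u : α → X → ℂ) (x : X) :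
    Prop :=
  ∀ e, At e x → ∀ i j, pb s (u i) (u j) e x = 0

/-- `π : O → ball b r` is a proper holomorphic submersion with connected coisotropic fibres -/
structure Tube (s : Chart d X → Cm d → Matrix (Fin d) (Fin d) ℂ) {n : ℕ} (O : Set X)
    (π : X → Cm n) (b : Cm n) (r : ℝ) : Prop where
  opn : IsOpen O
  pos : 0 < r
  ind : ∀ x ∈ O, Ind d (fun j y => π y j) x
  maps : MapsTo π O (ball b r)
  prp : ∀ K ⊆ ball b r, IsCompact K → IsCompact (O ∩ π ⁻¹' K)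
  conn : ∀ t ∈ ball b r, IsConnected (O ∩ π ⁻¹' {t})
  com : ∀ x ∈ O, Com s (fun j y => π y j) x

/-- `e` is a holomorphic section of `L^a` over `U` without zeros -/
structure Gen (L : LineBundle d X ι) (a : ℕ) (U : Set X) (e : ι → X → ℂ) : Prop where
  hol : ∀ i, ∀ x ∈ U, x ∈ L.U i → Hol d (e i) x
  ne : ∀ i, ∀ x ∈ U, x ∈ L.U i → e i x ≠ 0
  chg : ∀ i j, ∀ x ∈ U, x ∈ L.U i → x ∈ L.U j → e i x = L.g i j x ^ a * e j x

/-- the data of Lemma H -/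
structure Loc (s : Chart d X → Cm d → Matrix (Fin d) (Fin d) ℂ) (L : LineBundle d X ι) (n : ℕ)
    (U : Set X) {r : ℕ} (g : Fin r → X → ℂ) (a : ℕ) (e : ι → X → ℂ) (T : Set X) : Prop where
  opn : IsOpen U
  hol : ∀ j, ∀ x ∈ U, Hol d (g j) x
  cpt : IsCompact {x | x ∈ U ∧ ∑ j, ‖g j x‖ ^ 2 ≤ 1}
  pos : 0 < a
  gen : Gen L a U e
  thin : Thin d T
  tube : ∀ x ∈ U, ∑ j, ‖g j x‖ ^ 2 ≤ 1 → x ∉ T → ∃ (O : Set X) (π : X → Cm n) (b : Cm n) (ρ : ℝ),
    Tube s O π b ρ ∧ x ∈ O ∧ O ⊆ U ∧ ∀ y ∈ O, ∀ y' ∈ O, π y = π y' → ∀ j, g j y = g j y'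

end

/-- a statement on the data of `SYZ` in the dimension `2 n` -/
def ForS (P : ∀ (d _ : ℕ) (X : Type) [TopologicalSpace X] [ChartedSpace (Cm d) X]
    (_ : Chart d X → Cm d → Matrix (Fin d) (Fin d) ℂ) (ι : Type), LineBundle d X ι → Prop) : Prop :=
  ∀ (d n : ℕ) (X : Type) [TopologicalSpace X] [T2Space X] [CompactSpace X]
    [SimplyConnectedSpace X]
    [ChartedSpace (Cm d) X] [IsManifold 𝓘(ℂ, Cm d) ω X]
    (w s : Chart d X → Cm d → Matrix (Fin d) (Fin d) ℂ), d = 2 * n → IsSymplectic d X w s →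
    ∀ (ι : Type) (L : LineBundle d X ι) (ρ : ι → X → ℝ), IsMetric L ρ → Nef w L ρ →
      Isotropic L ρ → ¬ SameClass (curvature L ρ) (fun _ _ => 0) → P d n X s ι L

/-- **HPT**: Lemma H at a point -/
def HPT : Prop := ForS fun _ n X _ _ s ι L => ∀ (U : Set X) (r : ℕ) (g : Fin r → X → ℂ) (a : ℕ)
  (e : ι → X → ℂ) (T : Set X), Loc s L n U g a e T → ∀ x ∈ U, (∀ j, g j x = 0) →
    ∃ m : ℕ, 0 < m ∧ ∃ f : ι → X → ℂ, Sec L m f ∧ ∃ i, x ∈ L.U i ∧ f i x ≠ 0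

/-- **ABUN**: abundance -/
def ABUN : Prop := ForS fun _ n _ _ _ _ _ L => Semi.Grow L n → Semiample L

end Vale.Agent.P301Z.Sa
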