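import Vale.Agent.P301Z.Sa.Defs

/-!
# P301Z, block ABUN: row CH
-/

open scoped Manifold ContDiff Topology
open Set Filter MeasureTheory
open Vale.Agent.P272.K
open Vale.Agent.P281Z

namespace Vale.Agent.P301Z.Sa

theorem ch_of (h : NUL) : CH := by
  intro d n X u B G F hF z hp hq
  choose! A hA using hF
  have hK : ∀ y ∈ G.q '' (G.p ⁻¹' {G.p z}) \ B, (fun j => u j y) = fun j => u j (G.p z) := by
    rintro _ ⟨⟨w, hw, rfl⟩, h2⟩
    have e : G.p w = G.p z := hw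
    funext j
    rw [← G.fac w (e ▸ hp) h2 j, e]
  have loc : ∀ y ∈ G.q '' (G.p ⁻¹' {G.p z}) \ B, ∀ᶠ y' in 𝓝[G.q '' (G.p ⁻¹' {G.p z}) \ B] y,
      A y =ᶠ[𝓝 (fun j => u j (G.p z)) ⊓ ae volume] A y' := fun y hy => by
    filter_upwards [nhdsWithin_le_nhds (h.near d X.X y _ (hA y hy.2)), self_mem_nhdsWithin]
      with y' h1 h2
    rw [← hK y' h2, ← h.ind d n X.X u y' (G.ind y' h2.2)]
    refine eventually_map.2 ?_
    filter_upwards [h1, hA y' h2.2] with w a b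
    exact a.symm.trans b
  obtain ⟨z0, e1, e2⟩ := G.refl (G.p z)
  have key : A (G.p z) =ᶠ[𝓝 (fun j => u j (G.p z)) ⊓ ae volume] A (G.q z) :=
    (G.conn _ hp).induction₂' (fun y y' => A y =ᶠ[𝓝 (fun j => u j (G.p z)) ⊓ ae volume] A y')
      (fun y hy => (loc y hy).mono fun _ k => ⟨k, k.symm⟩) (fun _ _ _ _ _ _ a b => a.trans b)
      ⟨⟨z0, e1, e2⟩, hp⟩ ⟨⟨z, rfl, rfl⟩, hq⟩
  have mp := h.sbm (d + n) d G.W.X X.X G.p z (G.hp z) (G.sp z hp hq)
  have mq := h.sbm (d + n) d G.W.X X.X G.q z (G.hq z) (G.sq z hp hq)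
  have a1 := hA _ hp
  have a2 := hA _ hq
  rw [← h.ind d n X.X u _ (G.ind _ hp), ← mp] at key
  rw [← mp] at a1
  rw [← mq] at a2
  have a3 : ∀ᶠ z' in 𝓝 z, z' ∉ {z | G.p z ∈ B ∨ G.q z ∈ B} :=
    G.thin.closed.isOpen_compl.mem_nhds fun c => c.elim hp hq
  filter_upwards [eventually_map.1 a1, eventually_map.1 a2,
    eventually_map.1 (eventually_map.1 key), h.le _ _ z a3] with z' b1 b2 b3 b4
  have b5 : (fun j => u j (G.p z')) = fun j => u j (G.q z') :=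
    funext (G.fac z' (fun c => b4 (Or.inl c)) fun c => b4 (Or.inr c))
  rw [b1, b2, b3, b5]

end Vale.Agent.P301Z.Sa
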