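import Vale.Agent.P301Z.Sa.Defs
import Vale.Agent.P281Z.Rs.All
import Vale.Agent.P281Z.El.Lab

/-!
# P301Z, block ABUN: the dimension of the set of points at distance two
-/

open scoped Manifold ContDiff Topology Matrix
open Set Filter
open Vale.Agent.P272.K Vale.Agent.P301.H599
open Vale.Agent.P277Z (Hol at_chart)
open Vale.Agent.P281Z
open Vale.Agent.P281Z.El (Dm)

noncomputable section

namespace Vale.Agent.P301Z.Sa

namespace DimA

/-- isotropic subspaces have at most half the dimension -/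
theorem rk_le {m d n : ℕ} (hd : d = 2 * n) {S : Matrix (Fin d) (Fin d) ℂ} (hS : S.det ≠ 0)
    (T : Cm m →L[ℂ] Cm d) (h : ∀ a b, T a ⬝ᵥ (S *ᵥ T b) = 0) : Ana.rk T ≤ n := by
  set A : Matrix (Fin d) (Fin m) ℂ := LinearMap.toMatrix' (T : Cm m →ₗ[ℂ] Cm d) with hA
  have h1 : ∀ v, A *ᵥ v = T v := fun v => LinearMap.toMatrix'_mulVec _ v
  have h2 : Aᵀ * (S * A) = 0 := by
    ext a b
    have := h (Pi.single a 1) (Pi.single b 1)
    rw [← h1, ← h1, Matrix.mulVec_mulVec, Matrix.mulVec_single_one, Matrix.mulVec_single_one]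
      at this
    exact this
  have h3 := Matrix.rank_add_rank_le_card_of_mul_eq_zero h2
  rw [Matrix.rank_transpose, Matrix.rank_mul_eq_right_of_isUnit_det _ _ (Ne.isUnit hS),
    Fintype.card_fin] at h3
  have h4 : A.rank = Ana.rk T := by
    rw [Matrix.rank, Ana.rk, hA, ← Matrix.toLin'_apply', Matrix.toLin'_toMatrix']
  omega

theorem dm_range {m d n : ℕ} {V : Mf m} {X : Mf d} {r : V.X → X.X} (hr : HolM m d r)
    (h : ∀ v, Ana.Im.r r v ≤ n) : Dm n (range r) := fun c hc => by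
  refine (Ana.Im.cv_img Ana.cvrk hr n hc).mono ?_
  rintro _ ⟨_, ⟨⟨v, rfl⟩, k⟩, rfl⟩
  exact ⟨v, ⟨h v, k⟩, rfl⟩

end DimA

theorem dim_of (hI : ISO) : DIM := by
  intro d n X _ w s hd hs ι L ρ hρ hn hi hc u B G k f h hk hU x
  set S : Set (G.W.prod G.W).X := (fun c => G.p (G.W.p1 G.W c)) ⁻¹' {x} ∩
    {c | G.q (G.W.p1 G.W c) = G.p (G.W.p2 G.W c)} with hS
  have h1 : An _ S := ((an_point x).pre (G.hp.comp hol_p1)).inter
    (an_eq (G.hq.comp hol_p1) (G.hp.comp hol_p2))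
  have h2 : G.C x = (fun c => G.q (G.W.p2 G.W c)) '' S := by
    ext y
    exact ⟨fun ⟨a, b, k1, k2, k3⟩ => ⟨G.W.pair G.W a b, ⟨k1, k2⟩, k3⟩,
      fun ⟨c, k1, k2⟩ => ⟨_, _, k1.1, k1.2, k2⟩⟩
  refine ⟨h2 ▸ rem _ _ _ _ _ _ (G.hq.comp hol_p2) h1, ?_⟩
  obtain ⟨V, g, g1, g2, g3⟩ := par_of_res res _ _ S h1
  rw [h2, g2, image_iUnion]
  refine El.Lb.dm_iUnion fun e => ?_
  rw [← range_comp]
  have ha : HolM _ _ fun v => G.W.p1 G.W (g e v) := hol_p1.comp (g1 e)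
  have hb : HolM _ _ fun v => G.W.p2 G.W (g e v) := hol_p2.comp (g1 e)
  have hm : ∀ v, g e v ∈ S := fun v => g2 ▸ mem_iUnion.2 ⟨e, v, rfl⟩
  generalize hA : (fun v => G.W.p1 G.W (g e v)) = a at ha
  generalize hB : (fun v => G.W.p2 G.W (g e v)) = b at hb
  have e1 : ∀ v, G.p (a v) ∈ L.U (ix L x) := fun v => by
    rw [← hA, show G.p (G.W.p1 G.W (g e v)) = x from (hm v).1]
    exact ix_mem L x
  have e2 : ∀ v, G.q (a v) = G.p (b v) := fun v => by
    rw [← hA, ← hB]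
    exact (hm v).2
  have hr : HolM _ d fun v => G.q (b v) := G.hq.comp hb
  have e6 : ∀ v, G.p (b v) ∈ L.U (ix L (G.q (a v))) := fun v => e2 v ▸ ix_mem L _
  have e3 : ∀ l j v, G.q (a v) ∈ L.U l → G.q (b v) ∈ L.U j →
      h (ix L x) (ix L (G.q (a v))) (a v) * h (ix L (G.q (a v))) j (b v) =
        h (ix L x) l (a v) * h l j (b v) := by
    intro l j v k1 k2
    rw [hU.c1 _ l j (b v) (e6 v) (e2 v ▸ k1) k2, ← mul_assoc, ← e2,
      hU.c2 _ _ l (a v) (e1 v) (ix_mem L _) k1]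
  have e4 : ∀ j v, G.q (b v) ∈ L.U j →
      h (ix L x) (ix L (G.q (a v))) (a v) * h (ix L (G.q (a v))) j (b v) ≠ 0 := fun j v k1 =>
    mul_ne_zero (hU.ne _ _ _ (e1 v) (ix_mem L _)) (hU.ne _ _ _ (e6 v) k1)
  have key := hI d n X w s hd hs ι L ρ hρ hn hi hc _ (V e) _ k
    (fun j v => (h (ix L x) (ix L (G.q (a v))) (a v) * h (ix L (G.q (a v))) j (b v))⁻¹)
    (g3 e (G.kah.prod G.kah)) hr hk
    (fun j v k1 => ⟨by
      refine P277Z.Hol.inv (P277Z.Hol.congr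
        ((ha.hol (hU.hol _ _ _ (e1 v) (ix_mem L (G.q (a v))))).mul (hb.hol (hU.hol _ j _ (e6 v) k1))) ?_) (e4 j v k1)
      filter_upwards [((G.hq.comp ha).cont.continuousAt (x := v)).eventually
        ((L.isOpen _).mem_nhds (ix_mem L (G.q (a v)))),
        (hr.cont.continuousAt (x := v)).eventually ((L.isOpen _).mem_nhds k1)] with y k2 k3
      exact (e3 _ j y k2 k3).symm, inv_ne_zero (e4 j v k1)⟩)
    fun i j v k1 k2 => by
      have k3 := e4 i v k1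
      have k4 := L.ne_zero i j _ k1 k2
      rw [← hU.c2 _ i j (b v) (e6 v) k1 k2, ← mul_assoc]
      field_simp
  have e5 : (fun c => G.q (G.W.p2 G.W c)) ∘ g e = fun v => G.q (b v) := by
    rw [← hB]
    rfl
  rw [e5]
  exact DimA.dm_range hr fun v => DimA.rk_le hd (hs.nondeg _ _ (at_chart _)) _
    (key v _ _ (at_chart v) (at_chart _))

end Vale.Agent.P301Z.Sa
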