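import Vale.Agent.P301Z.Sa.Defs
import Vale.Agent.P277Z.Luf.Ufd

/-!
# P301Z, block ABUN: divisibility from bounds on all powers
-/

open scoped Topology
open Set Filter Metric
open Vale.Agent.P272.K
open Vale.Agent.P277Z Vale.Agent.P277Z.Oka

noncomputable section

namespace Vale.Agent.P301Z.Sa

namespace Divl

variable {D : ℕ} {x : Cm D}

theorem ne_near {w : Cm D → ℂ} (hw : AnalyticAt ℂ w x) (h : gm x w ≠ 0) :
    ∀ᶠ y in 𝓝 x, ∃ᶠ z in 𝓝 y, w z ≠ 0 := by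
  obtain ⟨r, hr, hb⟩ := eventually_nhds_iff_ball.1 hw.eventually_analyticAt
  filter_upwards [ball_mem_nhds x hr] with y hy
  rw [← not_eventually]
  intro h3
  refine h ((gm_eq_zero hw).2 ?_)
  filter_upwards [ball_mem_nhds x hr] with z hz
  exact AnalyticOnNhd.eqOn_zero_of_preconnected_of_eventuallyEq_zero hb
    (convex_ball _ _).isPreconnected hy h3 hz

theorem cancel {w u v : Cm D → ℂ} (hw : AnalyticAt ℂ w x) (h : gm x w ≠ 0)
    (hu : AnalyticAt ℂ u x) (hv : AnalyticAt ℂ v x) {C : ℝ}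
    (hle : ∀ᶠ y in 𝓝 x, ‖w y‖ * ‖u y‖ ≤ ‖w y‖ * (C * ‖v y‖)) :
    ∀ᶠ y in 𝓝 x, ‖u y‖ ≤ C * ‖v y‖ := by
  filter_upwards [ne_near hw h, hle.eventually_nhds, hu.eventually_analyticAt,
    hv.eventually_analyticAt] with y h1 h2 h3 h4
  refine le_of_tendsto_of_tendsto_of_frequently h3.continuousAt.norm
    (h4.continuousAt.norm.const_mul C) ((h1.and_eventually h2).mono fun z hz => ?_)
  exact le_of_mul_le_mul_left hz.2 (norm_pos_iff.2 hz.1)

end Divl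

open Divl in
theorem divl : DIVL := by
  intro D a b G x ha hb hG hb0 hG0 h
  have b0 : gm x b ≠ 0 := fun e => hb0 (((gm_eq_zero hb).1 e).mono fun y hy k => k hy)
  have G0 : gm x G ≠ 0 := fun e => hG0 (((gm_eq_zero hG).1 e).mono fun y hy k => k hy)
  refine (Luf.dvd_iff hb ha).1 ?_
  obtain ⟨a', b', c, hrel, e1, e2⟩ :=
    UniqueFactorizationMonoid.exists_reduced_factors' (gm x a) (gm x b) b0
  suffices hu : IsUnit b' by
    rw [← e1, ← e2]
    exact mul_dvd_mul_left _ hu.dvd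
  by_contra hu
  obtain ⟨π, hπ, b'', rfl⟩ := WfDvdMonoid.exists_irreducible_factor hu
    (fun e => b0 (by rw [← e2, e, mul_zero]))
  have hp : Prime π := UniqueFactorizationMonoid.irreducible_iff_prime.1 hπ
  obtain ⟨k, G', hG', e3⟩ := WfDvdMonoid.max_power_factor' G0 hπ.not_isUnit
  have c0 : c ≠ 0 := fun e => b0 (by rw [← e2, e, zero_mul])
  obtain ⟨a', ha', rfl⟩ := gm_surj x a'
  obtain ⟨b'', hb'', rfl⟩ := gm_surj x b''
  obtain ⟨c, hc, rfl⟩ := gm_surj x c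
  obtain ⟨π, hπ', rfl⟩ := gm_surj x π
  obtain ⟨G', hG'', rfl⟩ := gm_surj x G'
  rw [← gm_mul hc ha', gm_eq_iff (hc.fun_mul ha') ha] at e1
  rw [← gm_mul hπ' hb'', ← gm_mul hc (hπ'.fun_mul hb''),
    gm_eq_iff (hc.fun_mul (hπ'.fun_mul hb'')) hb] at e2
  rw [← gm_pow hπ', ← gm_mul (hπ'.fun_pow k) hG'',
    gm_eq_iff hG ((hπ'.fun_pow k).fun_mul hG'')] at e3
  obtain ⟨C, hC⟩ := h (k + 1)
  have hw : AnalyticAt ℂ (fun y => c y ^ (k + 1) * π y ^ k) x :=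
    (hc.fun_pow _).fun_mul (hπ'.fun_pow k)
  have hu' : AnalyticAt ℂ (fun y => a' y ^ (k + 1) * G' y) x := (ha'.fun_pow _).fun_mul hG''
  have hv : AnalyticAt ℂ (fun y => b'' y ^ (k + 1) * π y) x := (hb''.fun_pow _).fun_mul hπ'
  have w0 : gm x (fun y => c y ^ (k + 1) * π y ^ k) ≠ 0 := by
    rw [gm_mul (hc.fun_pow _) (hπ'.fun_pow k), gm_pow hc, gm_pow hπ']
    exact mul_ne_zero (pow_ne_zero _ c0) (pow_ne_zero _ hp.ne_zero)
  have h1 := cancel hw w0 hu' hv (C := C) (by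
    filter_upwards [e1, e2, e3, hC] with y k1 k2 k3 k4
    rw [← k1, ← k2, k3] at k4
    simp only [norm_mul, norm_pow] at k4 ⊢
    calc _ = (‖c y‖ * ‖a' y‖) ^ (k + 1) * (‖π y‖ ^ k * ‖G' y‖) := by ring
      _ ≤ _ := k4
      _ = _ := by ring)
  have h2 := (Luf.red_of hπ' hp.isRadical).self_of_nhds _ hu' (by
    filter_upwards [h1] with y k1 k2
    rw [k2, mul_zero, norm_zero, mul_zero] at k1
    exact norm_le_zero_iff.1 k1)
  rw [Luf.in_one' hπ' hu', gm_mul (ha'.fun_pow _) hG'', gm_pow ha'] at h2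
  rcases hp.dvd_or_dvd h2 with k1 | k1
  · exact hp.not_isUnit (hrel (hp.dvd_of_dvd_pow k1) (dvd_mul_right _ _))
  · exact hG' k1

end Vale.Agent.P301Z.Sa
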