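import Vale.Agent.P301Z.Sa.GeoA
import Vale.Agent.P281Z.Mf.Prod
import Vale.Agent.P281Z.Fi.Fib
import Vale.Agent.P281Z.St.All
import Vale.Agent.P281Z.Nt.Neat
import Vale.Agent.P281Z.Rs.All

/-!
# P301Z, block ABUN: the resolution of the relation
-/

open scoped Manifold ContDiff Topology
open Set Filter Metric
open Vale.Agent.P272.K
open Vale.Agent.P277Z (Hol at_chart)
open Vale.Agent.P277Z.Slc (Ind)
open Vale.Agent.P281Z
open Vale.Agent.P281Z.Lf (Fo)

noncomputable section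

namespace Vale.Agent.P301Z.Sa

namespace Geo

/-- limits of connected sets -/
theorem conn_lim {W X : Type} [TopologicalSpace W] [TopologicalSpace X] [CompactSpace W] [T2Space X]
    {p q : W → X} (hp : Continuous p) (hq : Continuous q) {D : Set W} (hD : Dense D)
    (refl : ∀ x, ∃ z, p z = x ∧ q z = x) (h : ∀ z ∈ D, IsPreconnected (q '' (p ⁻¹' {p z}))) (x : X) :
    IsPreconnected (q '' (p ⁻¹' {x})) := by
  have hc : IsCompact (q '' (p ⁻¹' {x})) := (isClosed_singleton.preimage hp).isCompact.image hq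
  have key : ∀ U V : Set X, IsOpen U → IsOpen V → Disjoint U V → q '' (p ⁻¹' {x}) ⊆ U ∪ V →
      x ∈ U → q '' (p ⁻¹' {x}) ⊆ U := by
    rintro U V hU hV e k hx _ ⟨z, rfl, rfl⟩
    refine (k ⟨z, rfl, rfl⟩).resolve_right fun c => ?_
    obtain ⟨w, w1, w2, w3, w4⟩ := ((mem_closure_iff_frequently.1 (hD z)).and_eventually
      ((hp.continuousAt.eventually (hp.isClosedMap.eventually_nhds_fiber (p := fun v => q v ∈ U ∪ V)
        (p z) fun v a => hq.continuousAt.eventually ((hU.union hV).mem_nhds (k ⟨v, a, rfl⟩)))).and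
        ((hp.continuousAt.eventually (hU.mem_nhds hx)).and
          (hq.continuousAt.eventually (hV.mem_nhds c))))).exists
    obtain ⟨v, v1, v2⟩ := refl (p w)
    have k1 : q '' (p ⁻¹' {p w}) ⊆ U := (h w w1).subset_left_of_subset_union hU hV e
      (by rintro _ ⟨a, b, rfl⟩; exact w2 a b) ⟨p w, ⟨v, v1, v2⟩, w3⟩
    exact disjoint_left.1 e (k1 ⟨w, rfl, rfl⟩) w4
  refine (isPreconnected_iff_subset_of_disjoint_closed.2 fun u v hu hv k e => ?_)
  obtain ⟨U, V, hU, hV, h3, h4, h5⟩ := SeparatedNhds.of_isCompact_isCompact (hc.inter_right hu)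
    (hc.inter_right hv) (disjoint_left.2 fun y a b => e.le ⟨a.1, a.2, b.2⟩)
  have k' : q '' (p ⁻¹' {x}) ⊆ U ∪ V := fun y a => (k a).imp (fun b => h3 ⟨a, b⟩) fun b => h4 ⟨a, b⟩
  obtain ⟨z, z1, z2⟩ := refl x
  exact (k' ⟨z, z1, z2⟩).imp (fun c y a => (k a).resolve_right fun b =>
      disjoint_left.1 h5 (key U V hU hV h5 k' c a) (h4 ⟨a, b⟩)) fun c y a =>
    (k a).resolve_left fun b =>
      disjoint_left.1 h5 (h3 ⟨a, b⟩) (key V U hV hU h5.symm (union_comm U V ▸ k') c a)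

variable {d n : ℕ} {X : Mf d} {u : Fin n → X.X → ℂ} {B₀ : Set X.X} {F : Fo X u B₀} {Q : Set F.Z.X}

theorem Gd.rt (h : Gd F Q) : Nonempty (Rt X u (bad F Q)) := by
  have hB := h.thinB rem
  let V := F.W'
  let a : (V.prod V).X → X.X := fun w => F.μ (V.p1 V w)
  let b : (V.prod V).X → X.X := fun w => F.μ (V.p2 V w)
  have ha : HolM (d + d) d a := F.modif.hol.comp hol_p1
  have hb : HolM (d + d) d b := F.modif.hol.comp hol_p2
  have cμ := F.modif.hol.cont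
  obtain ⟨I, hI⟩ := Rs.idl' Rs.idl _ _ _ ((hB.1.pre ha).union (hB.1.pre hb))
  have mI : ∀ {w}, w ∉ I.Z ↔ a w ∉ bad F Q ∧ b w ∉ bad F Q := by rw [hI]; exact not_or
  obtain ⟨W, π, -, -, o, -, -, -, k, -⟩ := res (d + d) (d + n) _ (fp F.γ F.γ) I (fp_an F.hol F.hol)
    (fp_subM (by have := h.dim; omega) F.hol F.hol
      (hI ▸ ((hB.1.pre ha).union (hB.1.pre hb)).closed).isOpen_compl
      fun z c => .inl (F.sbm _ (bad_iff.1 (mI.1 c.2).1).1))
  have cp := (ha.comp o.hol).cont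
  have cq := (hb.comp o.hol).cont
  have fb : ∀ z, F.γ (V.p1 V (π z)) = F.γ (V.p2 V (π z)) := o.maps
  have nb : ∀ {y}, F.μ y ∉ bad F Q → F.μ y ∉ F.B := fun c d => c (.inl d)
  have pair : ∀ y y', F.γ y ∉ Q → F.γ y' = F.γ y → ∃ z, π z = V.pair V y y' := fun y y' c e => by
    refine o.rng.ge (closure_mono (s := (F.γ ⁻¹' {F.γ y} ∩ off F.G) ×ˢ (F.γ ⁻¹' {F.γ y} ∩ off F.G))
      (fun w k => ?_) (closure_prod_eq.ge ⟨h.dens c rfl, h.dens c e⟩))
    have k1 : F.γ (V.p1 V w) = F.γ y := k.1.1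
    have k2 : F.γ (V.p2 V w) = F.γ y := k.2.1
    exact ⟨k1.trans k2.symm, mI.2 ⟨bad_iff.2 ⟨k.1.2, k1.symm ▸ c⟩, bad_iff.2 ⟨k.2.2, k2.symm ▸ c⟩⟩⟩
  have pair' : ∀ y y', F.γ y ∉ Q → F.γ y' = F.γ y → ∃ z, a (π z) = F.μ y ∧ b (π z) = F.μ y' :=
    fun y y' c e => (pair y y' c e).imp fun z k => ⟨congrArg a k, congrArg b k⟩
  have cl : IsClosed (range fun z => (a (π z), b (π z))) := (isCompact_range (cp.prodMk cq)).isClosed
  have img : ∀ y, F.μ y ∉ bad F Q →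
      (fun z => b (π z)) '' ((fun z => a (π z)) ⁻¹' {F.μ y}) = F.μ '' (F.γ ⁻¹' {F.γ y}) := fun y c => by
    refine subset_antisymm ?_ ?_
    · rintro _ ⟨z, e, rfl⟩
      exact ⟨_, (fb z).symm.trans (congrArg F.γ (F.modif.inj (nb c) e)), rfl⟩
    · rintro _ ⟨y', e, rfl⟩
      exact pair' y y' (bad_iff.1 c).2 e
  have refl : ∀ x, ∃ z, a (π z) = x ∧ b (π z) = x := fun x => by
    obtain ⟨z, e⟩ : (x, x) ∈ range fun z => (a (π z), b (π z)) :=
      cl.closure_subset (map_mem_closure (f := fun x => (x, x)) (continuous_id.prodMk continuous_id)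
        (hB.2 x) fun x c => by
          obtain ⟨y, rfl⟩ := F.modif.surj x
          exact (pair' y y (bad_iff.1 c).2 rfl).imp fun z k => Prod.ext k.1 k.2)
    exact ⟨z, congrArg Prod.fst e, congrArg Prod.snd e⟩
  have lift : ∀ z, π z ∉ I.Z → ∀ σ : V.X → (V.prod V).X, ∀ y, σ y = π z → HolA d (d + d) σ y →
      (∀ᶠ v in 𝓝 y, σ v ∈ fp F.γ F.γ) → ∀ c : (V.prod V).X → V.X, HolM (d + d) d c →
      (∀ v, c (σ v) = v) → F.μ y ∉ bad F Q → Sbm (d + n) d (fun z => F.μ (c (π z))) z := by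
    intro z hz σ y s1 s2 s3 c c1 c2 c3
    have : Nonempty W.X := ⟨z⟩
    let l : V.X → W.X := fun v => Classical.epsilon fun w => π w = σ v
    have l1 : ∀ᶠ v in 𝓝 y, σ v = π (l v) := by
      filter_upwards [s3, s2.cont.eventually ((hI ▸ ((hB.1.pre ha).union
        (hB.1.pre hb)).closed : IsClosed I.Z).isOpen_compl.mem_nhds (s1.symm ▸ hz))] with v v1 v2
      exact (Classical.epsilon_spec (p := fun w => π w = σ v) (o.ex v1 v2)).symm
    have l2 : l y = z := o.inj hz (l1.self_of_nhds.symm.trans s1)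
    rw [← l2]
    exact Sbm.of_comp ((F.modif.hol.comp (c1.comp o.hol)).at _)
      (o.lift_at (l2.symm ▸ hz) (s2.cng l1))
      ((F.modif.sbm (nb c3)).cng (l1.mono fun v e => by rw [← e, c2]))
  refine ⟨⟨W, fun z => a (π z), fun z => b (π z), k (F.kah.prod F.kah), ha.comp o.hol,
    hb.comp o.hol, hB, (hI ▸ o.thin (hI ▸ (hB.1.pre ha).union (hB.1.pre hb)) :), fun z c c' => ?_,
    fun z c c' => ?_, fun z z' c c' e e' => o.inj (mI.2 ⟨c, c'⟩)
      (prod_ext (F.modif.inj (nb c) e) (F.modif.inj (nb c') e')), fun z c c' => ?_, refl,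
    fun z => ?_, fun z z' c e => ?_, fun x c => ?_, fun z c c' => F.fac _ (bad_iff.1 c).1 _
      (bad_iff.1 c').1 (fb z), fun x c => ?_, conn_lim cp cq o.dense refl fun z c => ?_,
    fun s N n1 n2 x c n3 => ?_⟩⟩
  · obtain ⟨g, g1, g2, g3⟩ := (F.sbm _ (bad_iff.1 c').1).sec (F.hol.at _)
    rw [← fb z] at g1 g2 g3
    exact lift z (mI.2 ⟨c, c'⟩) (fun v => V.pair V v (g (F.γ v))) _ (prod_ext rfl g1)
      ((holM_id.at _).pair (g2.cmp (F.hol.at _)))
      ((F.hol.cont.continuousAt.eventually g3).mono fun v e => e.symm) _ hol_p1 (fun _ => rfl) c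
  · obtain ⟨g, g1, g2, g3⟩ := (F.sbm _ (bad_iff.1 c).1).sec (F.hol.at _)
    rw [fb z] at g1 g2 g3
    exact lift z (mI.2 ⟨c, c'⟩) (fun v => V.pair V (g (F.γ v)) v) _ (prod_ext g1 rfl)
      ((g2.cmp (F.hol.at _)).pair (holM_id.at _))
      (F.hol.cont.continuousAt.eventually g3) _ hol_p2 (fun _ => rfl) c'
  · refine Imm.comp (g := fun w => X.pair X (a w) (b w)) ((ha.pair hb).at _) (o.hol.at z) ?_
      (o.imm z (mI.2 ⟨c, c'⟩))
    have k : ∀ g : (V.prod V).X → V.X, HolM (d + d) d g → F.μ (g (π z)) ∉ bad F Q → ∀ v,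
        df (fun w => F.μ (g w)) (chartAt _ (π z)) (chartAt _ (F.μ (g (π z)))) (π z) v = 0 →
        df g (chartAt _ (π z)) (chartAt _ (g (π z))) (π z) v = 0 := fun g g1 g2 v e => by
      rw [df_comp (F.modif.hol.at _) (g1.at _) (at_chart _) (at_chart _) (at_chart _)] at e
      exact F.modif.imm (nb g2) _ _ (at_chart _) (at_chart _) (e.trans (map_zero _).symm)
    exact (imm_pair (ha.at _) (hb.at _) (at_chart _) (at_chart _) (at_chart _)).2 fun v v1 v2 =>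
      (imm_pair (hol_p1.at _) (hol_p2.at _) (at_chart _) (at_chart _) (at_chart _)).1
        ((imm_id (π z)).cng (.of_forall fun w => prod_ext rfl rfl)) v
        (k _ hol_p1 c v v1) (k _ hol_p2 c' v v2)
  · obtain ⟨z', e⟩ : (b (π z), a (π z)) ∈ range fun z => (a (π z), b (π z)) :=
      cl.closure_subset (map_mem_closure (f := fun z => (b (π z), a (π z))) (cq.prodMk cp)
        (o.dense z) fun w c => (pair' _ _ (bad_iff.1 (mI.1 c).2).2 (fb w)).imp
          fun z k => Prod.ext k.1 k.2)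
    exact ⟨z', congrArg Prod.fst e, congrArg Prod.snd e⟩
  · exact pair' _ _ (fb z ▸ (bad_iff.1 c).2)
      ((fb z').symm.trans ((congrArg F.γ (F.modif.inj (nb c) e)).trans (fb z)))
  · obtain ⟨y, rfl⟩ := F.modif.surj x
    exact F.ind y (bad_iff.1 c).1
  · obtain ⟨y, rfl⟩ := F.modif.surj x
    rw [img y c, show F.μ '' (F.γ ⁻¹' {F.γ y}) \ bad F Q = F.μ '' (F.γ ⁻¹' {F.γ y} ∩ off F.G) from
      subset_antisymm (fun _ ⟨⟨w, e, r⟩, k⟩ => ⟨w, ⟨e, (bad_iff.1 (r ▸ k)).1⟩, r⟩)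
        fun _ ⟨w, e, r⟩ => ⟨⟨w, e.1, r⟩, r ▸ bad_iff.2
          ⟨e.2, (show F.γ w = F.γ y from e.1).symm ▸ (bad_iff.1 c).2⟩⟩]
    exact ((h.offc (bad_iff.1 c).2).image _ cμ.continuousOn).2
  · rw [show a (π z) = F.μ (V.p1 V (π z)) from rfl, img _ (mI.1 c).1]
    exact ((h.conn (bad_iff.1 (mI.1 c).1).2).image _ cμ.continuousOn).2
  · obtain ⟨y, rfl⟩ := F.modif.surj x
    obtain ⟨O, b', r, t1, t2, t3, t4⟩ := h.tube s n1 n2 c fun y' e =>
      let ⟨z, z1, z2⟩ := pair' y y' (bad_iff.1 c).2 e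
      z2 ▸ n3 z z1
    refine ⟨O, b', r, t1, t2, t3, fun v v1 v' v2 e => ?_⟩
    obtain ⟨w, w', k1, k2, rfl, rfl⟩ := t4 v v1 v' v2 e
    exact pair' w w' k1 k2

end Geo

theorem geo : GEO := by
  intro d n X _ u B₀ hd hK h1 h2 h3 h4
  obtain ⟨F⟩ := Fi.fib_of res (St.start_of genS) genS d X n u B₀ ‹_› hK h1 h2 h3 h4
  obtain ⟨Q, q1, q2⟩ := genS d n F.W' F.Z F.γ _ F.G F.hol F.snc
  exact ⟨Geo.bad F Q, F.sub.trans subset_union_left,
    Geo.Gd.rt ⟨hd.trans (two_mul n), q1, q2, h3⟩⟩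

end Vale.Agent.P301Z.Sa
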