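import Vale.Agent.P301Z.Sa.Defs
import Vale.Agent.P301.H450.HI
import Vale.Agent.P301.H98.Sec

/-!
# P301Z, block ABUN: row HKE
-/

open scoped Manifold ContDiff ComplexOrder Topology Matrix
open Vale.Agent.P272.K Vale.Agent.P301.H599 Vale.Agent.P301.H450
open Vale.Agent.P272.K.INT (IsClosedForm)

namespace Vale.Agent.P301Z.Sa

theorem hke : HKE := by
  intro d n X _ w s _ h ι L ρ hρ hn _ hc
  have hd : 0 < d := by
    refine Nat.pos_of_ne_zero fun k => hc ⟨fun _ => 0, fun _ _ _ => contDiffAt_const, ?_⟩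
    subst k
    exact fun _ _ _ => Matrix.ext fun a _ => a.elim0
  have hθ : IsReal11 (curvature L ρ) :=
    ⟨(P301.H98.rform_curvature hρ).closed, (P301.H98.rform_curvature hρ).herm⟩
  have hn' : IsNef w (curvature L ρ) := hn
  have hne : ¬ IsExact (curvature L ρ) := fun ⟨u, hu, k⟩ =>
    hc ⟨u, hu, fun e x hx => by rw [k e x hx, zero_add]⟩
  generalize curvature L ρ = θ at hθ hn' hne ⊢
  have hw := h.kahler
  obtain ⟨u0, κ0, hu0, hk0⟩ := exists_rf h hw
  have S := SData.of h hk0
  have c0 := INT.IsKahler.isClosedForm hw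
  have cθ := hθ.toIsClosedForm
  have v0 : 0 < d * vol s := mul_pos (by exact_mod_cast hd) (vol_pos S)
  have p0 : 0 < q s θ w := by
    have a := q_nef_pos hd h hk0 hw hθ hn' hne
    have b : q s θ (addH w u0) = q s θ w := by
      show q s θ (fun e z => w e z + ddc u0 e z) = _
      rw [q_add_right S cθ c0 (isClosed_ddc hu0), q_hess_right S cθ hu0, add_zero]
    rwa [b] at a
  refine ⟨2 * q s θ w / (d * vol s), by positivity, fun ε hε => ?_⟩
  obtain ⟨u, hu, hpos⟩ := hn' (ε / 2) (by positivity)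
  have c1 : IsClosedForm fun e z => θ e z + (ε : ℂ) • w e z := cθ.add (c0.smul _)
  have r1 : IsReal11 fun e z => (θ e z + (ε : ℂ) • w e z) + ddc u e z :=
    (hθ.add ((isReal11_kahler hw).smul _)).add (isReal11_ddc hu)
  have hk : IsKahler fun e z => (θ e z + (ε : ℂ) • w e z) + ddc u e z := by
    refine isKahler_of r1 fun e x hx => ?_
    have h2 : (((ε / 2 : ℝ) : ℂ) • w e (e x)).PosDef :=
      (hw.posDef e x hx).smul (by exact_mod_cast half_pos hε)
    have h3 := Matrix.PosDef.add_posSemidef h2 (hpos e x hx)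
    have e1 : (ε : ℂ) • w e (e x) =
        ((ε / 2 : ℝ) : ℂ) • w e (e x) + ((ε / 2 : ℝ) : ℂ) • w e (e x) := by
      rw [← add_smul, ← Complex.ofReal_add, add_halves]
    rwa [← add_assoc, add_left_comm, ← e1] at h3
  obtain ⟨u', κ, hu', hk'⟩ := exists_rf h hk
  refine ⟨_, fun x => u x + u' x, κ, hk', ?_, fun e x hx => (hu e x hx).add (hu' e x hx),
    fun e x hx => ?_⟩
  · have a := q_self (SData.of h hk')
    have c2 := c1.add (isClosed_ddc hu)
    have c3 : IsClosedForm (addH (fun e z => (θ e z + (ε : ℂ) • w e z) + ddc u e z) u') :=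
      c2.add (isClosed_ddc hu')
    have b : ∀ t, IsClosedForm t → q s (addH (fun e z => (θ e z + (ε : ℂ) • w e z) + ddc u e z) u') t =
        q s θ t + ε * q s w t := fun t ht => by
      show q s (fun e z => ((θ e z + (ε : ℂ) • w e z) + ddc u e z) + ddc u' e z) t = _
      rw [q_add_left S c2 (isClosed_ddc hu') ht, q_hess_left S ht hu',
        q_add_left S c1 (isClosed_ddc hu) ht, q_hess_left S ht hu, q_add_left S cθ (c0.smul _) ht,
        q_smul_left]
      ring
    rw [b _ c3, q_symm S θ, q_symm S w, b _ cθ, b _ c0, q_symm S w θ] at a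
    have n1 := q_nef_self h hk0 hw hθ hn'
    have n2 : 0 ≤ q s w w := q_nonneg S (fun e x hx => (hw.posDef e x hx).posSemidef)
      fun e x hx => (hw.posDef e x hx).posSemidef
    rw [div_mul_eq_mul_div, div_le_iff₀ v0, ← a]
    nlinarith [mul_nonneg (mul_pos hε hε).le n2]
  · show θ e (e x) + (ε : ℂ) • w e (e x) + ddc u e (e x) + ddc u' e (e x) = _
    rw [add_assoc]
    exact congrArg _ (C2.cHess_add ((hu e x hx).of_le (by norm_cast))
      ((hu' e x hx).of_le (by norm_cast))).symm

end Vale.Agent.P301Z.Sa
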