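import Vale.Agent.P301Z.Sa.Defs

/-!
# P301Z, block ABUN: the row `ISO`
-/

open scoped Manifold ContDiff Topology Matrix ComplexOrder
open Set Filter Metric MeasureTheory
open Vale.Agent.P272.K Vale.Agent.P301.H599 Vale.Agent.P301.H99
open Vale.Agent.P272.K.AMP
open Vale.Agent.P277Z (Hol Mer)
open Vale.Agent.P281Z
open Vale.Agent.P301.H450 (IsHK)
open Vale.Agent.P299.D (pullM)
open Vale.Agent.P299.H956 (jmR)

noncomputable section

namespace Vale.Agent.P301Z.Sa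

namespace IsoAux

section alg

variable {d m : ℕ}

/-- the value of the Hermitian form `A` at `a` -/
def qf (A : Matrix (Fin d) (Fin d) ℂ) (a : Cm d) : ℝ := (a ⬝ᵥ (A *ᵥ star a)).re

theorem qf_nonneg {A : Matrix (Fin d) (Fin d) ℂ} (hA : A.PosSemidef) (a : Cm d) : 0 ≤ qf A a := by
  have h := hA.dotProduct_mulVec_nonneg (star a)
  rw [star_star] at h
  exact (Complex.le_def.1 h).1

theorem qf_pos {A : Matrix (Fin d) (Fin d) ℂ} (hA : A.PosDef) {a : Cm d} (ha : a ≠ 0) :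
    0 < qf A a := by
  have h := hA.dotProduct_mulVec_pos (x := star a) (star_ne_zero.2 ha)
  rw [star_star] at h
  exact (Complex.lt_def.1 h).1

theorem star_dot (x : Cm d) : (star x ⬝ᵥ x).re = ∑ i, ‖x i‖ ^ 2 := by
  rw [dotProduct, Complex.re_sum]
  refine Finset.sum_congr rfl fun i _ => ?_
  rw [Pi.star_apply, RCLike.star_def, mul_comm, Complex.mul_conj, Complex.normSq_eq_norm_sq,
    Complex.ofReal_re]

theorem cs {A : Matrix (Fin d) (Fin d) ℂ} (hA : A.PosSemidef) (x y : Cm d) :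
    ‖star x ⬝ᵥ (A *ᵥ y)‖ ^ 2 ≤ (star x ⬝ᵥ (A *ᵥ x)).re * (star y ⬝ᵥ (A *ᵥ y)).re := by
  obtain ⟨B, rfl⟩ := C2.exists_factor hA
  have h : ∀ u v : Cm d, star u ⬝ᵥ ((Bᴴ * B) *ᵥ v) = star (B *ᵥ u) ⬝ᵥ (B *ᵥ v) := fun u v => by
    rw [← Matrix.mulVec_mulVec, Matrix.dotProduct_mulVec, Matrix.vecMul_conjTranspose, star_star]
  rw [h, h, h, star_dot, star_dot]
  have b1 : ‖star (B *ᵥ x) ⬝ᵥ (B *ᵥ y)‖ ≤ ∑ i, ‖(B *ᵥ x) i‖ * ‖(B *ᵥ y) i‖ := by
    refine (norm_sum_le _ _).trans (le_of_eq ?_)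
    exact Finset.sum_congr rfl fun i _ => by rw [norm_mul, Pi.star_apply, norm_star]
  calc _ ≤ (∑ i, ‖(B *ᵥ x) i‖ * ‖(B *ᵥ y) i‖) ^ 2 := by gcongr
    _ ≤ _ := Finset.sum_mul_sq_le_sq_mul_sq Finset.univ _ _

/-- the symplectic form is bounded by a compatible metric -/
theorem key {A S : Matrix (Fin d) (Fin d) ℂ} (hA : A.PosDef) (hS : IsUnit S.det) {κ : ℝ}
    (hκ : 0 < κ) (h : A * (Sᴴ)⁻¹ * Aᵀ = (κ : ℂ) • S) (a b : Cm d) :
    κ * ‖a ⬝ᵥ (S *ᵥ b)‖ ^ 2 ≤ qf A a * qf A b := by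
  have h1 : A *ᵥ (((Sᴴ)⁻¹ * Aᵀ) *ᵥ b) = (κ : ℂ) • (S *ᵥ b) := by
    rw [Matrix.mulVec_mulVec, ← Matrix.mul_assoc, h, Matrix.smul_mulVec]
  have h2 := cs hA.posSemidef (star a) (((Sᴴ)⁻¹ * Aᵀ) *ᵥ b)
  have h3 : star (((Sᴴ)⁻¹ * Aᵀ) *ᵥ b) ⬝ᵥ (S *ᵥ b) = b ⬝ᵥ (A *ᵥ star b) := by
    rw [Matrix.star_mulVec, ← Matrix.dotProduct_mulVec, Matrix.mulVec_mulVec,
      Matrix.conjTranspose_mul, Matrix.conjTranspose_nonsing_inv,
      Matrix.conjTranspose_conjTranspose, Matrix.mul_assoc, Matrix.nonsing_inv_mul _ hS,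
      Matrix.mul_one, hA.isHermitian.transpose.eq, Matrix.dotProduct_mulVec,
      Matrix.vecMul_transpose, dotProduct_comm]
  rw [star_star, h1, dotProduct_smul, dotProduct_smul, h3, norm_smul, smul_eq_mul,
    Complex.re_ofReal_mul, Complex.norm_real, Real.norm_of_nonneg hκ.le] at h2
  refine le_of_mul_le_mul_left ?_ hκ
  unfold qf
  nlinarith [h2]

theorem qf_le {K A : Matrix (Fin m) (Fin m) ℂ} (hK : K.PosDef) (hA : A.PosSemidef) (a : Cm m) :
    qf A a ≤ (K⁻¹ * A).trace.re * qf K a := by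
  have h1 := qf_nonneg (C2.trace_smul_sub_posSemidef hK hA) a
  have h2 := (Complex.le_def.1 (C2.trace_mul_nonneg hK.inv.posSemidef hA)).2
  unfold qf at h1 ⊢
  rw [Matrix.sub_mulVec, dotProduct_sub, Matrix.smul_mulVec, dotProduct_smul, smul_eq_mul,
    Complex.sub_re, Complex.mul_re, ← h2] at h1
  simpa using h1

theorem qf_pull (J : Matrix (Fin d) (Fin m) ℂ) (A : Matrix (Fin d) (Fin d) ℂ) (a : Cm m) :
    qf (Jᵀ * A * J.map (starRingEnd ℂ)) a = qf A (J *ᵥ a) := by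
  have h : J.map (starRingEnd ℂ) *ᵥ star a = star (J *ᵥ a) := by
    funext i
    simp [Matrix.mulVec, dotProduct]
  unfold qf
  rw [← Matrix.mulVec_mulVec, ← Matrix.mulVec_mulVec, h, Matrix.dotProduct_mulVec,
    Matrix.vecMul_transpose]

theorem psd_pull (J : Matrix (Fin d) (Fin m) ℂ) {A : Matrix (Fin d) (Fin d) ℂ} (hA : A.PosSemidef) :
    (Jᵀ * A * J.map (starRingEnd ℂ)).PosSemidef := by
  have h1 : Jᵀ = (J.map (starRingEnd ℂ))ᴴ := by
    ext i j
    simp [Matrix.conjTranspose_apply]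
  rw [h1]
  exact hA.conjTranspose_mul_mul_same _

/-- the lower bound for the trace -/
theorem tr_ge {K : Matrix (Fin m) (Fin m) ℂ} {A S : Matrix (Fin d) (Fin d) ℂ}
    (J : Matrix (Fin d) (Fin m) ℂ) (hK : K.PosDef) (hA : A.PosDef) (hS : IsUnit S.det) {κ μ : ℝ}
    (hκ : 0 < κ) (h : A * (Sᴴ)⁻¹ * Aᵀ = (κ : ℂ) • S) {a b : Cm m} (ha : a ≠ 0) (hb : b ≠ 0)
    (hμ : μ ^ 2 * (qf K a * qf K b) ≤ κ * ‖(J *ᵥ a) ⬝ᵥ (S *ᵥ (J *ᵥ b))‖ ^ 2) :
    μ ≤ (K⁻¹ * (Jᵀ * A * J.map (starRingEnd ℂ))).trace.re := by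
  have hP := psd_pull J hA.posSemidef
  have h0 := (Complex.le_def.1 (C2.trace_mul_nonneg hK.inv.posSemidef hP)).1
  have h1 := qf_le hK hP a
  have h2 := qf_le hK hP b
  have h3 := key hA hS hκ h (J *ᵥ a) (J *ᵥ b)
  rw [← qf_pull, ← qf_pull] at h3
  have h4 := mul_le_mul h1 h2 (qf_nonneg hP b) (mul_nonneg h0 (qf_pos hK ha).le)
  have h5 := mul_pos (qf_pos hK ha) (qf_pos hK hb)
  refine le_of_sq_le_sq ?_ h0
  refine le_of_mul_le_mul_right ?_ h5
  nlinarith [h4, h3, hμ]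

end alg

section geo

variable {d m : ℕ} {X V : Type} [TopologicalSpace X] [ChartedSpace (Cm d) X]
  [IsManifold 𝓘(ℂ, Cm d) ω X] [TopologicalSpace V] [ChartedSpace (Cm m) V]
  [IsManifold 𝓘(ℂ, Cm m) ω V] {ι : Type} {L : LineBundle d X ι} {ρ : ι → X → ℝ} {r : V → X}
  {k : ℕ} {τ : ι → V → ℂ} {v : X → ℝ} {e : Chart m V} {e' : Chart d X} {y : V}

/-- the global potential -/
def pot (L : LineBundle d X ι) (ρ : ι → X → ℝ) (r : V → X) (k : ℕ) (τ : ι → V → ℂ) (v : X → ℝ)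
    (y : V) : ℝ :=
  ρ (ix L (r y)) (r y) + v (r y) - (k : ℝ)⁻¹ * Real.log (‖τ (ix L (r y)) y‖ ^ 2)

omit [IsManifold 𝓘(ℂ, Cm d) ω X] [IsManifold 𝓘(ℂ, Cm m) ω V] in
theorem pot_eq (hρ : IsMetric L ρ) (hk : 0 < k)
    (h1 : ∀ i y, r y ∈ L.U i → Hol m (τ i) y ∧ τ i y ≠ 0)
    (h2 : ∀ i j y, r y ∈ L.U i → r y ∈ L.U j → τ i y = L.g i j (r y) ^ k * τ j y) {i : ι}
    (hi : r y ∈ L.U i) :
    pot L ρ r k τ v y = ρ i (r y) + v (r y) - (k : ℝ)⁻¹ * Real.log (‖τ i y‖ ^ 2) := by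
  have hj := ix_mem L (r y)
  have hg : ‖L.g (ix L (r y)) i (r y)‖ ≠ 0 := norm_ne_zero_iff.2 (L.ne_zero _ _ _ hj hi)
  have ht : ‖τ i y‖ ≠ 0 := norm_ne_zero_iff.2 (h1 i y hi).2
  have hk' : (k : ℝ) ≠ 0 := by exact_mod_cast hk.ne'
  unfold pot
  rw [hρ.change _ i _ hj hi, h2 _ i y hj hi, norm_mul, norm_pow, mul_pow,
    Real.log_mul (by positivity) (by positivity), ← pow_mul, mul_comm k 2, pow_mul,
    Real.log_pow (_ ^ 2) k]
  field_simp
  ring

theorem pot_loc (hρ : IsMetric L ρ) (hr : HolM m d r) (hk : 0 < k)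
    (h1 : ∀ i y, r y ∈ L.U i → Hol m (τ i) y ∧ τ i y ≠ 0)
    (h2 : ∀ i j y, r y ∈ L.U i → r y ∈ L.U j → τ i y = L.g i j (r y) ^ k * τ j y)
    (hv : Smooth (d := d) v) (he : At e y) (he' : At e' (r y)) :
    ContDiffAt ℝ ∞ (fun z => pot L ρ r k τ v (e.symm z)) (e y) ∧
      hess (pot L ρ r k τ v) e (e y) = (P299.D.jacF r e e' y)ᵀ *
        (curvature L ρ e' (e' (r y)) + ddc v e' (e' (r y))) *
          (P299.D.jacF r e e' y).map (starRingEnd ℂ) := by
  have hi := ix_mem L (r y)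
  generalize ix L (r y) = i at hi
  have hT : ContDiffAt ℂ ω (fun z => e' (r (e.symm z))) (e y) :=
    ((hr.at y).an he he').contDiffAt
  have hy : e' (r (e.symm (e y))) = e' (r y) := by rw [he.left_inv]
  have hU : ∀ᶠ z in 𝓝 (e y), r (e.symm z) ∈ L.U i := by
    have hc : ContinuousAt (fun z => r (e.symm z)) (e y) :=
      hr.cont.continuousAt.comp (e.continuousAt_symm he.mem_target)
    refine hc.eventually (p := fun x => x ∈ L.U i) ((L.isOpen i).mem_nhds ?_)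
    show r (e.symm (e y)) ∈ L.U i
    rw [he.left_inv]; exact hi
  have ev : (fun z => pot L ρ r k τ v (e.symm z)) =ᶠ[𝓝 (e y)] fun z =>
      (fun x => ρ i (e'.symm x) + v (e'.symm x)) (e' (r (e.symm z))) -
        (k : ℝ)⁻¹ * Real.log (‖τ i (e.symm z)‖ ^ 2) := by
    filter_upwards [hU, P299.H956.nhds_at_map hr.cont.continuousAt he he'] with z hz hz'
    rw [pot_eq hρ hk h1 h2 hz]
    simp only [hz'.2.2.left_inv]
  have s1 := hρ.smooth i e' _ he' hi
  have s2 := hv e' _ he'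
  have s3 : ContDiffAt ℝ ∞ (fun x => ρ i (e'.symm x) + v (e'.symm x))
      (e' (r (e.symm (e y)))) := by rw [hy]; exact s1.add s2
  have s4 : ContDiffAt ℝ ∞ (fun z => (fun x => ρ i (e'.symm x) + v (e'.symm x))
      (e' (r (e.symm z)))) (e y) :=
    s3.comp (e y) ((hT.restrict_scalars ℝ).of_le le_top)
  have t1 : ContDiffAt ℂ ω (fun z => τ i (e.symm z)) (e y) := ((h1 i y hi).1 e he).contDiffAt
  have t2 : τ i (e.symm (e y)) ≠ 0 := by rw [he.left_inv]; exact (h1 i y hi).2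
  have t3 : ContDiffAt ℝ ∞ (fun z => Real.log (‖τ i (e.symm z)‖ ^ 2)) (e y) :=
    (((t1.restrict_scalars ℝ).of_le le_top).norm_sq ℝ).log
      (pow_ne_zero 2 (norm_ne_zero_iff.2 t2))
  refine ⟨(s4.sub (contDiffAt_const.mul t3)).congr_of_eventuallyEq ev, ?_⟩
  have l : (2 : WithTop ℕ∞) ≤ ∞ := by norm_cast
  unfold hess
  rw [cHess_congr ev, cHess_sub (s4.of_le l) (contDiffAt_const.mul (t3.of_le l)),
    cHess_const_mul _ (t3.of_le l), cHess_log_norm_sq t1 t2, smul_zero, sub_zero,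
    P299.H956.cHess_compR (s3.of_le l) hT, hy, cHess_add (s1.of_le l) (s2.of_le l),
    curvature_eq hρ he' hi]
  rfl

theorem near {kap : Chart m V → Cm m → Matrix (Fin m) (Fin m) ℂ}
    {s : Chart d X → Cm d → Matrix (Fin d) (Fin d) ℂ} (hK : IsKahler kap) (hs : IsHolTwoForm s)
    (hr : HolM m d r) (he : At e y) (he' : At e' (r y)) {a b : Cm m} (ha : a ≠ 0) (hb : b ≠ 0)
    (h : (P299.D.jacF r e e' y *ᵥ a) ⬝ᵥ (s e' (e' (r y)) *ᵥ (P299.D.jacF r e e' y *ᵥ b)) ≠ 0) :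
    ∃ δ : ℝ, 0 < δ ∧ ∀ᶠ x in 𝓝 y, At e x ∧ At e' (r x) ∧
      δ * (qf (kap e (e x)) a * qf (kap e (e x)) b) ≤
        ‖(P299.D.jacF r e e' x *ᵥ a) ⬝ᵥ (s e' (e' (r x)) *ᵥ (P299.D.jacF r e e' x *ᵥ b))‖ ^ 2 := by
  have c0 : ContinuousAt e y := e.continuousAt he.2
  have c1 : ContinuousAt (fun x => kap e (e x)) y :=
    continuousAt_pi.2 fun i => continuousAt_pi.2 fun j =>
      (hK.smooth e y he i j).continuousAt.comp c0
  have c2 : ContinuousAt (fun x => s e' (e' (r x))) y :=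
    continuousAt_pi.2 fun i => continuousAt_pi.2 fun j =>
      ContinuousAt.comp (f := fun x => e' (r x)) (hs.holo e' _ he' i j).continuousAt
        ((e'.continuousAt he'.2).comp hr.cont.continuousAt)
  have c3 : ContinuousAt (fun x => P299.D.jacF r e e' x) y :=
    continuousAt_pi.2 fun i => continuousAt_pi.2 fun j =>
      (P299.H956.jmR_holo ((hr.at y).an he he').contDiffAt i j).continuousAt.comp c0
  have q1 : ∀ u : Cm m, Continuous fun A : Matrix (Fin m) (Fin m) ℂ => qf A u := fun u =>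
    Complex.continuous_re.comp
      (continuous_const.dotProduct (continuous_id.matrix_mulVec continuous_const))
  have q2 : Continuous fun p : Matrix (Fin d) (Fin m) ℂ × Matrix (Fin d) (Fin d) ℂ =>
      ‖(p.1 *ᵥ a) ⬝ᵥ (p.2 *ᵥ (p.1 *ᵥ b))‖ ^ 2 :=
    (((continuous_fst.matrix_mulVec continuous_const).dotProduct (continuous_snd.matrix_mulVec
      (continuous_fst.matrix_mulVec continuous_const))).norm).pow 2
  have c4 := ((q1 a).continuousAt.comp c1).mul ((q1 b).continuousAt.comp c1)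
  have c5 := q2.continuousAt.comp (c3.prodMk c2)
  have p1 := mul_pos (qf_pos (hK.posDef e y he) ha) (qf_pos (hK.posDef e y he) hb)
  have p2 := pow_pos (norm_pos_iff.2 h) 2
  refine ⟨_, half_pos (div_pos p2 p1), ?_⟩
  have n1 : ∀ᶠ x in 𝓝 y, x ∈ e.source := e.open_source.mem_nhds he.2
  have n2 : ∀ᶠ x in 𝓝 y, r x ∈ e'.source :=
    hr.cont.continuousAt.eventually (e'.open_source.mem_nhds he'.2)
  have n3 := (continuousAt_const.mul c4).eventually_lt c5
    ((lt_div_iff₀ p1).1 (half_lt_self (div_pos p2 p1)))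
  filter_upwards [n1, n2, n3] with x x1 x2 x3
  exact ⟨⟨he.1, x1⟩, ⟨he'.1, x2⟩, x3.le⟩

variable [T2Space V] [CompactSpace V]

theorem ix_tr {kap : Chart m V → Cm m → Matrix (Fin m) (Fin m) ℂ}
    {w χ : Chart d X → Cm d → Matrix (Fin d) (Fin d) ℂ} (hK : IsKahler kap) (hw : IsKahler w)
    (hρ : IsMetric L ρ) (hr : HolM m d r) (hk : 0 < k)
    (h1 : ∀ i y, r y ∈ L.U i → Hol m (τ i) y ∧ τ i y ≠ 0)
    (h2 : ∀ i j y, r y ∈ L.U i → r y ∈ L.U j → τ i y = L.g i j (r y) ^ k * τ j y)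
    (hv : Smooth (d := d) v) {ε : ℝ} (h : ∀ e x, At e x →
      χ e (e x) = curvature L ρ e (e x) + (ε : ℂ) • w e (e x) + ddc v e (e x)) :
    IX kap (trX kap (pullM r χ)) = ε * IX kap (trX kap (pullM r w)) := by
  have hu : SmoothFn (n := m) (pot L ρ r k τ v) := fun e y he =>
    (pot_loc hρ hr hk h1 h2 hv he (at_chartAt (r y))).1
  have c1 : Continuous (trX kap (pullM r w)) :=
    INT.SmoothFn.continuous (smoothFn_trX hK.toIsHermitian
      (P299.H956.isForm_pullM hw.isForm hr) fun e x hx i j =>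
        P299.H956.smooth_pullM hw.isForm hw.smooth (hr x) hx i j)
  have c2 := INT.SmoothFn.continuous (smoothFn_lapX hK.toIsHermitian hu)
  have e1 : ∀ y, trX kap (pullM r χ) y =
      ε * trX kap (pullM r w) y + lapX kap (pot L ρ r k τ v) y := fun y => by
    have he := at_chartAt (n := m) y
    have he' := at_chartAt (n := d) (r y)
    unfold trX lapX atX trE lapE
    rw [(pot_loc hρ hr hk h1 h2 hv he he').2, ← green_tr_smul, ← Complex.add_re,
      ← Matrix.trace_add, ← Matrix.mul_add]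
    unfold pullM
    rw [he.left_inv, h _ _ he', ← Matrix.smul_mul, ← Matrix.mul_smul, ← Matrix.add_mul,
      ← Matrix.mul_add, add_right_comm, add_comm]
  rw [IX_congr e1, IX_add (f := fun y => ε * trX kap (pullM r w) y) hK.toIsHermitian
    (continuous_const.mul c1) c2, IX_const_mul,
    IX_lapX hK hu, add_zero]

end geo

end IsoAux

open IsoAux

/-- **ISO** -/
theorem iso_of (h : HKE) : ISO := by
  intro d n X _ w s hd hs ι L ρ hρ hn hi hc m V r k τ ⟨kap, hK⟩ hr hk h1 h2 y e e' he he' a b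
  obtain ⟨c, hc0, H⟩ := h d n X w s hd hs ι L ρ hρ hn hi hc
  have hT := ((hr.at y).an he he').differentiableAt
  unfold df
  rw [P299.H956.jmR_mulVec hT, P299.H956.jmR_mulVec hT]
  by_contra hne
  have ha : a ≠ 0 := by rintro rfl; simp at hne
  have hb : b ≠ 0 := by rintro rfl; simp at hne
  obtain ⟨δ, hδ, hN⟩ := near hK hs.form hr he he' ha hb hne
  obtain ⟨N, hN1, hN2, hN3⟩ := eventually_nhds_iff.1 hN
  obtain ⟨g, g0, g1, g2⟩ := exists_continuous_zero_one_of_isClosed hN2.isClosed_compl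
    (isClosed_singleton (x := y)) (disjoint_singleton_right.2 fun k => k hN3)
  have hp : ∀ e (x : V.X), At e x → 0 < (kap e (e x)).det.re := fun e x hx =>
    (Complex.lt_def.1 (hK.posDef e x hx).det_pos).1
  have hI : 0 < IX kap g := by
    refine P299.H954.intX_pos_of_pos (isDensity_IX hK.toIsHermitian g.continuous)
      (fun e x hx => mul_nonneg (g2 _).1 (hp e x hx).le) (x := y) fun e hx => ?_
    show 0 < g (e.symm (e y)) * _
    rw [hx.left_inv, g1 (mem_singleton y)]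
    exact mul_pos one_pos (hp e y hx)
  have hμ : 0 < √(c * δ) := Real.sqrt_pos.2 (mul_pos hc0 hδ)
  have main : ∀ t : ℝ, 0 < t →
      t * √(c * δ) * IX kap g ≤ t ^ 2 * IX kap (trX kap (pullM r w)) := fun t ht => by
    obtain ⟨χ, v, κ, k1, k2, k3, k4⟩ := H (t ^ 2) (pow_pos ht 2)
    have hF := P299.H956.isForm_pullM k1.kahler.isForm hr
    rw [← ix_tr hK hs.kahler hρ hr hk h1 h2 k3 k4, ← IX_const_mul]
    refine IX_mono hK.toIsHermitian (continuous_const.mul g.continuous)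
      (INT.SmoothFn.continuous (smoothFn_trX hK.toIsHermitian hF fun e x hx i j =>
        P299.H956.smooth_pullM k1.kahler.isForm k1.kahler.smooth (hr x) hx i j)) fun x => ?_
    by_cases hx : x ∈ N
    · obtain ⟨x1, x2, x3⟩ := hN1 x hx
      refine (mul_le_of_le_one_right (mul_pos ht hμ).le (g2 x).2).trans ?_
      rw [trX_eq hK.toIsHermitian hF x1]
      unfold trE
      rw [P299.H956.pullM_eq k1.kahler.isForm (hr x) x1 x2]
      refine tr_ge _ (hK.posDef e x x1) (k1.kahler.posDef e' _ x2)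
        (isUnit_iff_ne_zero.2 (hs.nondeg e' _ x2)) k1.pos (k1.rel e' _ x2) ha hb ?_
      have p1 := mul_pos (qf_pos (hK.posDef e x x1) ha) (qf_pos (hK.posDef e x x1) hb)
      rw [mul_pow, Real.sq_sqrt (mul_pos hc0 hδ).le]
      calc _ = c * t ^ 2 * (δ * (qf (kap e (e x)) a * qf (kap e (e x)) b)) := by ring
        _ ≤ _ := mul_le_mul k2 x3 (mul_pos hδ p1).le k1.pos.le
    · rw [g0 hx, Pi.zero_apply, mul_zero]
      have x1 := at_chartAt (n := m) x
      have x2 := at_chartAt (n := d) (r x)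
      unfold trX atX trE
      rw [P299.H956.pullM_eq k1.kahler.isForm (hr x) x1 x2]
      exact (Complex.le_def.1 (C2.trace_mul_nonneg (hK.posDef _ x x1).inv.posSemidef
        (psd_pull _ (k1.kahler.posDef _ _ x2).posSemidef))).1
  generalize IX kap (trX kap (pullM r w)) = C at main
  have p1 : 0 < |C| + 1 := by positivity
  have p2 := div_pos (mul_pos hμ hI) p1
  have p3 := main _ p2
  have p4 := mul_div_cancel₀ (√(c * δ) * IX kap g) p1.ne'
  generalize √(c * δ) * IX kap g / (|C| + 1) = t at p2 p3 p4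
  have p5 := mul_le_mul_of_nonneg_left (le_abs_self C) (sq_nonneg t)
  rw [mul_assoc, ← p4] at p3
  nlinarith [mul_pos p2 p2]

end Vale.Agent.P301Z.Sa
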