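import Vale.Agent.P301Z.Sa.Hpt
import Vale.Agent.P281Z.El.Defs
import Vale.Agent.P301.H450.HKC

/-!
# P301Z, block ABUN: definitions and statements
-/

open scoped Manifold ContDiff Topology Matrix
open Set Filter Metric MeasureTheory
open Vale.Agent.P272.K Vale.Agent.P301.H599 Vale.Agent.P301.H99
open Vale.Agent.P277Z (Hol Mer)
open Vale.Agent.P277Z.Slc (Ind)
open Vale.Agent.P281Z
open Vale.Agent.P281Z.El (Dm)
open Vale.Agent.P301.H450 (IsHK)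

noncomputable section

namespace Vale.Agent.P301Z.Sa

section

variable {d : ℕ} {X : Type} [TopologicalSpace X] [ChartedSpace (Cm d) X] {ι : Type}

/-- an index of the cover at `x` -/
def ix (L : LineBundle d X ι) (x : X) : ι := (L.cover x).choose

theorem ix_mem (L : LineBundle d X ι) (x : X) : x ∈ L.U (ix L x) := (L.cover x).choose_spec

/-- the zero set of a section -/
def Zr (L : LineBundle d X ι) (f : ι → X → ℂ) : Set X := {x | f (ix L x) x = 0}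

/-- the ratios of the sections -/
def rat (L : LineBundle d X ι) {n : ℕ} (σ : Fin (n + 1) → ι → X → ℂ) (j : Fin n) (x : X) : ℂ :=
  σ j.succ (ix L x) x / σ 0 (ix L x) x

/-- sections of `L^k` whose ratios have rank `n` -/
structure Sys (L : LineBundle d X ι) (k : ℕ) {n : ℕ} (σ : Fin (n + 1) → ι → X → ℂ) : Prop where
  pos : 0 < k
  sec : ∀ j, Sec L k (σ j)
  ind : ∃ x, x ∉ Zr L (σ 0) ∧ Ind d (rat L σ) x

variable (d) in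
/-- almost everywhere near `x` -/
def aeAt (x : X) : Filter X :=
  map (chartAt (Cm d) x).symm (𝓝 (chartAt (Cm d) x x) ⊓ ae volume)

variable (d) in
/-- `E ≤ 0`, and `exp (-c E)` is integrable for all `c` -/
structure Env (E : X → ℝ) : Prop where
  nonpos : ∀ x, E x ≤ 0
  int : ∀ (c : ℝ) (x : X), 0 < c → IntegrableAtFilter
    (fun z => Real.exp (-(c * E ((chartAt (Cm d) x).symm z)))) (𝓝 (chartAt (Cm d) x x)) volume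

/-- `- log |f|²` for the singular metric `k (ρ + E)` -/
def wt (L : LineBundle d X ι) (ρ : ι → X → ℝ) (E : X → ℝ) (k : ℕ) (f : ι → X → ℂ) (x : X) : ℝ :=
  k * (ρ (ix L x) x + E x) - Real.log (‖f (ix L x) x‖ ^ 2)

/-- near `x` the function `F` is almost everywhere a function of `u` -/
def Fn {n : ℕ} (u : Fin n → X → ℂ) (F : X → ℝ) (x : X) : Prop :=
  ∃ A : Cm n → ℝ, ∀ᶠ y in aeAt d x, F y = A fun j => u j y

/-- a coordinate ball -/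
def Bx (c : Chart d X) (x : X) (r : ℝ) : Set X := {y | y ∈ c.source ∧ c y ∈ ball (c x) r}

/-- `x` is the only point of `C` in the closed ball on the slice `A = 0` -/
structure Sl (C : Set X) (x : X) (c : Chart d X) (r : ℝ) {n : ℕ} (A : Cm d →L[ℂ] Cm n) : Prop where
  atc : At c x
  pos : 0 < r
  tgt : closedBall (c x) r ⊆ c.target
  one : ∀ y ∈ C, y ∈ c.source → c y ∈ closedBall (c x) r → A (c y - c x) = 0 → y = x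

end

/-- a resolution of the closure of the relation defined by the fibres of `u` -/
structure Rt {d n : ℕ} (X : Mf d) (u : Fin n → X.X → ℂ) (B : Set X.X) : Type 1 where
  W : Mf (d + n)
  p : W.X → X.X
  q : W.X → X.X
  kah : W.Kah
  hp : HolM (d + n) d p
  hq : HolM (d + n) d q
  thinB : Thin d B
  thin : Thin (d + n) {z | p z ∈ B ∨ q z ∈ B}
  sp : ∀ z, p z ∉ B → q z ∉ B → Sbm (d + n) d p z
  sq : ∀ z, p z ∉ B → q z ∉ B → Sbm (d + n) d q z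
  inj : ∀ z z', p z ∉ B → q z ∉ B → p z' = p z → q z' = q z → z' = z
  imm : ∀ z, p z ∉ B → q z ∉ B → Imm (d + n) (d + d) (fun z => X.pair X (p z) (q z)) z
  refl : ∀ x, ∃ z, p z = x ∧ q z = x
  symm : ∀ z, ∃ z', p z' = q z ∧ q z' = p z
  re : ∀ z z', p z ∉ B → p z' = p z → ∃ z'', p z'' = q z ∧ q z'' = q z'
  ind : ∀ x ∉ B, Ind d u x
  fac : ∀ z, p z ∉ B → q z ∉ B → ∀ j, u j (p z) = u j (q z)
  conn : ∀ x ∉ B, IsPreconnected (q '' (p ⁻¹' {x}) \ B)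
  connA : ∀ x, IsPreconnected (q '' (p ⁻¹' {x}))
  tube : ∀ (s : Chart d X.X → Cm d → Matrix (Fin d) (Fin d) ℂ) (N : Set X.X), IsOpen N →
    (∀ y ∈ N, (∀ j, Hol d (u j) y) ∧ Com s u y) → ∀ x ∉ B, (∀ z, p z = x → q z ∈ N) →
    ∃ (O : Set X.X) (b : Cm n) (r : ℝ), Tube s O (fun y j => u j y) b r ∧ x ∈ O ∧ O ⊆ N ∧
      ∀ y ∈ O, ∀ y' ∈ O, (∀ j, u j y = u j y') → ∃ z, p z = y ∧ q z = y'

namespace Rt

variable {d n : ℕ} {X : Mf d} {u : Fin n → X.X → ℂ} {B : Set X.X} (G : Rt X u B) {ι : Type}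

/-- the points at distance two from `x` -/
def C (x : X.X) : Set X.X := {y | ∃ a b, G.p a = x ∧ G.q a = G.p b ∧ G.q b = y}

/-- an isomorphism of `q^* L^k` and `p^* L^k` which identifies the pull backs of `f` -/
structure Un (L : LineBundle d X.X ι) (k : ℕ) (f : ι → X.X → ℂ) (h : ι → ι → G.W.X → ℂ) :
    Prop where
  hol : ∀ i j z, G.p z ∈ L.U i → G.q z ∈ L.U j → Hol (d + n) (h i j) z
  ne : ∀ i j z, G.p z ∈ L.U i → G.q z ∈ L.U j → h i j z ≠ 0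
  eq : ∀ i j z, G.p z ∈ L.U i → G.q z ∈ L.U j → f i (G.p z) = h i j z * f j (G.q z)
  c1 : ∀ i i' j z, G.p z ∈ L.U i → G.p z ∈ L.U i' → G.q z ∈ L.U j →
    h i j z = L.g i i' (G.p z) ^ k * h i' j z
  c2 : ∀ i j j' z, G.p z ∈ L.U i → G.q z ∈ L.U j → G.q z ∈ L.U j' →
    h i j z * L.g j j' (G.q z) ^ k = h i j' z

/-- `ζ y` is the list of the points over `y` whose second image is on a slice in `O` -/
structure Tr (x : X.X) (O U : Set X.X) {D : ℕ} (ζ : X.X → Fin D → G.W.X) : Prop where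
  opn : IsOpen U
  sub : ∀ z, G.p z = x → G.q z ∈ U
  pos : 0 < D
  fst : ∀ y ∈ U, ∀ k, G.p (ζ y k) = y
  snd : ∀ y ∈ U, ∀ k, G.q (ζ y k) ∈ O
  ctr : ∀ k, G.q (ζ x k) = x
  hol : ∀ y ∈ U, ∀ a : G.W.X → ℂ, (∀ z, G.p z = y → G.q z ∈ O → Hol (d + n) a z) →
    ∀ P : (Fin D → ℂ) → ℂ, Differentiable ℂ P → (∀ (τ : Equiv.Perm (Fin D)) v, P (v ∘ τ) = P v) →
      Hol d (fun y' => P fun k => a (ζ y' k)) y
  inv : ∀ z, G.p z ∈ U → G.q z ∈ U → ∀ b : X.X → ℂ, (∀ y ∈ O, Hol d b y) →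
    ∑ k, b (G.q (ζ (G.p z) k)) = ∑ k, b (G.q (ζ (G.q z) k))

end Rt

/-- a statement on the data of `SYZ` -/
def ForM (P : ∀ (d _ : ℕ) (X : Mf d) (_ _ : Chart d X.X → Cm d → Matrix (Fin d) (Fin d) ℂ)
    (ι : Type), LineBundle d X.X ι → (ι → X.X → ℝ) → Prop) : Prop :=
  ∀ (d n : ℕ) (X : Mf d) [SimplyConnectedSpace X.X]
    (w s : Chart d X.X → Cm d → Matrix (Fin d) (Fin d) ℂ), d = 2 * n → IsSymplectic d X.X w s →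
    ∀ (ι : Type) (L : LineBundle d X.X ι) (ρ : ι → X.X → ℝ), IsMetric L ρ → Nef w L ρ →
      Isotropic L ρ → ¬ SameClass (curvature L ρ) (fun _ _ => 0) → P d n X w s ι L ρ

/-- a statement on the resolutions -/
def ForG (P : ∀ (d n : ℕ) (X : Mf d) (u : Fin n → X.X → ℂ) (B : Set X.X), Rt X u B → Prop) : Prop :=
  ∀ (d n : ℕ) (X : Mf d) (u : Fin n → X.X → ℂ) (B : Set X.X) (G : Rt X u B), P d n X u B G

/-! ### The rows -/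

/-- **RAT** -/
def RAT : Prop := ∀ (d n : ℕ) (X : Mf d) [ConnectedSpace X.X] (ι : Type) (L : LineBundle d X.X ι)
  (k : ℕ) (σ : Fin (n + 1) → ι → X.X → ℂ), Sys L k σ → Thin d (Zr L (σ 0)) ∧
    (∀ j x, Mer d (rat L σ j) x) ∧ ∀ j, ∀ x ∉ Zr L (σ 0), Hol d (rat L σ j) x

/-- **RANK** -/
def RANK : Prop := ∀ (d n : ℕ) (X : Mf d) [ConnectedSpace X.X] (ι : Type) (L : LineBundle d X.X ι)
  (ρ : ι → X.X → ℝ), X.Kah → IsMetric L ρ → 0 < n → Semi.Grow L n →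
    ∃ (k : ℕ) (σ : Fin (n + 1) → ι → X.X → ℂ), Sys L k σ

/-- **GEO** -/
def GEO : Prop := ∀ (d n : ℕ) (X : Mf d) [ConnectedSpace X.X] (u : Fin n → X.X → ℂ) (B₀ : Set X.X),
  d = 2 * n → X.Kah → Thin d B₀ → (∀ j x, Mer d (u j) x) → (∀ j, ∀ x ∉ B₀, Hol d (u j) x) →
  (∃ x ∉ B₀, Ind d u x) → ∃ B, B₀ ⊆ B ∧ Nonempty (Rt X u B)

/-- **LEAF** -/
def LEAF : Prop := ForM fun d n X _ s ι L ρ => ∀ (k : ℕ) (σ : Fin (n + 1) → ι → X.X → ℂ),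
  Sys L k σ → (∀ x ∉ Zr L (σ 0), Com s (rat L σ) x) ∧ ∃ E, Env d E ∧
    ∀ x ∉ Zr L (σ 0), Ind d (rat L σ) x → Fn (d := d) (rat L σ) (wt L ρ E k (σ 0)) x

/-- **NUL** -/
structure NUL : Prop where
  sbm : ∀ (m p : ℕ) (V Y : Type) [TopologicalSpace V] [ChartedSpace (Cm m) V]
    [IsManifold 𝓘(ℂ, Cm m) ω V] [TopologicalSpace Y] [ChartedSpace (Cm p) Y]
    [IsManifold 𝓘(ℂ, Cm p) ω Y] (f : V → Y) (x : V), HolA m p f x → Sbm m p f x →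
    map f (aeAt m x) = aeAt p (f x)
  ind : ∀ (m p : ℕ) (V : Type) [TopologicalSpace V] [ChartedSpace (Cm m) V]
    [IsManifold 𝓘(ℂ, Cm m) ω V] (u : Fin p → V → ℂ) (x : V), Ind m u x →
    map (fun y j => u j y) (aeAt m x) = 𝓝 (fun j => u j x) ⊓ ae volume
  chart : ∀ (m : ℕ) (V : Type) [TopologicalSpace V] [ChartedSpace (Cm m) V]
    [IsManifold 𝓘(ℂ, Cm m) ω V] (e : Chart m V) (x : V), At e x →
    aeAt m x = map e.symm (𝓝 (e x) ⊓ ae volume)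
  near : ∀ (m : ℕ) (V : Type) [TopologicalSpace V] [ChartedSpace (Cm m) V]
    [IsManifold 𝓘(ℂ, Cm m) ω V] (x : V) (S : Set V), S ∈ aeAt m x → ∀ᶠ y in 𝓝 x, S ∈ aeAt m y
  le : ∀ (m : ℕ) (V : Type) [TopologicalSpace V] [ChartedSpace (Cm m) V] (x : V), aeAt m x ≤ 𝓝 x

/-- **CH** -/
def CH : Prop := ForG fun d n X u B G => ∀ F : X.X → ℝ, (∀ x ∉ B, Fn (d := d) u F x) →
  ∀ z, G.p z ∉ B → G.q z ∉ B → ∀ᶠ z' in aeAt (d + n) z, F (G.p z') = F (G.q z')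

/-- **UN** -/
def UN : Prop := ∀ (D m : ℕ) (q : Cm D → Cm m) (a b g : Cm D → ℂ) (H : Cm m → ℝ) (z₀ : Cm D),
  AnalyticAt ℂ q z₀ → AnalyticAt ℂ a z₀ → AnalyticAt ℂ b z₀ → AnalyticAt ℂ g z₀ →
  (∃ᶠ z in 𝓝 z₀, Function.Surjective (fderiv ℂ q z)) → (∃ᶠ z in 𝓝 z₀, b z ≠ 0) →
  (∃ᶠ z in 𝓝 z₀, g z ≠ 0) → (∀ y, 0 ≤ H y) →
  (∀ N : ℕ, IntegrableAtFilter (fun y => H y ^ N) (𝓝 (q z₀)) volume) →
  (∀ᶠ z in 𝓝 z₀, g z ≠ 0 → ∀ᶠ z' in 𝓝 z ⊓ ae volume, ‖a z'‖ ≤ H (q z') * ‖b z'‖) →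
  ∃ G : Cm D → ℂ, AnalyticAt ℂ G z₀ ∧ (∃ᶠ z in 𝓝 z₀, G z ≠ 0) ∧
    ∀ N : ℕ, ∃ C : ℝ, ∀ᶠ z in 𝓝 z₀, ‖a z‖ ^ N * ‖G z‖ ≤ C * ‖b z‖ ^ N

/-- **DIVL** -/
def DIVL : Prop := ∀ (D : ℕ) (a b G : Cm D → ℂ) (z₀ : Cm D), AnalyticAt ℂ a z₀ → AnalyticAt ℂ b z₀ →
  AnalyticAt ℂ G z₀ → (∃ᶠ z in 𝓝 z₀, b z ≠ 0) → (∃ᶠ z in 𝓝 z₀, G z ≠ 0) →
  (∀ N : ℕ, ∃ C : ℝ, ∀ᶠ z in 𝓝 z₀, ‖a z‖ ^ N * ‖G z‖ ≤ C * ‖b z‖ ^ N) →
  ∃ h : Cm D → ℂ, AnalyticAt ℂ h z₀ ∧ ∀ᶠ z in 𝓝 z₀, a z = h z * b z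

/-- **UNIT** -/
def UNIT : Prop := ForG fun d n X _ B G => ∀ (ι : Type) (L : LineBundle d X.X ι) (ρ : ι → X.X → ℝ)
  (E : X.X → ℝ) (k : ℕ) (f : ι → X.X → ℂ), IsMetric L ρ → Env d E → 0 < k → Sec L k f →
  Zr L f ⊆ B → (∀ z, G.p z ∉ B → G.q z ∉ B →
    ∀ᶠ z' in aeAt (d + n) z, wt L ρ E k f (G.p z') = wt L ρ E k f (G.q z')) → ∃ h, G.Un L k f h

/-- **HKE** -/
def HKE : Prop := ForM fun d _ X w s _ L ρ => ∃ c : ℝ, 0 < c ∧ ∀ ε : ℝ, 0 < ε →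
  ∃ (χ : Chart d X.X → Cm d → Matrix (Fin d) (Fin d) ℂ) (v : X.X → ℝ) (κ : ℝ), IsHK s χ κ ∧
    c * ε ≤ κ ∧ Smooth (d := d) v ∧ ∀ e x, At e x →
      χ e (e x) = curvature L ρ e (e x) + (ε : ℂ) • w e (e x) + ddc v e (e x)

/-- **ISO** -/
def ISO : Prop := ForM fun d _ X _ s ι L _ => ∀ (m : ℕ) (V : Mf m) (r : V.X → X.X) (k : ℕ)
  (τ : ι → V.X → ℂ), V.Kah → HolM m d r → 0 < k →
  (∀ i v, r v ∈ L.U i → Hol m (τ i) v ∧ τ i v ≠ 0) →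
  (∀ i j v, r v ∈ L.U i → r v ∈ L.U j → τ i v = L.g i j (r v) ^ k * τ j v) →
  ∀ v (e : Chart m V.X) (e' : Chart d X.X), At e v → At e' (r v) → ∀ a b,
    df r e e' v a ⬝ᵥ (s e' (e' (r v)) *ᵥ df r e e' v b) = 0

/-- **DIM** -/
def DIM : Prop := ForM fun d n X _ _ ι L _ => ∀ (u : Fin n → X.X → ℂ) (B : Set X.X) (G : Rt X u B)
  (k : ℕ) (f : ι → X.X → ℂ) h, 0 < k → G.Un L k f h → ∀ x, An d (G.C x) ∧ Dm n (G.C x)

/-- **SLICE** -/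
def SLICE : Prop := ∀ (d n : ℕ) (X : Mf d) (C : Set X.X) (x : X.X), An d C → Dm n C →
  ∀ N ∈ 𝓝 x, ∃ (c : Chart d X.X) (r : ℝ) (A : Cm d →L[ℂ] Cm n), Sl C x c r A ∧ Bx c x r ⊆ N

/-- **TR** -/
def TR : Prop := ForG fun d n X _ _ G => ∀ (x : X.X) (c : Chart d X.X) (r : ℝ)
  (A : Cm d →L[ℂ] Cm n), Sl (G.C x) x c r A →
    ∃ (U : Set X.X) (D : ℕ) (ζ : X.X → Fin D → G.W.X), G.Tr x (Bx c x r) U ζ

/-- **NEWT** -/
def NEWT : Prop := ∀ (D : ℕ) (δ : ℝ), 0 < δ → ∃ M : ℝ, ∀ v : Fin D → ℂ,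
  (∀ i < D, ‖(M : ℂ) * ∑ k, v k ^ (i + 1)‖ ≤ 1) → ∀ k, ‖v k‖ ≤ δ

/-- **ASM** -/
def ASM : Prop := ForG fun d n X u B G => ∀ (s : Chart d X.X → Cm d → Matrix (Fin d) (Fin d) ℂ)
  (ι : Type) (L : LineBundle d X.X ι) (k : ℕ) (f : ι → X.X → ℂ) h, 0 < k → G.Un L k f h →
  Sec L k f → Zr L f ⊆ B → (∀ y ∉ Zr L f, (∀ j, Hol d (u j) y) ∧ Com s u y) →
  ∀ (x : X.X) (c : Chart d X.X) (r : ℝ) (j : ι) (U : Set X.X) (D : ℕ) (ζ : X.X → Fin D → G.W.X),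
    At c x → 0 < r → Bx c x r ⊆ L.U j → G.Tr x (Bx c x r) U ζ →
    ∃ (m : ℕ) (g : Fin m → X.X → ℂ) (e : ι → X.X → ℂ), Loc s L n U g (k * D) e B ∧ ∀ l, g l x = 0

/-- **FIN** -/
def FIN : Prop := ∀ (d : ℕ) (X : Mf d) (ι : Type) (L : LineBundle d X.X ι),
  (∀ x, ∃ m : ℕ, 0 < m ∧ ∃ f : ι → X.X → ℂ, Sec L m f ∧ ∃ i, x ∈ L.U i ∧ f i x ≠ 0) → Semiample L

/-- the assembly -/
theorem abun_of (h1 : RAT) (h2 : RANK) (h3 : GEO) (h4 : LEAF) (h5 : CH) (h6 : UNIT) (h7 : DIM)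
    (h8 : SLICE) (h9 : TR) (h10 : ASM) (h11 : FIN) (hH : HPT) : ABUN := by
  intro d n Y _ _ _ _ _ _ w s hd hs ι L ρ hρ hn hi hc hg
  let X : Mf d := ⟨Y⟩
  have hK : X.Kah := ⟨w, hs.kahler⟩
  have h0 : 0 < n := by
    refine Nat.pos_of_ne_zero fun k => hc ⟨fun _ => 0, fun _ _ _ => contDiffAt_const, ?_⟩
    subst k
    subst hd
    exact fun _ _ _ => Matrix.ext fun a _ => a.elim0
  obtain ⟨k, σ, S⟩ := h2 d n X ι L ρ hK hρ h0 hg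
  obtain ⟨k1, k2, k3⟩ := h1 d n X ι L k σ S
  obtain ⟨B, hB, ⟨G⟩⟩ := h3 d n X _ _ hd hK k1 k2 k3 S.ind
  obtain ⟨k4, E, hE, k5⟩ := h4 d n X w s hd hs ι L ρ hρ hn hi hc k σ S
  obtain ⟨h, hh⟩ := h6 d n X _ B G ι L ρ E k (σ 0) hρ hE S.pos (S.sec 0) hB
    (h5 d n X _ B G _ fun x hx => k5 x (fun a => hx (hB a)) (G.ind x hx))
  refine h11 d X ι L fun x => ?_
  obtain ⟨k6, k7⟩ := h7 d n X w s hd hs ι L ρ hρ hn hi hc _ B G k _ h S.pos hh x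
  obtain ⟨c, r, A, k8, k9⟩ := h8 d n X _ x k6 k7 _ ((L.isOpen _).mem_nhds (ix_mem L x))
  obtain ⟨U, D, ζ, hT⟩ := h9 d n X _ B G x c r A k8
  obtain ⟨m, g, e, l1, l2⟩ := h10 d n X _ B G s ι L k _ h S.pos hh (S.sec 0) hB
    (fun y hy => ⟨fun j => k3 j y hy, k4 y hy⟩) x c r _ U D ζ k8.atc k8.pos k9 hT
  obtain ⟨z, hz, hz'⟩ := G.refl x
  exact hH d n Y w s hd hs ι L ρ hρ hn hi hc U m g _ e B l1 x (hz' ▸ hT.sub z hz) l2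

end Vale.Agent.P301Z.Sa
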