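import Vale.Agent.P301Z.Sa.Lf3
import Vale.Agent.P301Z.Sa.Defs
import Vale.Agent.P301.H599.ZL.Iso
import Vale.Agent.P277Z.Slc.Basic
import Vale.Agent.P285K.All
import Vale.Agent.P285Z.Ihs
import Vale.Agent.P285Z.Psh
import Vale.Agent.P285Z.Alg

/-!
# P301Z, block ABUN: the row LEAF
-/

open scoped Manifold ContDiff Topology ENNReal Matrix ComplexOrder
open Set Filter MeasureTheory
open Vale.Agent.P272.K Vale.Agent.P301.H599 Vale.Agent.P301.H450
open Vale.Agent.P285Z (PSD powM)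
open Vale.Agent.P301.H98 (IsSection nrm)
open Vale.Agent.P301.H862 (powL)
open Vale.Agent.P277Z.Slc (Ind)

set_option linter.unusedSectionVars false

noncomputable section

namespace Vale.Agent.P301Z.Sa

namespace Lf

variable {d : ℕ} {X : Type} [TopologicalSpace X] [ChartedSpace (Cm d) X]
  [IsManifold 𝓘(ℂ, Cm d) ω X] [T2Space X] [CompactSpace X] {ι : Type} {M : LineBundle d X ι}
  {τ : ι → X → ℝ} {e : Chart d X} {x : X} {r : ℕ} {σ : Fin (r + 1) → ι → X → ℂ}
  {w w' s : Chart d X → Cm d → Matrix (Fin d) (Fin d) ℂ} {κ : ℝ} {ε : ℕ → ℝ} {φ : ℕ → X → ℝ}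

/-- the data -/
structure Dt (M : LineBundle d X ι) (τ : ι → X → ℝ) (σ : Fin (r + 1) → ι → X → ℂ)
    (w w' s : Chart d X → Cm d → Matrix (Fin d) (Fin d) ℂ) (κ : ℝ) (ε : ℕ → ℝ) (φ : ℕ → X → ℝ) :
    Prop where
  sd : SData s w' κ
  kah : IsKahler w
  met : IsMetric M τ
  iso : q s (curvature M τ) (curvature M τ) = 0
  sec : ∀ j, IsSection M (σ j)
  nn : ∀ k, 0 ≤ ε k
  lim : Tendsto ε atTop (𝓝 0)
  sm : ∀ k, Smooth (d := d) (φ k)
  np : ∀ k x, φ k x ≤ 0
  psd : ∀ k, PSD fun e z => curvature M τ e z + (ε k : ℂ) • w e z + ddc (φ k) e z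

/-- the complement of the zero set in a chart -/
def U (M : LineBundle d X ι) (τ : ι → X → ℝ) (f : ι → X → ℂ) (e : Chart d X) : Set (Cm d) :=
  {z | z ∈ e.target ∧ nrm M τ f (e.symm z) ≠ 0}

theorem of_at {f : ι → X → ℂ} (P : Cm d → Prop) (he : e ∈ atlas (Cm d) X)
    (h : ∀ x, At e x → nrm M τ f x ≠ 0 → P (e x)) : ∀ z ∈ U M τ f e, P z := fun _ hz =>
  e.right_inv hz.1 ▸ h _ (At.of_target he hz.1) hz.2

theorem mem_U {f : ι → X → ℂ} (hx : At e x) (h : nrm M τ f x ≠ 0) : e x ∈ U M τ f e :=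
  ⟨hx.mem_target, by rwa [hx.left_inv]⟩

variable (H : Dt M τ σ w w' s κ ε φ)
include H

theorem Dt.opn (he : e ∈ atlas (Cm d) X) : IsOpen (U M τ (σ 0) e) :=
  isOpen_iff_mem_nhds.2 (of_at (fun z => U M τ (σ 0) e ∈ 𝓝 z) he fun _ hx h =>
    hx.nhds_target.and (nrm_ne H.met (H.sec 0) hx h))

theorem Dt.cs (hx : At e x) : ContinuousAt (s e) (e x) :=
  continuousAt_pi.2 fun i => continuousAt_pi.2 fun j => (H.sd.form.holo e x hx i j).continuousAt

theorem Dt.seq (he : e ∈ atlas (Cm d) X) {K : Set (Cm d)} (hU : K ⊆ U M τ (σ 0) e)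
    (hK : IsCompact K) : (∀ i j, Tendsto (fun _ : ℕ => ∫⁻ z in K, ENNReal.ofReal
      (‖gd (fun y => ra M σ i (e.symm y)) z ⬝ᵥ ((s e z)⁻¹ *ᵥ
        gd (fun y => ra M σ j (e.symm y)) z)‖ ^ 2)) atTop (𝓝 0)) ∧
    Tendsto (fun k => ∫⁻ z in K, ENNReal.ofReal (∑ i, ‖gd (fun y => ra M σ i (e.symm y)) z ⬝ᵥ
      ((s e z)⁻¹ *ᵥ gd (fun y => (Real.exp ((φ k (e.symm y) -
        Real.log (nrm M τ (σ 0) (e.symm y))) / 2) : ℝ)) z)‖ ^ 2)) atTop (𝓝 0) := by
  choose D h1 h2 h3 h4 using fun k =>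
    est H.sd H.kah H.met H.iso H.sec (H.nn k) (H.sm k) (H.np k) (H.psd k)
  have k1 : ContinuousOn (cw M τ σ s e) (U M τ (σ 0) e) := fun z hz =>
    (of_at (fun z => ContinuousAt (cw M τ σ s e) z) he (fun x hx h =>
      ((continuousAt_const.add (((nrm_sm H.met (H.sec 0) e x hx).continuousAt.inv₀
        (by rwa [hx.left_inv])).add (tendsto_finsetSum _ fun j _ =>
          (ra_hol H.met H.sec hx h j).continuousAt.norm.pow 2))).pow 4).div
        ((continuous_id.matrix_det.continuousAt.comp (H.cs hx)).norm)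
        (norm_ne_zero_iff.2 (H.sd.nondeg e x hx))) z hz).continuousWithinAt
  have k2 : ∀ k, ∀ z ∈ U M τ (σ 0) e, 0 ≤ D k e z := fun k =>
    of_at (fun z => 0 ≤ D k e z) he fun x hx _ => h2 k e x hx
  have k3 : Tendsto (fun k => ∫⁻ z in U M τ (σ 0) e, ENNReal.ofReal (D k e z)) atTop (𝓝 0) := by
    have t := ENNReal.tendsto_ofReal (H.lim.mul ((H.lim.mul_const (q s w w)).const_add
      (2 * q s (curvature M τ) w)))
    rw [zero_mul, ENNReal.ofReal_zero] at t
    refine tendsto_of_tendsto_of_tendsto_of_le_of_le tendsto_const_nhds t (fun _ => zero_le)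
      fun k => (lintegral_mono_set fun z hz => hz.1).trans ?_
    rw [← h3]
    exact lint_le (h1 k) (h2 k) he
  refine ⟨fun i j => lim_of k1 (fun k => of_at _ he fun x hx h => (h4 k e x hx h i).1 j) k2 k3 hU hK,
    lim_of (c := fun z => r * cw M τ σ s e z) (continuousOn_const.mul k1)
      (fun k => of_at _ he fun x hx h => ?_) k2 k3 hU hK⟩
  refine (Finset.sum_le_sum fun i _ => (h4 k e x hx h i).2).trans (le_of_eq ?_)
  rw [Finset.sum_const, Finset.card_univ, Fintype.card_fin, nsmul_eq_mul, mul_assoc]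

theorem Dt.com (he : e ∈ atlas (Cm d) X) {z : Cm d} (hz : z ∈ U M τ (σ 0) e) (i j : Fin r) :
    gd (fun y => ra M σ i (e.symm y)) z ⬝ᵥ ((s e z)⁻¹ *ᵥ gd (fun y => ra M σ j (e.symm y)) z) =
      0 := by
  refine norm_eq_zero.1 (pow_eq_zero_iff two_ne_zero |>.1 (le_antisymm (zero_of (H.opn he)
    (f := fun z => ‖gd (fun y => ra M σ i (e.symm y)) z ⬝ᵥ ((s e z)⁻¹ *ᵥ
      gd (fun y => ra M σ j (e.symm y)) z)‖ ^ 2) (fun z hz => ContinuousAt.continuousWithinAt ?_)
    (fun K a b => (H.seq he a b).1 i j) hz) (sq_nonneg _)))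
  refine of_at (fun z => ContinuousAt _ z) he (fun x hx h => (ContinuousAt.norm ?_).pow 2) z hz
  have k := (continuousAt_matrix_inv _ (by
    simpa using NormedRing.inverse_continuousAt (Units.mk0 _ (H.sd.nondeg e x hx)))).comp (H.cs hx)
  simp only [dotProduct, Matrix.mulVec]
  exact tendsto_finsetSum _ fun a _ => (gd_cont (ra_hol H.met H.sec hx h i) a).mul
    (tendsto_finsetSum _ fun a' _ => (continuousAt_pi.1 (continuousAt_pi.1 k a) a').mul
      (gd_cont (ra_hol H.met H.sec hx h j) a'))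

theorem Dt.fn (hd : d = r + r) (hx : At e x) (h0 : nrm M τ (σ 0) x ≠ 0) (hi : Ind d (ra M σ) x)
    {E : X → ℝ} (hl : ∀ᵐ z, z ∈ e.target → Tendsto (fun k => φ k (e.symm z)) atTop
      (𝓝 (E (e.symm z)))) : ∃ A : Cm r → ℝ, ∀ᶠ z in 𝓝 (e x) ⊓ ae volume,
      E (e.symm z) - Real.log (nrm M τ (σ 0) (e.symm z)) = A fun j => ra M σ j (e.symm z) := by
  obtain ⟨Φ, P, k0, k1, k2, k3⟩ := hi.par (d := r) (by simp [hd]) hx
  let l : ((Fin r → ℂ) × Cm r) ≃L[ℂ] Cm d := ContinuousLinearEquiv.ofFinrankEq (by simp [hd])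
  obtain ⟨A, hA⟩ := loc hd ((Φ.transHomeomorph l.toHomeomorph).restrOpen _ (H.opn hx.1))
    (fun z hz => ((l.analyticAt _).fun_comp ((k2 z hz.1).prod (P.analyticAt z))).congr
      (Eventually.of_forall fun y => congrArg l (k1 y).symm))
    (fun p hp => AnalyticAt.fun_comp (g := Φ.symm) (k3 _ hp.1) (l.symm.analyticAt p))
    (π := (ContinuousLinearMap.fst ℂ _ _).comp l.symm.toContinuousLinearMap)
    (ι := l.toContinuousLinearMap.comp (ContinuousLinearMap.inl ℂ _ _)) (fun a => by simp)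
    (g := fun z j => ra M σ j (e.symm z)) (fun z _ => by simp [k1]) (S := s e)
    (fun z hz => of_at (fun z => ContinuousAt (s e) z) hx.1 (fun _ a _ => H.cs a) z hz.2)
    (fun z hz => of_at (fun z => IsUnit (s e z).det) hx.1
      (fun y a _ => (H.sd.nondeg e y a).isUnit) z hz.2) (fun z hz => H.com hx.1 hz.2)
    (b := fun k y => Real.exp ((φ k (e.symm y) - Real.log (nrm M τ (σ 0) (e.symm y))) / 2))
    (fun k z hz => of_at (fun z => ContDiffAt ℝ 1 _ z) hx.1 (fun y a h => ((((H.sm k e y a).sub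
      ((nrm_sm H.met (H.sec 0) e y a).log (by rwa [a.left_inv]))).div_const 2).exp).of_le
        (by norm_cast)) z hz.2)
    (b₀ := fun y => Real.exp ((E (e.symm y) - Real.log (nrm M τ (σ 0) (e.symm y))) / 2))
    (hl.mono fun z a hz => (((a hz.2.1).sub_const _).div_const 2).rexp)
    (fun K a b => (H.seq hx.1 (fun z hz => (a hz).2) b).2) ⟨k0, mem_U hx h0⟩
  refine ⟨fun t => 2 * Real.log (A t), hA.mono fun z hz => ?_⟩
  beta_reduce
  rw [← hz, Real.log_exp]
  ring

end Lf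

open Lf

/-- **LEAF** -/
theorem leaf : LEAF := by
  intro d n X _ w s hd hs ι L ρ hρ hn hi hc k σ S
  have h0 : 0 < d := by
    refine Nat.pos_of_ne_zero fun k => hc ⟨fun _ => 0, fun _ _ _ => contDiffAt_const, ?_⟩
    subst k
    exact fun _ _ _ => Matrix.ext fun a _ => a.elim0
  borelize X.X
  obtain ⟨φ, E, hE⟩ := P285K.envK d X.X w _ hs.kahler (P301.H98.rform_curvature hρ) hn
  obtain ⟨u, κ, -, hk⟩ := exists_rf hs hs.kahler
  obtain ⟨h, hh, hw⟩ := P285Z.ihs d X.X w s hs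
  have hI := P285K.coreK d X.X w _ hs.kahler (P301.H98.rform_curvature hρ) φ E hE 0 h le_rfl hh
    fun e x hx => by
      show (((0 : ℝ) : ℂ) • curvature L ρ e (e x) + ddc h e (e x) - P285Z.kc w e (e x)).PosSemidef
      rw [hw e x hx, Complex.ofReal_zero, zero_smul, zero_add, sub_self]
      exact Matrix.PosSemidef.zero
  have hp : ∀ e x, At e x → curvature (powL L k) (powM ρ k) e (e x) =
      (fun e z => ((k : ℝ) : ℂ) • curvature L ρ e z) e (e x) := P285Z.curvature_pow hρ k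
  have H : Dt (powL L k) (powM ρ k) σ w _ s κ (fun j => k * (1 / ((j : ℝ) + 1)))
      fun j x => k * φ j x :=
    { sd := SData.of hs hk
      kah := hs.kahler
      met := P285Z.isMetric_pow hρ k
      iso := by
        rw [q_congr (a' := fun e z => ((k : ℝ) : ℂ) • curvature L ρ e z)
          (b' := fun e z => ((k : ℝ) : ℂ) • curvature L ρ e z) hp hp, q_smul_left, q_smul_right (SData.of hs hk), ZL.q_eq_zero_of_int h0 hs
          (isReal11_curvature hρ) hn (INT.intX_eq_of_isIntegral hi), mul_zero, mul_zero]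
      sec := fun j => ⟨(S.sec j).1, (S.sec j).2⟩
      nn := fun j => by positivity
      lim := by simpa using tendsto_one_div_add_atTop_nhds_zero_nat.const_mul (k : ℝ)
      sm := fun j e x hx => contDiffAt_const.mul ((hE.inS j).smooth e x hx)
      np := fun j x => mul_nonpos_of_nonneg_of_nonpos k.cast_nonneg ((hE.inS j).nonpos x)
      psd := fun j e x hx => by
        have a := P285Z.Ch.psd_smul k.cast_nonneg ((hE.inS j).psd e x hx)
        show (curvature (powL L k) (powM ρ k) e (e x) + _ + cHess _ _).PosSemidef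
        rw [hp e x hx, C2.cHess_const_mul _ (P285Z.Ch.sm_two (hE.inS j).smooth hx),
          Complex.ofReal_mul, mul_smul, ← smul_add, ← smul_add]
        exact a }
  have hz : ∀ x, x ∉ Zr L (σ 0) → nrm (powL L k) (powM ρ k) (σ 0) x ≠ 0 := fun x hx =>
    mul_ne_zero (pow_ne_zero 2 (norm_ne_zero_iff.2 hx)) (Real.exp_pos _).ne'
  refine ⟨fun x hx e he i j => H.com he.1 (mem_U he (hz x hx)) i j, E,
    ⟨hE.nonpos, fun c x hc => ?_⟩, fun x hx hi => ?_⟩
  · obtain ⟨K, k1, k2, k3⟩ := local_compact_nhds (chart_target_mem_nhds (Cm d) x)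
    have hm : Measurable fun y => Real.exp (-(c * E y)) := (hE.meas.const_mul c).neg.exp
    refine ⟨K, k1, (hm.comp_aemeasurable (((chartAt (Cm d) x).continuousOn_symm.mono
      k2).aemeasurable k3.measurableSet)).aestronglyMeasurable,
      (hasFiniteIntegral_iff_ofReal (ae_of_all _ fun z => (Real.exp_pos _).le)).2 ?_⟩
    exact P285Z.lint_chart_lt_top hs.kahler.toIsHermitian hm.ennreal_ofReal (hI c hc)
      (chart_mem_atlas _ x) k3 k2
  · have he : At (chartAt (Cm d) x) x := ⟨chart_mem_atlas _ x, mem_chart_source _ x⟩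
    obtain ⟨A, hA⟩ := H.fn (hd.trans (two_mul n)) he (hz x hx) hi (E := fun y => k * E y)
      (((ae_restrict_iff' (chartAt (Cm d) x).open_target.measurableSet).1
        (P285Z.ae_chart hs.kahler.toIsHermitian hE.lim he.1)).mono fun z a b => (a b).const_mul _)
    refine ⟨A, eventually_map.2 ?_⟩
    filter_upwards [hA, mem_inf_of_left (nrm_ne H.met (H.sec 0) he (hz x hx))] with z a b
    refine Eq.trans ?_ a
    rw [nrm, Real.log_mul (left_ne_zero_of_mul b) (Real.exp_pos _).ne', Real.log_exp, wt]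
    show _ = _ - (Real.log (‖σ 0 (ix L _) _‖ ^ 2) + -(k * ρ (ix L _) _))
    ring

end Vale.Agent.P301Z.Sa
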