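import Vale.Agent.P301Z.Sa.Defs
import Vale.Agent.P301Z.Sk

/-!
# P301Z, block ABUN: the local data in one statement, and the assembly
-/

open scoped Manifold ContDiff Topology Matrix
open Set Filter Metric MeasureTheory
open Vale.Agent.P272.K Vale.Agent.P301.H599 Vale.Agent.P301.H99
open Vale.Agent.P277Z (Hol Mer)
open Vale.Agent.P281Z
open Vale.Agent.P281Z.El (Dm)

noncomputable section

namespace Vale.Agent.P301Z.Sa

/-- **LOC** -/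
def LOC : Prop := ForG fun d n X u B G => ∀ (s : Chart d X.X → Cm d → Matrix (Fin d) (Fin d) ℂ)
  (ι : Type) (L : LineBundle d X.X ι) (k : ℕ) (f : ι → X.X → ℂ) h, d = 2 * n → 0 < n → 0 < k →
  G.Un L k f h → Sec L k f → Zr L f ⊆ B → (∀ y ∉ Zr L f, (∀ j, Hol d (u j) y) ∧ Com s u y) →
  ∀ x, An d (G.C x) → Dm n (G.C x) → ∃ (U : Set X.X) (m : ℕ) (g : Fin m → X.X → ℂ) (a : ℕ)
    (e : ι → X.X → ℂ) (T : Set X.X), Loc s L n U g a e T ∧ x ∈ U ∧ ∀ l, g l x = 0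

theorem loc_of (h8 : SLICE) (h9 : TR) (h10 : ASM) : LOC := by
  intro d n X u B G s ι L k f h _ _ hk hh hf hB hu x k6 k7
  obtain ⟨c, r, A, k8, k9⟩ := h8 d n X _ x k6 k7 _ ((L.isOpen _).mem_nhds (ix_mem L x))
  obtain ⟨U, D, ζ, hT⟩ := h9 d n X _ B G x c r A k8
  obtain ⟨m, g, e, l1, l2⟩ := h10 d n X _ B G s ι L k _ h hk hh hf hB hu x c r _ U D ζ k8.atc
    k8.pos k9 hT
  obtain ⟨z, hz, hz'⟩ := G.refl x
  exact ⟨U, m, g, _, e, B, l1, hz' ▸ hT.sub z hz, l2⟩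

/-- the assembly -/
theorem abun_of2 (h1 : RAT) (h2 : RANK) (h3 : GEO) (h4 : LEAF) (h5 : CH) (h6 : UNIT) (h7 : DIM)
    (h8 : LOC) (h11 : FIN) (hH : HPT) : P301Z.ABUN := by
  intro n X _ w s hs ι L ρ hρ hn hi hc hg
  have hd : n + n = 2 * n := (two_mul n).symm
  have hK : X.Kah := ⟨w, hs.kahler⟩
  have h0 : 0 < n := by
    refine Nat.pos_of_ne_zero fun k => hc ⟨fun _ => 0, fun _ _ _ => contDiffAt_const, ?_⟩
    subst k
    exact fun _ _ _ => Matrix.ext fun a _ => a.elim0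
  obtain ⟨k, σ, S⟩ := h2 _ n X ι L ρ hK hρ h0 hg
  obtain ⟨k1, k2, k3⟩ := h1 _ n X ι L k σ S
  obtain ⟨B, hB, ⟨G⟩⟩ := h3 _ n X _ _ hd hK k1 k2 k3 S.ind
  obtain ⟨k4, E, hE, k5⟩ := h4 _ n X w s hd hs ι L ρ hρ hn hi hc k σ S
  obtain ⟨h, hh⟩ := h6 _ n X _ B G ι L ρ E k (σ 0) hρ hE S.pos (S.sec 0) hB
    (h5 _ n X _ B G _ fun x hx => k5 x (fun a => hx (hB a)) (G.ind x hx))
  refine h11 _ X ι L fun x => ?_
  obtain ⟨k6, k7⟩ := h7 _ n X w s hd hs ι L ρ hρ hn hi hc _ B G k _ h S.pos hh x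
  obtain ⟨U, m, g, a, e, T, l1, l2, l3⟩ := h8 _ n X _ B G s ι L k _ h hd h0 S.pos hh (S.sec 0) hB
    (fun y hy => ⟨fun j => k3 j y hy, k4 y hy⟩) x k6 k7
  exact hH _ n X.X w s hd hs ι L ρ hρ hn hi hc U m g a e T l1 x l2 l3

end Vale.Agent.P301Z.Sa
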