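import Vale.Agent.P301Z.Sa.SlD
import Vale.Agent.P301Z.Sa.Defs2

/-!
# P301Z, block ABUN, row LOC: the data of Lemma H at every point
-/

open scoped Manifold ContDiff Topology
open Set Filter Function Metric
open Vale.Agent.P272.K Vale.Agent.P301.H599 Vale.Agent.P301.H99 Vale.Agent.P281Z
open Vale.Agent.P277Z (Hol at_chart)

set_option linter.unusedSectionVars false

noncomputable section

namespace Vale.Agent.P301Z.Sa.Sl

theorem le_of_freq {X : Type} [TopologicalSpace X] {a b : X → ℝ} {y : X} (ha : ContinuousAt a y)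
    (hb : ContinuousAt b y) (h : ∃ᶠ z in 𝓝 y, a z ≤ b z) : a y ≤ b y :=
  not_lt.1 fun k => h ((hb.eventually_lt ha k).mono fun _ => not_le.2)

variable {d n : ℕ} {X : Mf d} {u : Fin n → X.X → ℂ} {B : Set X.X} {G : Rt X u B} {ι : Type}
  {L : LineBundle d X.X ι} {k : ℕ} {f : ι → X.X → ℂ} {h : ι → ι → G.W.X → ℂ}
  {s : Chart d X.X → Cm d → Matrix (Fin d) (Fin d) ℂ}

theorem sec_hol (hf : Sec L k f) {i : ι} {y : X.X} (hi : y ∈ L.U i) : Hol d (f i) y :=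
  fun e he => hf.1 i e y he hi

theorem zr_iff (hf : Sec L k f) {i : ι} {y : X.X} (hi : y ∈ L.U i) : y ∈ Zr L f ↔ f i y = 0 := by
  change f (ix L y) y = 0 ↔ _
  rw [hf.2 _ i y (ix_mem L y) hi]
  exact mul_eq_zero_iff_left (pow_ne_zero _ (L.ne_zero _ _ y (ix_mem L y) hi))

theorem zr_open (hf : Sec L k f) : IsOpen (Zr L f)ᶜ := isOpen_iff_mem_nhds.2 fun y hy => by
  filter_upwards [(L.isOpen _).mem_nhds (ix_mem L y),
    (sec_hol hf (ix_mem L y)).cont.eventually_ne hy] with z a b using fun c => b ((zr_iff hf a).1 c)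

theorem zr_q (hh : G.Un L k f h) {z : G.W.X} (hz : G.p z ∉ Zr L f) : G.q z ∉ Zr L f := fun c =>
  hz ((hh.eq _ _ z (ix_mem L _) (ix_mem L _)).trans (mul_eq_zero_of_right _ c))

/-- the relation -/
def RR (G : Rt X u B) : Set (X.X × X.X) := range fun z => (G.p z, G.q z)

theorem lam (hh : G.Un L k f h) (hf : Sec L k f) (hB : Zr L f ⊆ B)
    (hu : ∀ y ∉ Zr L f, (∀ j, Hol d (u j) y) ∧ Com s u y) :
    Lam s B (RR G) fun y j => u j y := by
  have h1 : ∀ z, G.p z ∉ Zr L f → (fun j => u j (G.q z)) = fun j => u j (G.p z) := fun z hz =>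
    funext fun j => tendsto_nhds_unique_of_frequently_eq
      (G.hq.hol ((hu _ (zr_q hh hz)).1 j)).cont (G.hp.hol ((hu _ hz).1 j)).cont
      ((G.thin.freq z).mono fun w hw =>
        (G.fac w (fun a => hw (Or.inl a)) (fun a => hw (Or.inr a)) j).symm)
  refine ⟨G.thinB, (isCompact_range (G.hp.cont.prodMk G.hq.cont)).isClosed,
    fun x => (G.refl x).imp fun _ a => Prod.ext a.1 a.2, ?_, fun y hy N n1 n2 => ?_⟩
  · rintro x y ⟨z, hz⟩
    obtain ⟨z', a, b⟩ := G.symm z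
    exact ⟨z', Prod.ext (a.trans (Prod.ext_iff.1 hz).2) (b.trans (Prod.ext_iff.1 hz).1)⟩
  obtain ⟨O, b, r, t1, t2, t3, t4⟩ := G.tube s (N ∩ (Zr L f)ᶜ) (n1.inter (zr_open hf))
    (fun y hy => hu y hy.2) y hy fun z hz =>
      ⟨n2 _ ⟨z, Prod.ext hz rfl⟩, zr_q hh (hz ▸ fun a => hy (hB a))⟩
  refine ⟨O, b, r, t1, t2, fun _ a => (t3 a).1, fun y₁ a1 y₂ => ⟨?_, fun a => ?_⟩⟩
  · rintro ⟨z, hz⟩
    obtain ⟨rfl, rfl⟩ := Prod.ext_iff.1 hz
    refine ⟨by_contra fun a2 => ?_, h1 z (t3 a1).2⟩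
    obtain ⟨z₀, b1, b2⟩ := G.refl (G.p z)
    obtain ⟨_, ⟨w, c1, rfl⟩, c2, c3⟩ := G.connA (G.p z) O _ t1.opn
      (t1.prp {fun j => u j (G.p z)} (singleton_subset_iff.2 (t1.maps a1))
        isCompact_singleton).isClosed.isOpen_compl
      (fun w _ => (em (w ∈ O)).imp_right fun c e => c e.1) ⟨_, ⟨z₀, b1, rfl⟩, b2.symm ▸ a1⟩
      ⟨_, ⟨z, rfl, rfl⟩, fun e => a2 e.1⟩
    have c4 : G.p w = G.p z := c1
    exact c3 ⟨c2, (h1 w (c4.symm ▸ (t3 a1).2)).trans (by rw [c4])⟩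
  · obtain ⟨z, b1, b2⟩ := t4 y₁ a1 y₂ a.1 fun j => (congrFun a.2 j).symm
    exact ⟨z, Prod.ext b1 b2⟩

theorem bnd (hh : G.Un L k f h) {i j : ι} {y : X.X} (hi : y ∈ L.U i) {K : Set X.X}
    (hK : IsCompact K) (hj : K ⊆ L.U j) : ∃ C : ℝ, 0 ≤ C ∧ ∀ᶠ z in 𝓝 y, ∀ p ∈ K, (z, p) ∈ RR G →
      ‖f i z‖ ≤ C * ‖f j p‖ ∧ ‖f j p‖ ≤ C * ‖f i z‖ := by
  obtain ⟨K', k1, k2, k3⟩ := local_compact_nhds ((L.isOpen i).mem_nhds hi)
  have h1 : IsCompact (G.p ⁻¹' K' ∩ G.q ⁻¹' K) :=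
    ((k3.isClosed.preimage G.hp.cont).inter (hK.isClosed.preimage G.hq.cont)).isCompact
  have h2 : ContinuousOn (h i j) (G.p ⁻¹' K' ∩ G.q ⁻¹' K) := fun z hz =>
    (hh.hol i j z (k2 hz.1) (hj hz.2)).cont.continuousWithinAt
  obtain ⟨C₁, c1⟩ := h1.exists_bound_of_continuousOn h2
  obtain ⟨C₂, c2⟩ := h1.exists_bound_of_continuousOn
    (h2.inv₀ fun z hz => hh.ne i j z (k2 hz.1) (hj hz.2))
  refine ⟨|C₁| + |C₂|, by positivity, mem_of_superset k1 ?_⟩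
  rintro z a1 p a2 ⟨w, hw⟩
  obtain ⟨rfl, rfl⟩ := Prod.ext_iff.1 hw
  have b1 := hh.eq i j w (k2 a1) (hj a2)
  have b2 : f j (G.q w) = (h i j w)⁻¹ * f i (G.p w) := by
    rw [b1, inv_mul_cancel_left₀ (hh.ne i j w (k2 a1) (hj a2))]
  constructor
  · rw [b1, norm_mul]
    exact mul_le_mul_of_nonneg_right
      (by linarith [c1 w ⟨a1, a2⟩, le_abs_self C₁, abs_nonneg C₂]) (norm_nonneg _)
  · rw [b2, norm_mul]
    exact mul_le_mul_of_nonneg_right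
      (by linarith [show ‖(h i j w)⁻¹‖ ≤ C₂ from c2 w ⟨a1, a2⟩, le_abs_self C₂, abs_nonneg C₁])
      (norm_nonneg _)

theorem gen {x : X.X} {U K A : Set X.X} {δ m : ℕ} {g : Fin m → X.X → ℂ} {π : X.X → Cm n}
    (hC : Core s B (RR G) π x U K A δ g) (hh : G.Un L k f h) (hf : Sec L k f) (hB : Zr L f ⊆ B)
    {j : ι} (hj : K ⊆ L.U j) : ∃ e, Gen L (k * δ) U e := by
  obtain ⟨N, n1, n2⟩ := hC.nrm (f j) fun y hy => sec_hol hf (hj hy)
  have h1 : ∀ i, ∀ y ∈ U, y ∈ L.U i → Hol d (Md.ext Bᶜ fun z => f i z ^ δ / N z) y ∧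
      Md.ext Bᶜ (fun z => f i z ^ δ / N z) y ≠ 0 ∧
      ∀ᶠ z in 𝓝 y, z ∉ B → Md.ext Bᶜ (fun z => f i z ^ δ / N z) z = f i z ^ δ / N z := by
    intro i y a1 a2
    obtain ⟨C, c0, c1⟩ := bnd hh a2 hC.cK hj
    have b0 : ∀ᶠ z in 𝓝 y, z ∈ U ∧ z ∈ L.U i :=
      (hC.opn.eventually_mem a1).and ((L.isOpen i).eventually_mem a2)
    have b1 : ∀ᶠ z in 𝓝 y, z ∈ A →
        ‖f i z‖ ^ δ ≤ C ^ δ * ‖N z‖ ∧ ‖N z‖ ≤ C ^ δ * ‖f i z‖ ^ δ := by
      filter_upwards [c1, b0] with z b1 b2 b3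
      obtain ⟨p, p1, p2⟩ := n2 z b2.1 b3
      rw [p2, norm_prod]
      constructor
      · simpa [Finset.prod_mul_distrib] using Finset.prod_le_prod (s := Finset.univ)
          (fun _ _ => norm_nonneg _) fun l _ => (b1 _ (p1 l).1 (p1 l).2).1
      · simpa [mul_pow] using Finset.prod_le_prod (s := Finset.univ)
          (fun _ _ => norm_nonneg _) fun l _ => (b1 _ (p1 l).1 (p1 l).2).2
    have b2 : ∀ᶠ z in 𝓝 y, ‖f i z‖ ^ δ ≤ C ^ δ * ‖N z‖ ∧ ‖N z‖ ≤ C ^ δ * ‖f i z‖ ^ δ := by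
      filter_upwards [b1.eventually_nhds, b0] with z b2 b3
      have e1 := (sec_hol hf b3.2).cont.norm.pow δ
      have e2 := (n1 z b3.1).cont.norm
      have e3 := ((hC.frq z b3.1).and_eventually b2).mono fun _ a => a.2 a.1
      exact ⟨le_of_freq e1 (continuousAt_const.mul e2) (e3.mono fun _ a => a.1),
        le_of_freq e2 (continuousAt_const.mul e1) (e3.mono fun _ a => a.2)⟩
    have b3 : ∀ᶠ z in 𝓝 y, z ∈ Bᶜ → N z ≠ 0 := by
      filter_upwards [b2, b0] with z b3 b4 b5 b6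
      have e1 := pow_pos (norm_pos_iff.2 fun e => b5 (hB ((zr_iff hf b4.2).2 e))) δ
      rw [b6, norm_zero, mul_zero] at b3
      exact e1.not_ge b3.1
    obtain ⟨H, k1, k2⟩ := Md.riem (h := fun z => f i z ^ δ / N z) (Md.gn_of_thin G.thinB y)
      (by
        filter_upwards [b3, b0] with z e1 e2 e3 e he
        exact ((sec_hol hf e2.2 e he).fun_pow δ).fun_div (n1 z e2.1 e he)
          (by rw [he.left_inv]; exact e1 e3))
      ⟨C ^ δ, by
        filter_upwards [b3, b2] with z e1 e2 e3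
        rw [norm_div, norm_pow, div_le_iff₀ (norm_pos_iff.2 (e1 e3))]
        exact e2.1⟩
    have k3 := Md.ext_ev (Md.gn_of_thin G.thinB y).freq' k1 k2
    refine ⟨k1.congr k3, k3.self_of_nhds ▸ fun e => ?_, by
      filter_upwards [k2, k3] with z e1 e2 e3 using e2.symm.trans (e1 e3)⟩
    have k4 := le_of_freq (a := fun _ => 1) (b := fun z => C ^ δ * ‖H z‖) continuousAt_const
      (continuousAt_const.mul k1.cont.norm)
      (((G.thinB.freq y).and_eventually (k2.and (b3.and b2))).mono fun z a => by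
        rw [a.2.1 a.1, norm_div, norm_pow, ← mul_div_assoc,
          one_le_div (norm_pos_iff.2 (a.2.2.1 a.1))]
        exact a.2.2.2.2)
    rw [e, norm_zero, mul_zero] at k4
    exact one_pos.not_ge k4
  refine ⟨fun i => Md.ext Bᶜ fun z => f i z ^ δ / N z, fun i y a b => (h1 i y a b).1,
    fun i y a b => (h1 i y a b).2.1, fun i i' y a b c => ?_⟩
  have h2 : Hol d (L.g i i') y := fun e he => L.holo i i' e y he b c
  refine tendsto_nhds_unique_of_frequently_eq (h1 i y a b).1.cont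
    ((h2.cont.pow _).mul (h1 i' y a c).1.cont) (((G.thinB.freq y).and_eventually
      ((h1 i y a b).2.2.and ((h1 i' y a c).2.2.and (((L.isOpen i).eventually_mem b).and
        ((L.isOpen i').eventually_mem c))))).mono fun z e => ?_)
  simp only [Pi.mul_apply, Pi.pow_apply]
  rw [e.2.1 e.1, e.2.2.1 e.1, hf.2 i i' z e.2.2.2.1 e.2.2.2.2, mul_pow, ← pow_mul, mul_div_assoc]

end Sl

theorem loc : LOC := by
  intro d n X u B G s ι L k f h hd hn hk hh hf hB hu x _ hD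
  have he := at_chart (n := d) x
  obtain ⟨U, K, A, δ, m, g, k1, k2⟩ := (Sl.lam hh hf hB hu).core hd hn he
    ((hD _ he.1).mono fun z hz => by
      obtain ⟨_, ⟨a, a1⟩, b, b1⟩ := hz.2
      exact ⟨_, ⟨⟨a, b, (Prod.ext_iff.1 a1).1, (Prod.ext_iff.1 a1).2.trans
        (Prod.ext_iff.1 b1).1.symm, (Prod.ext_iff.1 b1).2⟩, OpenPartialHomeomorph.map_target _ hz.1⟩,
        OpenPartialHomeomorph.right_inv _ hz.1⟩)
    ((L.isOpen _).mem_nhds (ix_mem L x))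
  obtain ⟨e, k3⟩ := Sl.gen k2 hh hf hB k1
  exact ⟨U, m, g, k * δ, e, B, ⟨k2.opn, k2.hol, k2.cpt, mul_pos hk k2.pos, k3, G.thinB,
    fun y a _ b => let ⟨O, c, r, t⟩ := k2.tube y a b; ⟨O, _, c, r, t⟩⟩, k2.mem, k2.zero⟩

end Vale.Agent.P301Z.Sa
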