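import Vale.Agent.P301Z.Sa.Defs
import Vale.Agent.P281Z.Mf.Api

/-!
# P301Z, block ABUN: null sets and submersions
-/

open scoped Manifold ContDiff Topology
open Set Filter MeasureTheory Function
open Vale.Agent.P272.K Vale.Agent.P281Z
open Vale.Agent.P277Z (at_chart)

noncomputable section

namespace Vale.Agent.P301Z.Sa

variable {m p : ℕ}

theorem mem_ae_nhds {S : Set (Cm m)} {a : Cm m} :
    S ∈ 𝓝 a ⊓ ae volume ↔ ∃ O ∈ 𝓝 a, volume (O \ S) = 0 := by
  constructor
  · intro h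
    obtain ⟨s, hs, t, ht, rfl⟩ := mem_inf_iff.1 h
    exact ⟨s, hs, measure_mono_null (fun z hz k => hz.2 ⟨hz.1, k⟩) (mem_ae_iff.1 ht)⟩
  · rintro ⟨O, hO, h⟩
    refine mem_of_superset (inter_mem_inf hO (compl_mem_ae_iff.2 h)) fun z hz => ?_
    by_contra k
    exact hz.2 ⟨hz.1, k⟩

theorem ae_le_map {f : Cm m → Cm m} {a : Cm m} (hf : AnalyticAt ℂ f a)
    (h : map f (𝓝 a) = 𝓝 (f a)) : 𝓝 (f a) ⊓ ae volume ≤ map f (𝓝 a ⊓ ae volume) := by
  intro S hS
  obtain ⟨O, hO, h1⟩ := mem_ae_nhds.1 (mem_map.1 hS)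
  have h2 : O ∩ {z | AnalyticAt ℂ f z} ∈ 𝓝 a := inter_mem hO hf.eventually_analyticAt
  refine mem_ae_nhds.2 ⟨f '' (O ∩ {z | AnalyticAt ℂ f z}), h ▸ image_mem_map h2, ?_⟩
  refine measure_mono_null ?_ (addHaar_image_eq_zero_of_differentiableOn_of_addHaar_eq_zero volume
    (f := f) (s := (O ∩ {z | AnalyticAt ℂ f z}) \ f ⁻¹' S)
    (fun z hz => (hz.1.2.differentiableAt.restrictScalars ℝ).differentiableWithinAt)
    (measure_mono_null (sdiff_subset_sdiff_left inter_subset_left) h1))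
  rintro _ ⟨⟨z, hz, rfl⟩, k⟩
  exact ⟨z, ⟨hz, k⟩, rfl⟩

theorem map_ae_iso {f : Cm m → Cm m} {a : Cm m} (hf : AnalyticAt ℂ f a)
    (h : HasFDerivAt f (ContinuousLinearEquiv.refl ℂ (Cm m) : Cm m →L[ℂ] Cm m) a) :
    map f (𝓝 a ⊓ ae volume) = 𝓝 (f a) ⊓ ae volume := by
  have h0 : ContDiffAt ℂ ω f a := hf.contDiffAt
  have h1 := h0.hasStrictFDerivAt' h (by simp)
  refine le_antisymm ?_ (ae_le_map hf h1.map_nhds_eq_of_equiv)
  have h2 := ae_le_map (h0.to_localInverse h (by simp)).analyticAt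
    h1.to_localInverse.map_nhds_eq_of_equiv
  rw [h0.localInverse_apply_image] at h2
  refine (map_mono h2).trans (le_of_eq ?_)
  rw [map_map]
  exact (map_congr (h1.eventually_right_inverse.filter_mono inf_le_left)).trans map_id

theorem map_ae_lin (T : Cm m →L[ℂ] Cm p) (σ : Cm p →L[ℂ] Cm m) (h : ∀ t, T (σ t) = t) (b : Cm m) :
    map T (𝓝 b ⊓ ae volume) = 𝓝 (T b) ⊓ ae volume := by
  refine le_antisymm (map_inf_le.trans (inf_le_inf T.continuous.continuousAt fun S hS => ?_)) ?_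
  · obtain ⟨t, h1, h2, h3⟩ := exists_measurable_superset_of_null (mem_ae_iff.1 hS)
    refine mem_map.2 (mem_of_superset ((ae_comp_linearMap_mem_iff (T : Cm m →ₗ[ℂ] Cm p) volume
      volume (fun t => ⟨σ t, h t⟩) h2.compl).2 (compl_mem_ae_iff.2 h3)) fun z hz => ?_)
    by_contra k
    exact hz (h1 k)
  · intro S hS
    obtain ⟨O, hO, h1⟩ := mem_ae_nhds.1 (mem_map.1 hS)
    obtain ⟨Z, h2, h3, h4⟩ := exists_measurable_superset_of_null h1
    have h5 := (ae_ae_add_linearMap_mem_iff (σ : Cm p →ₗ[ℂ] Cm m) volume volume h3.compl).2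
      (compl_mem_ae_iff.2 h4)
    have h6 : ∀ᶠ y in 𝓝 b, y + σ (T b - T y) ∈ interior O := by
      have h7 : ContinuousAt (fun y => y + σ (T b - T y)) b := by fun_prop
      refine h7.eventually ?_
      simp only [sub_self, map_zero, add_zero]
      exact interior_mem_nhds.2 hO
    obtain ⟨y, h7, h8⟩ := ((mem_closure_iff_nhds.1 (Measure.dense_of_ae h5 b)) _ h6)
    have h9 : ∀ᶠ t in 𝓝 (T b), y + σ (t - T y) ∈ O := by
      have k : ContinuousAt (fun t => y + σ (t - T y)) (T b) := by fun_prop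
      exact k.eventually (mem_interior_iff_mem_nhds.1 h7)
    have h10 : ∀ᵐ t, y + σ (t - T y) ∈ Zᶜ :=
      (measurePreserving_sub_right volume (T y)).quasiMeasurePreserving.ae h8
    refine mem_of_superset (inter_mem_inf h9 h10) fun t ht => ?_
    by_contra k
    refine ht.2 (h2 ⟨ht.1, fun k' => k ?_⟩)
    rwa [mem_preimage, map_add, h, add_sub_cancel] at k'

theorem map_ae_sbm {g : Cm m → Cm p} {a : Cm m} (hg : AnalyticAt ℂ g a)
    (h : Surjective (fderiv ℂ g a)) : map g (𝓝 a ⊓ ae volume) = 𝓝 (g a) ⊓ ae volume := by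
  set T := fderiv ℂ g a with hT
  obtain ⟨σ₀, h1⟩ := (T : Cm m →ₗ[ℂ] Cm p).exists_rightInverse_of_surjective
    (LinearMap.range_eq_top.2 h)
  set σ : Cm p →L[ℂ] Cm m := LinearMap.toContinuousLinearMap σ₀ with hσ
  have h2 : ∀ t, T (σ t) = t := fun t => LinearMap.congr_fun h1 t
  have h3 : g = T ∘ fun z => z + σ (g z - T z) := funext fun z => by
    rw [comp_apply, map_add, h2, add_sub_cancel]
  have h4 := map_ae_iso (f := fun z => z + σ (g z - T z)) (a := a)
    (analyticAt_id.add ((σ.analyticAt _).comp (hg.sub (T.analyticAt _)))) (by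
      have k := (hasFDerivAt_id a).add (σ.hasFDerivAt.comp a
        (hg.differentiableAt.hasFDerivAt.sub T.hasFDerivAt))
      rw [← hT, sub_self, ContinuousLinearMap.comp_zero, add_zero] at k
      exact k)
  conv_lhs => rw [h3]
  rw [← map_map, h4, map_ae_lin T σ h2, map_add, h2, add_sub_cancel]

section

variable {V Y : Type} [TopologicalSpace V] [ChartedSpace (Cm m) V] [IsManifold 𝓘(ℂ, Cm m) ω V]
  [TopologicalSpace Y] [ChartedSpace (Cm p) Y] [IsManifold 𝓘(ℂ, Cm p) ω Y]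

theorem map_ae_chart {f : V → Y} {x : V} (hf : HolA m p f x) (hs : Sbm m p f x) {e : Chart m V}
    {e' : Chart p Y} (he : At e x) (he' : At e' (f x)) :
    map f (map e.symm (𝓝 (e x) ⊓ ae volume)) = map e'.symm (𝓝 (e' (f x)) ⊓ ae volume) := by
  have h1 := map_ae_sbm (hf.an he he') (hs e e' he he')
  rw [he.left_inv] at h1
  rw [← h1, map_map, map_map]
  refine map_congr (Eventually.filter_mono inf_le_left ?_)
  filter_upwards [at_map hf.cont he he'] with z hz using hz.left_inv.symm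

theorem aeAt_chart {e : Chart m V} {x : V} (he : At e x) :
    aeAt m x = map e.symm (𝓝 (e x) ⊓ ae volume) :=
  map_id.symm.trans (map_ae_chart (holM_id.at x) (sbm_id x) (at_chart x) he)

end

/-- **NUL** -/
theorem nul : NUL where
  sbm _ _ _ _ _ _ _ _ _ _ _ x hf hs := map_ae_chart hf hs (at_chart x) (at_chart _)
  ind m p V _ _ _ u x h := by
    have he := at_chart (n := m) x
    have h1 := map_ae_sbm (g := fun z j => u j ((chartAt (Cm m) x).symm z))
      (AnalyticAt.pi fun j => h.1 j _ he) (by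
        rw [fderiv_pi fun j => (h.1 j _ he).differentiableAt]
        exact (P277Z.Slc.ind_iff_surj _).1 (h.2 _ he))
    rw [he.left_inv] at h1
    exact h1
  chart _ _ _ _ _ _ _ he := aeAt_chart he
  near m V _ _ _ x S hS := by
    have he := at_chart (n := m) x
    obtain ⟨O, hO, h1⟩ := mem_ae_nhds.1 (mem_map.1 hS)
    filter_upwards [at_near he,
      ((chartAt (Cm m) x).continuousAt he.2).eventually (eventually_mem_nhds_iff.2 hO)] with y k1 k2
    rw [aeAt_chart k1]
    exact mem_map.2 (mem_ae_nhds.2 ⟨O, k2, h1⟩)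
  le m V _ _ x := (map_mono inf_le_left).trans
    ((chartAt (Cm m) x).symm_map_nhds_eq (mem_chart_source _ x)).le

end Vale.Agent.P301Z.Sa
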