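import Vale.Agent.P301Z.Sa.Defs
import Vale.Agent.P301.H98.Ord
import Vale.Agent.P281Z.Mf.Loc

/-! # P301Z, block ABUN: many sections give independent ratios -/

open scoped Manifold ContDiff Topology
open Set Filter Metric Asymptotics
open Vale.Agent.P272.K Vale.Agent.P301.H599 Vale.Agent.P301.H99
open Vale.Agent.P277Z (Hol at_chart)
open Vale.Agent.P277Z.Slc (Ind dd)
open Vale.Agent.P281Z

set_option linter.all false

noncomputable section

namespace Vale.Agent.P301Z.Sa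

namespace RankX

/-- monomials -/
def mon (r q : ℕ) (α : Fin r → Fin q) (y : Cm r) : ℂ := ∏ i, y i ^ (α i : ℕ)

theorem mem_span {r q n : ℕ} (h : n < q) (p : ContinuousMultilinearMap ℂ (fun _ : Fin n => Cm r) ℂ) :
    (fun y => p fun _ => y) ∈ Submodule.span ℂ (range (mon r q)) := by
  let α : (Fin n → Fin r) → Fin r → Fin q := fun σ i =>
    ⟨(Finset.univ.filter fun k => σ k = i).card,
      ((Finset.card_filter_le _ _).trans_eq (Finset.card_fin n)).trans_lt h⟩
  have e : (fun y => p fun _ => y) =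
      ∑ σ : Fin n → Fin r, p (fun k => Pi.single (σ k) 1) • mon r q (α σ) := by
    funext y
    have h1 : (fun _ : Fin n => y) = fun _ => ∑ i, y i • (Pi.single i 1 : Cm r) :=
      funext fun _ => pi_eq_sum_univ' y
    rw [h1, p.map_sum, Finset.sum_apply]
    refine Finset.sum_congr rfl fun σ _ => ?_
    rw [p.map_smul_univ, Pi.smul_apply, smul_eq_mul, smul_eq_mul, mul_comm,
      ← Finset.prod_fiberwise' Finset.univ σ y]
    simp only [Finset.prod_const, mon, α]
  rw [e]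
  exact Submodule.sum_mem _ fun σ _ => Submodule.smul_mem _ _ (Submodule.subset_span ⟨_, rfl⟩)

/-- a combination which vanishes to high order -/
theorem sieg {r q M : ℕ} (h : q ^ r < M) {f : Fin M → Cm r → ℂ} {a : Cm r}
    (hf : ∀ j, AnalyticAt ℂ (f j) a) : ∃ c : Fin M → ℂ, c ≠ 0 ∧
      (fun y => ∑ j, c j * f j y) =O[𝓝 a] fun y => ‖y - a‖ ^ q := by
  choose p hp using hf
  have := Module.Finite.span_of_finite ℂ (finite_range (mon r q))
  let v : Fin M → Submodule.span ℂ (range (mon r q)) := fun j => ⟨(p j).partialSum q, by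
    have e : (p j).partialSum q = ∑ n ∈ Finset.range q, fun y => p j n fun _ => y :=
      funext fun y => by rw [Finset.sum_apply]; rfl
    rw [e]
    exact Submodule.sum_mem _ fun n hn => mem_span (Finset.mem_range.1 hn) _⟩
  obtain ⟨c, h1, j, h2⟩ := Fintype.not_linearIndependent_iff.1 fun hv : LinearIndependent ℂ v =>
    h.not_ge (by simpa using hv.fintype_card_le_finrank.trans (finrank_range_le_card (mon r q)))
  refine ⟨c, fun k => h2 (congrFun k j), ?_⟩
  have h3 : (fun y => ∑ j, c j * (f j (a + y) - (p j).partialSum q y)) =O[𝓝 0] fun y => ‖y‖ ^ q :=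
    IsBigO.fun_sum fun j _ => ((hp j).isBigO_sub_partialSum_pow q).const_mul_left _
  have h4 : Tendsto (fun y => y - a) (𝓝 a) (𝓝 0) := Continuous.tendsto' (by fun_prop) _ _ (by simp)
  refine (h3.comp_tendsto h4).congr_left fun y => ?_
  have h5 := congrFun (congrArg Subtype.val h1) (y - a)
  simp only [Submodule.coe_sum, Submodule.coe_smul, Finset.sum_apply, Pi.smul_apply, smul_eq_mul,
    v, Submodule.coe_zero, Pi.zero_apply] at h5
  simp only [Function.comp, add_sub_cancel, mul_sub, Finset.sum_sub_distrib, h5, sub_zero]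

variable {d r : ℕ} {X : Type} [TopologicalSpace X] [ChartedSpace (Cm d) X]
  [IsManifold 𝓘(ℂ, Cm d) ω X]

/-- a function whose differential depends on the `d u j` is a function of `u` -/
theorem fac {u : Fin r → X → ℂ} {F : X → ℂ} {x : X} (hu : Ind d u x) (hF : Hol d F x)
    (h : ∀ᶠ y in 𝓝 x, ¬ Ind d (Fin.cons F u : Fin (r + 1) → X → ℂ) y) :
    ∃ f : Cm r → ℂ, AnalyticAt ℂ f (fun j => u j x) ∧ ∀ᶠ y in 𝓝 x, F y = f fun j => u j y := by
  obtain ⟨Θ, h1, h2, h3, h4⟩ := exists_co hu (d := d - r)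
    (by simpa using Nat.add_sub_cancel' (by simpa using ind_le hu))
    (h.and (hu.near.and hF.near))
  have hG : ∀ v ∈ Θ.target, AnalyticAt ℂ (fun v => F (Θ.symm v)) v := fun v hv =>
    h1.an_hol hv (h3 (Θ.map_target hv)).2.2
  have h5 : ∀ v ∈ Θ.target, ∀ b, fderiv ℂ (fun v => F (Θ.symm v)) v (0, b) = 0 := by
    intro v hv b
    obtain ⟨k1, k2, k3⟩ := h3 (Θ.map_target hv)
    have he := at_chart (n := d) (Θ.symm v)
    set e := chartAt (Cm d) (Θ.symm v)
    have k4 : ∀ a : X → ℂ, Hol d a (Θ.symm v) → fderiv ℂ (fun v => a (Θ.symm v)) v =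
        (dd a e (Θ.symm v)).comp (fderiv ℂ (fun v => e (Θ.symm v)) v) := fun a ha => by
      rw [dd, ← fderiv_comp v (ha e he).differentiableAt (h1.inv v hv e he).differentiableAt]
      refine EventuallyEq.fderiv_eq ?_
      filter_upwards [(Θ.continuousAt_symm hv).eventually (at_near he)] with w hw
      exact congrArg a hw.left_inv.symm
    have k5 : dd F e (Θ.symm v) ∈ Submodule.span ℂ (range fun j => dd (u j) e (Θ.symm v)) := by
      by_contra k
      refine k1 (Ind.of_chart (fun a => Fin.cases k3 k2.1 a) he ?_)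
      have k6 := linearIndependent_fin_cons.2 ⟨k2.2 e he, k⟩
      rwa [show (fun a => dd ((Fin.cons F u : Fin (r + 1) → X → ℂ) a) e (Θ.symm v)) =
        Fin.cons (dd F e (Θ.symm v)) fun j => dd (u j) e (Θ.symm v) from
        funext fun a => Fin.cases rfl (fun _ => rfl) a]
    obtain ⟨c, hc⟩ := (Submodule.mem_span_range_iff_exists_fun ℂ).1 k5
    rw [k4 F k3, ContinuousLinearMap.comp_apply, ← hc, ContinuousLinearMap.sum_apply]
    refine Finset.sum_eq_zero fun j _ => ?_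
    have k7 : (fun v => u j (Θ.symm v)) =ᶠ[𝓝 v] fun v => v.1 j := by
      filter_upwards [Θ.open_target.mem_nhds hv] with w hw
      rw [← congrFun (h4 _ (Θ.map_target hw)) j, Θ.right_inv hw]
    have k8 : HasFDerivAt (fun v : Cm r × Cm (d - r) => v.1 j) _ v :=
      ((ContinuousLinearMap.proj j).comp (ContinuousLinearMap.fst ℂ (Cm r) (Cm (d - r)))
        : Cm r × Cm (d - r) →L[ℂ] ℂ).hasFDerivAt
    rw [ContinuousLinearMap.smul_apply, ← ContinuousLinearMap.comp_apply, ← k4 _ (k2.1 j),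
      k7.fderiv_eq, k8.fderiv]
    simp
  obtain ⟨ε, hε, hb⟩ := nhds_basis_ball.mem_iff.1 (Θ.open_target.mem_nhds (Θ.map_source h2))
  rw [← ball_prod_same] at hb
  refine ⟨fun a => F (Θ.symm (a, (Θ x).2)), ?_, ?_⟩
  · rw [← h4 x h2]
    exact (hG _ (Θ.map_source h2)).fun_comp (f := fun a => (a, (Θ x).2))
      (analyticAt_id.prod analyticAt_const)
  · filter_upwards [(Θ.continuousAt h2).eventually (ball_mem_nhds _ hε),
      Θ.open_source.mem_nhds h2] with y k0 k2
    have k1 : Θ y ∈ ball (Θ x).1 ε ×ˢ ball (Θ x).2 ε := by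
      rw [ball_prod_same]
      exact k0
    have k3 := fun b (hb' : b ∈ ball (Θ x).2 ε) =>
      (hG ((Θ y).1, b) (hb ⟨k1.1, hb'⟩)).differentiableAt.hasFDerivAt.comp b
        (hasFDerivAt_prodMk_right (Θ y).1 b)
    have k4 := isOpen_ball.is_const_of_fderiv_eq_zero (convex_ball _ _).isPreconnected
      (fun b hb' => (k3 b hb').differentiableAt.differentiableWithinAt) (fun b hb' => by
        rw [(k3 b hb').fderiv]
        exact ContinuousLinearMap.ext fun b' => h5 ((Θ y).1, b) (hb ⟨k1.1, hb'⟩) b') k1.2 (mem_ball_self hε)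
    rw [← h4 y k2]
    exact (congrArg F (Θ.left_inv k2).symm).trans k4

variable {ι : Type} {L : LineBundle d X ι}

theorem loc {k N : ℕ} {σ : Fin (r + 1) → ι → X → ℂ} (hk : 0 < k) (hσ : ∀ j, Sec L k (σ j)) {x : X}
    (h0 : x ∉ Zr L (σ 0)) (hi : Ind d (rat L σ) x)
    (hn : ¬ ∃ (k : ℕ) (σ : Fin (r + 1 + 1) → ι → X → ℂ), Sys L k σ) {t : ι → X → ℂ}
    (ht : Sec L (k * (N + 1)) t) : ∃ f : Cm r → ℂ, AnalyticAt ℂ f (fun j => rat L σ j x) ∧
      ∀ᶠ y in 𝓝 x, t (ix L x) y = f (fun j => rat L σ j y) * σ 0 (ix L x) y ^ (N + 1) := by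
  have hx := ix_mem L x
  have hs : Hol d (σ 0 (ix L x)) x := fun e he => (hσ 0).1 _ e x he hx
  have h1 : ∀ᶠ y in 𝓝 x, y ∈ L.U (ix L x) ∧ σ 0 (ix L x) y ≠ 0 :=
    (show ∀ᶠ y in 𝓝 x, y ∈ L.U (ix L x) from (L.isOpen _).mem_nhds hx).and (hs.ne_near h0)
  have h2 : ∀ᶠ y in 𝓝 x, t (ix L x) y / σ 0 (ix L x) y ^ (N + 1) =
      t (ix L y) y / σ 0 (ix L y) y ^ (N + 1) := h1.mono fun y hy => by
    rw [ht.2 _ _ y (ix_mem L y) hy.1, (hσ 0).2 _ _ y (ix_mem L y) hy.1, mul_pow, ← pow_mul,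
      mul_div_mul_left _ _ (pow_ne_zero _ (L.ne_zero _ _ y (ix_mem L y) hy.1))]
  refine (fac hi ((Hol.div (fun e he => ht.1 _ e x he hx) (hs.pow _)
    (pow_ne_zero _ h0)).congr h2) (h1.mono fun y hy hI => hn ⟨k * (N + 1),
      Fin.cons (fun i y => σ 0 i y ^ (N + 1)) (Fin.cons t fun j i y => σ j.succ i y * σ 0 i y ^ N),
      by positivity, ?_, y, fun k0 => ?_, ?_⟩)).imp fun f ⟨f1, f2⟩ => ⟨f1, ?_⟩
  rotate_right
  · filter_upwards [h1, h2, f2] with y k1 k2 k3
    rw [← k3, ← k2, div_mul_cancel₀ _ (pow_ne_zero _ k1.2)]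
  · refine Fin.cases ⟨fun i e y he hy => ((hσ 0).1 i e y he hy).fun_pow _, fun i j y hi hj => ?_⟩
      (Fin.cases ht fun l => ⟨fun i e y he hy =>
        ((hσ _).1 i e y he hy).fun_mul (((hσ 0).1 i e y he hy).fun_pow _), fun i j y hi hj => ?_⟩)
    · show σ 0 i y ^ (N + 1) = _ * σ 0 j y ^ (N + 1)
      rw [(hσ 0).2 i j y hi hj, mul_pow, ← pow_mul]
    · show σ l.succ i y * σ 0 i y ^ N = _ * (σ l.succ j y * σ 0 j y ^ N)
      rw [(hσ 0).2 i j y hi hj, (hσ l.succ).2 i j y hi hj]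
      ring
  · have k1 : σ 0 (ix L y) y ^ (N + 1) = 0 := k0
    rw [(hσ 0).2 _ _ y (ix_mem L y) hy.1] at k1
    exact pow_ne_zero _ (mul_ne_zero (pow_ne_zero _ (L.ne_zero _ _ y (ix_mem L y) hy.1)) hy.2) k1
  · refine ind_congr hI fun a => Eventually.of_forall fun z => Fin.cases rfl (fun j => ?_) a
    show σ j.succ (ix L z) z / σ 0 (ix L z) z =
      σ j.succ (ix L z) z * σ 0 (ix L z) z ^ N / σ 0 (ix L z) z ^ (N + 1)
    by_cases k1 : σ 0 (ix L z) z = 0
    · simp [k1]
    · field_simp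
      ring

end RankX

open RankX

theorem rank : RANK := by
  intro d n X _ ι L ρ ⟨w, hw⟩ hρ hn ⟨K, hK, c, hc, hG⟩
  obtain ⟨C, hC⟩ := P301.H98.exists_ord hw hρ
  have big : ∀ (A : ℝ) (r k : ℕ), r < n → 0 < k →
      ∃ m : ℕ, A * (m + 1 : ℕ) ^ r + 1 ≤ c * ((k * (m + 1) : ℕ) : ℝ) ^ n := by
    intro A r k hr hk
    obtain ⟨m, hm⟩ := exists_nat_ge ((A + 1) / c)
    rw [div_le_iff₀ hc] at hm
    have h1 : (1 : ℝ) ≤ (m + 1 : ℕ) := by exact_mod_cast Nat.succ_pos m
    have h2 : ((m + 1 : ℕ) : ℝ) ^ (r + 1) ≤ ((k * (m + 1) : ℕ) : ℝ) ^ n :=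
      (pow_le_pow_right₀ h1 hr).trans (pow_le_pow_left₀ (by positivity)
        (by exact_mod_cast Nat.le_mul_of_pos_left _ hk) n)
    have h3 := one_le_pow₀ (n := r) h1
    refine ⟨m, le_trans ?_ (mul_le_mul_of_nonneg_left h2 hc.le)⟩
    have h4 : A + 1 ≤ c * (m + 1 : ℕ) := by
      push_cast
      linarith
    rw [pow_succ]
    nlinarith
  suffices h : ∀ r ≤ n, ∃ (k : ℕ) (σ : Fin (r + 1) → ι → X.X → ℂ), Sys L k σ from h n le_rfl
  intro r
  induction r with
  | zero =>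
    intro _
    obtain ⟨m, hm⟩ := big 0 0 1 hn one_pos
    obtain ⟨f, f1, f2⟩ := hG (1 * (m + 1)) 1 (by simpa using hm)
    refine ⟨_, f, by positivity, f1, ?_⟩
    by_contra h
    refine one_ne_zero (congrFun (f2 1 fun i x hx => ?_) 0)
    have h1 : f 0 (ix L x) x = 0 := not_not.1 fun k =>
      h ⟨x, k, fun a => a.elim0, fun _ _ => linearIndependent_empty_type⟩
    simp [(f1 0).2 i _ x hx (ix_mem L x), h1]
  | succ r ih =>
    intro hr
    obtain ⟨k, σ, hk, hσ, x, h0, hi⟩ := ih (Nat.le_of_succ_le hr)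
    by_contra hn'
    obtain ⟨D, hD⟩ := exists_nat_gt (C * k * K)
    obtain ⟨m, hm⟩ := big (D ^ r) r k hr hk
    obtain ⟨t, t1, t2⟩ := hG _ ((D * (m + 1)) ^ r + 1) (le_of_eq_of_le (by
      rw [Nat.cast_add, Nat.cast_pow, Nat.cast_mul, mul_pow, Nat.cast_one]) hm)
    obtain ⟨N, hN⟩ : ∃ N, K * (k * (m + 1)) = k * (N + 1) :=
      ⟨K * (m + 1) - 1, by rw [Nat.sub_add_cancel (by positivity : 0 < K * (m + 1))]; ring⟩
    choose f f1 f2 using fun l => loc hk hσ h0 hi hn' (hN ▸ t1 l)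
    obtain ⟨a, a1, a2⟩ := sieg (Nat.lt_succ_self ((D * (m + 1)) ^ r)) f1
    have he := at_chart (n := d) x
    set e := chartAt (Cm d) x
    have hx := ix_mem L x
    have hu : AnalyticAt ℂ (fun z j => rat L σ j (e.symm z)) (e x) :=
      AnalyticAt.pi fun j => hi.1 j e he
    have h1 : Tendsto (fun z j => rat L σ j (e.symm z)) (𝓝 (e x)) (𝓝 fun j => rat L σ j x) := by
      simpa only [he.left_inv] using hu.continuousAt.tendsto
    have h2 := hu.differentiableAt.isBigO_sub.norm_norm.pow (D * (m + 1))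
    simp only [he.left_inv] at h2
    have h3 := (((a2.comp_tendsto h1).trans h2).mul
      ((((hσ 0).1 _ e x he hx).fun_pow (N + 1)).continuousAt.tendsto.isBigO_one ℝ)).bound
    have h4 := hC (K * (k * (m + 1))) (fun i y => ∑ l, a l * t l i y)
      ⟨fun i e y he hy => Finset.analyticAt_fun_sum _ fun l _ =>
        analyticAt_const.fun_mul ((t1 l).1 i e y he hy), fun i j y hi hj => by
          rw [Finset.mul_sum]
          exact Finset.sum_congr rfl fun l _ => by rw [(t1 l).2 i j y hi hj]; ring⟩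
      (by
        by_contra h
        exact a1 (t2 a fun i y hy => not_not.1 fun k => h ⟨i, y, hy, k⟩))
      (D * (m + 1)) _ e x he hx (h3.imp fun B hB => by
        filter_upwards [hB, at_ev he (eventually_all.2 f2)] with z k1 k2
        simp only [Function.comp, mul_one, norm_pow, norm_norm, Finset.sum_mul] at k1
        simpa only [k2, mul_assoc] using k1)
    push_cast at h4
    have h5 : (0 : ℝ) < m + 1 := by positivity
    nlinarith

end Vale.Agent.P301Z.Sa
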