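import Vale.Agent.P301Z.Sa.Defs

/-!
# P301Z, block ABUN: rows RAT and FIN
-/

open scoped Manifold ContDiff Topology
open Set Filter
open Vale.Agent.P272.K Vale.Agent.P301.H599 Vale.Agent.P301.H99
open Vale.Agent.P277Z (Hol Mer)
open Vale.Agent.P281Z

namespace Vale.Agent.P301Z.Sa

section

variable {d : ℕ} {X : Type} [TopologicalSpace X] [ChartedSpace (Cm d) X] {ι : Type}
  {L : LineBundle d X ι} {k : ℕ} {f : ι → X → ℂ} {i : ι} {x : X}

theorem sec_hol (h : Sec L k f) (hx : x ∈ L.U i) : Hol d (f i) x := fun e he => h.1 i e x he hx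

theorem mem_Zr (h : Sec L k f) (hx : x ∈ L.U i) : x ∈ Zr L f ↔ f i x = 0 := by
  rw [h.2 i _ x hx (ix_mem L x), mul_eq_zero,
    or_iff_right (pow_ne_zero _ (L.ne_zero _ _ _ hx (ix_mem L x)))]
  rfl

theorem rat_eq {n : ℕ} {σ : Fin (n + 1) → ι → X → ℂ} (h : ∀ j, Sec L k (σ j)) (hx : x ∈ L.U i)
    (j : Fin n) : rat L σ j x = σ j.succ i x / σ 0 i x := by
  rw [(h _).2 i _ x hx (ix_mem L x), (h 0).2 i _ x hx (ix_mem L x),
    mul_div_mul_left _ _ (pow_ne_zero _ (L.ne_zero _ _ _ hx (ix_mem L x)))]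
  rfl

theorem sec_pow (h : Sec L k f) (m : ℕ) : Sec L (k * m) fun i x => f i x ^ m :=
  ⟨fun i e x he hx => (h.1 i e x he hx).pow m, fun i j x hi hj => by
    simp only [h.2 i j x hi hj, mul_pow, pow_mul]⟩

theorem an_Zr (h : Sec L k f) : An d (Zr L f) := fun x =>
  ⟨1, fun _ => f (ix L x), fun _ => sec_hol h (ix_mem L x), by
    filter_upwards [(L.isOpen _).mem_nhds (ix_mem L x)] with y hy
    rw [mem_Zr h hy]
    simp⟩

end

theorem rat_ok : RAT := by
  intro d n X _ ι L k σ S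
  have t : Thin d (Zr L (σ 0)) := (an_Zr (S.sec 0)).thin fun c => by
    obtain ⟨x, hx, -⟩ := S.ind
    exact hx (c ▸ mem_univ x)
  refine ⟨t, fun j x => ?_, fun j x hx => ?_⟩
  · have m := (L.isOpen _).mem_nhds (ix_mem L x)
    refine ⟨σ j.succ (ix L x), σ 0 (ix L x), sec_hol (S.sec _) (ix_mem L x),
      sec_hol (S.sec _) (ix_mem L x), fun c => ?_, ?_⟩
    · obtain ⟨y, h1, h2, h3⟩ := ((t.freq x).and_eventually (c.and m)).exists
      exact h1 ((mem_Zr (S.sec 0) h3).2 h2)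
    · filter_upwards [t.gen x, P277Z.gen_of_nhds m] with y h1 h2
      rw [rat_eq S.sec h2, div_mul_cancel₀ _ fun c => h1 ((mem_Zr (S.sec 0) h2).2 c)]
  · have h : Hol d (fun y => σ j.succ (ix L x) y / σ 0 (ix L x) y) x := fun e he =>
      (sec_hol (S.sec _) (ix_mem L x) e he).div (sec_hol (S.sec _) (ix_mem L x) e he) (by
        rw [e.left_inv he.2]
        exact hx)
    refine h.congr ?_
    filter_upwards [(L.isOpen _).mem_nhds (ix_mem L x)] with y hy
    exact (rat_eq S.sec hy j).symm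

theorem fin : FIN := by
  intro d X ι L h
  choose m hm f hf i hi h0 using h
  have o : ∀ x, (Zr L (f x))ᶜ ∈ 𝓝 x := fun x =>
    (an_Zr (hf x)).closed.isOpen_compl.mem_nhds fun c => h0 x ((mem_Zr (hf x) (hi x)).1 c)
  obtain ⟨t, ht⟩ := CompactSpace.elim_nhds_subcover _ o
  refine ⟨∏ x ∈ t, m x, Finset.prod_pos fun x _ => hm x, fun y => ?_⟩
  obtain ⟨x, hx, hy⟩ := mem_iUnion₂.1 (ht.ge (mem_univ y))
  obtain ⟨c, hc⟩ := Finset.dvd_prod_of_mem m hx
  exact ⟨_, hc ▸ sec_pow (hf x) c, ix L y, ix_mem L y, pow_ne_zero _ hy⟩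

end Vale.Agent.P301Z.Sa
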