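import Vale.Agent.P301Z.Sa.Defs
import Vale.Agent.P281Z.Sc.L2

/-!
# P301Z, block ABUN: a uniform denominator
-/

open scoped Topology ENNReal Matrix
open Set Filter Metric MeasureTheory
open Vale.Agent.P272.K
open Vale.Agent.P281Z

noncomputable section

namespace Vale.Agent.P301Z.Sa

namespace Unf

variable {D m : ℕ}

theorem spread {f : Cm D → ℂ} {z₀ z₁ z : Cm D} {r : ℝ} (hf : ∀ z ∈ ball z₀ r, AnalyticAt ℂ f z)
    (h1 : z₁ ∈ ball z₀ r) (h : f z₁ ≠ 0) (hz : z ∈ ball z₀ r) : ∃ᶠ w in 𝓝 z, f w ≠ 0 :=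
  fun k => h (AnalyticOnNhd.eqOn_zero_of_preconnected_of_eventuallyEq_zero hf
    (convex_ball _ _).isPreconnected hz (k.mono fun _ => not_not.1) h1)

theorem fr_mul {f g : Cm D → ℂ} {z₀ : Cm D} (hf : AnalyticAt ℂ f z₀) (hg : AnalyticAt ℂ g z₀)
    (h1 : ∃ᶠ z in 𝓝 z₀, f z ≠ 0) (h2 : ∃ᶠ z in 𝓝 z₀, g z ≠ 0) :
    ∃ᶠ z in 𝓝 z₀, f z * g z ≠ 0 := by
  obtain ⟨r, hr, hb⟩ := Metric.eventually_nhds_iff_ball.1
    (hf.eventually_analyticAt.and hg.eventually_analyticAt)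
  obtain ⟨z₁, k1, k2⟩ := (h1.and_eventually (ball_mem_nhds z₀ hr)).exists
  obtain ⟨z₂, k3, k4⟩ := (h2.and_eventually (ball_mem_nhds z₀ hr)).exists
  obtain ⟨z₃, k5, k6, k7⟩ := ((spread (fun z hz => (hb z hz).1) k2 k1 k4).and_eventually
    (((hb _ k4).2.continuousAt.eventually_ne k3).and (isOpen_ball.mem_nhds k4))).exists
  exact spread (f := fun z => f z * g z) (fun z hz => (hb z hz).1.mul (hb z hz).2) k7
    (mul_ne_zero k5 k6) (mem_ball_self hr)

theorem det_an {Φ : Cm D → Cm D} {z : Cm D} (h : AnalyticAt ℂ Φ z) :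
    AnalyticAt ℂ (fun w => (fderiv ℂ Φ w).det) z := by
  have h1 : ∀ A : Cm D →L[ℂ] Cm D, A.det = (Matrix.of fun i j => A (Pi.single j 1) i).det :=
    fun A => (LinearMap.det_toMatrix' (A : Cm D →ₗ[ℂ] Cm D)).symm.trans (congrArg Matrix.det
      (Matrix.ext fun i j => by simp [LinearMap.toMatrix'_apply]))
  simp only [h1, Matrix.det_apply', Matrix.of_apply]
  exact Finset.analyticAt_fun_sum _ fun σ _ => analyticAt_const.mul
    (Finset.analyticAt_fun_prod _ fun k _ => analyticAt_pi_iff.1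
      (((ContinuousLinearMap.apply ℂ (Cm D) (Pi.single k 1 : Cm D)).analyticAt _).comp h.fderiv) _)

theorem det_rs (A : Cm D →L[ℂ] Cm D) :
    |(A.restrictScalars ℝ : Cm D →L[ℝ] Cm D).det| = ‖A.det‖ ^ 2 := by
  rw [show (A.restrictScalars ℝ : Cm D →L[ℝ] Cm D).det =
      LinearMap.det ((A : Cm D →ₗ[ℂ] Cm D).restrictScalars ℝ) from rfl,
    LinearMap.det_restrictScalars, Algebra.norm_complex_apply, Complex.normSq_eq_norm_sq,
    abs_of_nonneg (sq_nonneg _)]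

/-- the bound for the inverse -/
theorem adj (A₀ : Cm D →L[ℂ] Cm D) :
    ∃ C : ℝ, 0 ≤ C ∧ ∀ᶠ A in 𝓝 A₀, ∀ v, ‖A.det‖ * ‖v‖ ≤ C * ‖A v‖ := by
  let T : Matrix (Fin D) (Fin D) ℂ →ₗ[ℂ] (Cm D →L[ℂ] Cm D) :=
    (Matrix.toLin' ≪≫ₗ LinearMap.toContinuousLinearMap).toLinearMap
  have h1 : Continuous fun A : Cm D →L[ℂ] Cm D =>
      T (LinearMap.toMatrix' (A : Cm D →ₗ[ℂ] Cm D)).adjugate :=
    T.continuous_of_finiteDimensional.comp (Continuous.matrix_adjugate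
      (continuous_matrix fun i j => by
        simp only [LinearMap.toMatrix'_apply, ContinuousLinearMap.coe_coe]
        fun_prop))
  refine ⟨‖T (LinearMap.toMatrix' (A₀ : Cm D →ₗ[ℂ] Cm D)).adjugate‖ + 1, by positivity,
    ((h1.norm.tendsto A₀).eventually (gt_mem_nhds (lt_add_one _))).mono fun A hA v => ?_⟩
  have h2 : T (LinearMap.toMatrix' (A : Cm D →ₗ[ℂ] Cm D)).adjugate (A v) = A.det • v := by
    refine Eq.trans (b := (LinearMap.toMatrix' (A : Cm D →ₗ[ℂ] Cm D)).adjugate *ᵥ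
      (LinearMap.toMatrix' (A : Cm D →ₗ[ℂ] Cm D) *ᵥ v)) ?_ ?_
    · rw [LinearMap.toMatrix'_mulVec]
      rfl
    · rw [Matrix.mulVec_mulVec, Matrix.adjugate_mul, Matrix.smul_mulVec, Matrix.one_mulVec,
        LinearMap.det_toMatrix']
  rw [← norm_smul, ← h2]
  exact (ContinuousLinearMap.le_opNorm _ _).trans
    (mul_le_mul_of_nonneg_right hA.le (norm_nonneg _))

theorem lip {F : Type} [NormedAddCommGroup F] [NormedSpace ℂ F] [CompleteSpace F] {f : Cm D → F}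
    {z₀ : Cm D} (h : AnalyticAt ℂ f z₀) : ∃ L : ℝ, 1 ≤ L ∧ ∃ t ∈ 𝓝 z₀, ∀ x ∈ t, ‖f x‖ ≤ L ∧
      ∀ y ∈ t, ‖f x - f y‖ ≤ L * ‖x - y‖ := by
  obtain ⟨K, t, ht, hK⟩ := (h.contDiffAt (n := 1)).exists_lipschitzOnWith
  refine ⟨‖f z₀‖ + 1 + K, by linarith [norm_nonneg (f z₀), K.coe_nonneg], _,
    inter_mem ht (h.continuousAt.norm.eventually (gt_mem_nhds (lt_add_one _))),
    fun x hx => ⟨hx.2.le.trans (le_add_of_nonneg_right K.coe_nonneg), fun y hy => ?_⟩⟩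
  exact (hK.norm_sub_le hx.1 hy.1).trans (mul_le_mul_of_nonneg_right
    (le_add_of_nonneg_left (by positivity)) (norm_nonneg _))

/-- pull back by a linear surjection -/
theorem loc_int (A : Cm D →L[ℂ] Cm m) (s : Cm m →L[ℂ] Cm D) (h : Function.RightInverse s A)
    {u : Cm m → ℝ} {x : Cm D} (hu : IntegrableAtFilter u (𝓝 (A x)) volume) :
    ∃ W ∈ 𝓝 x, ∫⁻ y in W, ‖u (A y)‖ₑ < ⊤ := by
  obtain ⟨U, hU, hu⟩ := hu
  let e := ContinuousLinearEquiv.equivOfRightInverse A s h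
  have : ProperSpace A.ker := FiniteDimensional.proper ℂ _
  obtain ⟨ν, _⟩ : ∃ ν : Measure A.ker, ν.IsAddHaarMeasure := ⟨Measure.addHaar, inferInstance⟩
  have : IsFiniteMeasure (ν.restrict (ball (e x).2 1)) :=
    isFiniteMeasure_restrict.2 measure_ball_lt_top.ne
  have h1 : Integrable (fun y : Cm m × A.ker => u y.1)
      ((volume.restrict U).prod (ν.restrict (ball (e x).2 1))) := Integrable.comp_fst hu _
  rw [Measure.prod_restrict] at h1
  have := Measure.prod.instIsAddHaarMeasure (volume : Measure (Cm m)) ν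
  have : (((volume : Measure (Cm m)).prod ν).map e.symm).IsAddHaarMeasure :=
    e.symm.isAddHaarMeasure_map _
  have h3 : MeasurableEmbedding e.symm := e.symm.toHomeomorph.measurableEmbedding
  refine ⟨e ⁻¹' (U ×ˢ ball (e x).2 1), e.continuous.continuousAt.preimage_mem_nhds
    (prod_mem_nhds hU (ball_mem_nhds _ one_pos)), ?_⟩
  rw [Measure.isAddLeftInvariant_eq_smul (volume : Measure (Cm D))
    (((volume : Measure (Cm m)).prod ν).map e.symm), Measure.restrict_smul, lintegral_smul_measure,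
    h3.restrict_map, h3.lintegral_map, preimage_preimage]
  refine ENNReal.mul_lt_top ENNReal.coe_lt_top ?_
  simp only [show ∀ y, A (e.symm y) = y.1 from fun y => congrArg Prod.fst (e.apply_symm_apply y),
    ContinuousLinearEquiv.apply_symm_apply, preimage_id']
  exact h1.2

/-- the mean value inequality and the change of variables -/
theorem est {Φ : Cm D → Cm D} {f : Cm D → ℂ} {u : Cm D → ℝ≥0∞} {z : Cm D} {ρ j : ℝ}
    {W : Set (Cm D)} (h0 : 0 ≤ j) (hi : InjOn Φ (ball z ρ))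
    (h : ∀ w ∈ ball z ρ, DifferentiableAt ℂ Φ w ∧ Φ w ∈ W ∧ j ≤ ‖(fderiv ℂ Φ w).det‖ ∧
      AnalyticAt ℂ f w ∧ ∀ᶠ w' in 𝓝 w ⊓ ae volume, ‖f w'‖ₑ ≤ u (Φ w')) :
    ENNReal.ofReal (j ^ 2) * (‖f z‖ₑ * volume (ball z ρ)) ≤ ∫⁻ y in W, u y := by
  have h1 := Sc.mean (f := f) (q := z) isOpen_ball (P := ball z ρ) (fun w hw t ht => by
    rw [mem_ball_iff_norm] at hw ⊢
    rw [add_sub_cancel_left, norm_smul]
    exact (mul_le_of_le_one_left (norm_nonneg _) ht).trans_lt hw)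
    (fun w hw => (h w hw).2.2.2.1) one_pos
  simp only [ENNReal.rpow_one] at h1
  have h2 : ∀ᵐ w, w ∈ ball z ρ → ‖f w‖ₑ ≤ u (Φ w) := by
    refine measure_null_of_locally_null _ fun w hw => ?_
    obtain ⟨s, hs, t, ht, k⟩ := eventually_inf.1 (h w (Classical.not_imp.1 hw).1).2.2.2.2
    exact ⟨_, inter_mem_nhdsWithin _ hs, measure_mono_null (fun y hy hy' =>
      (Classical.not_imp.1 hy.1).2 (k y ⟨hy.2, hy'⟩)) (mem_ae_iff.1 ht)⟩
  refine (mul_le_mul_right h1 _).trans (le_trans ?_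
    (lintegral_mono_set (image_subset_iff.2 fun w hw => (h w hw).2.1)))
  rw [lintegral_image_eq_lintegral_abs_det_fderiv_mul volume measurableSet_ball (fun w hw =>
    ((h w hw).1.hasFDerivAt.restrictScalars ℝ).hasFDerivWithinAt) hi,
    ← lintegral_const_mul' _ _ ENNReal.ofReal_ne_top]
  refine setLIntegral_mono_ae' measurableSet_ball (h2.mono fun w k hw => mul_le_mul'
    (ENNReal.ofReal_le_ofReal ?_) (k hw))
  rw [det_rs]
  exact pow_le_pow_left₀ h0 (h w hw).2.2.1 2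

/-- the balls on which `Φ` is injective -/
theorem core {Φ : Cm D → Cm D} {h : Cm D → ℂ} {z₀ : Cm D} (hΦ : AnalyticAt ℂ Φ z₀)
    (hh : AnalyticAt ℂ h z₀) {t : Set (Cm D)} (ht : t ∈ 𝓝 z₀) :
    ∃ ε : ℝ, 0 < ε ∧ ∀ᶠ z in 𝓝 z₀, (fderiv ℂ Φ z).det * h z ≠ 0 →
      InjOn Φ (ball z (ε * ‖(fderiv ℂ Φ z).det * h z‖)) ∧
      ∀ w ∈ ball z (ε * ‖(fderiv ℂ Φ z).det * h z‖), w ∈ t ∧ h w ≠ 0 ∧
        ε * ‖(fderiv ℂ Φ z).det * h z‖ ≤ ‖(fderiv ℂ Φ w).det‖ := by
  obtain ⟨C, hC, h1⟩ := adj (fderiv ℂ Φ z₀)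
  obtain ⟨L, hL, s, hs, h2⟩ := lip (((det_an hΦ).fun_mul hh).prod (hh.prod hΦ.fderiv))
  obtain ⟨R, hR, h3⟩ := Metric.eventually_nhds_iff_ball.1 ((hΦ.fderiv.continuousAt.eventually
    h1).and (hΦ.eventually_analyticAt.and (inter_mem hs ht)))
  obtain ⟨ε, h4, h5⟩ := exists_pos_mul_lt (lt_min (half_pos hR) one_half_pos) (L * L * (C + 1))
  obtain ⟨h5, h6⟩ := lt_min_iff.1 h5
  have h7 : L * ε ≤ L * L * (C + 1) * ε := mul_le_mul_of_nonneg_right (by nlinarith) h4.le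
  refine ⟨ε, h4, mem_of_superset (ball_mem_nhds z₀ (half_pos hR)) fun z hz h0 => ?_⟩
  set G := fun w => (fderiv ℂ Φ w).det * h w with hG
  have k0 : z ∈ ball z₀ R := ball_subset_ball (half_le_self hR.le) hz
  have k1 : ∀ w ∈ ball z₀ R, ‖G w‖ ≤ L ∧ ‖G w‖ ≤ ‖(fderiv ℂ Φ w).det‖ * L := fun w hw =>
    have k := (h2 w (h3 w hw).2.2.1).1
    ⟨(norm_fst_le _).trans k, (norm_mul _ _).trans_le (mul_le_mul_of_nonneg_left
      (((norm_fst_le _).trans (norm_snd_le _)).trans k) (norm_nonneg _))⟩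
  have k2 : ∀ w ∈ ball z (ε * ‖G z‖), w ∈ ball z₀ R := fun w hw => by
    rw [mem_ball] at hw hz ⊢
    nlinarith [dist_triangle w z z₀, (k1 z k0).1]
  have k3 : ∀ w ∈ ball z (ε * ‖G z‖), ‖G w - G z‖ ≤ L * (ε * ‖G z‖) ∧
      ‖fderiv ℂ Φ w - fderiv ℂ Φ z‖ ≤ L * (ε * ‖G z‖) := fun w hw =>
    have k := ((h2 w (h3 w (k2 w hw)).2.2.1).2 z (h3 z k0).2.2.1).trans
      (mul_le_mul_of_nonneg_left (mem_ball_iff_norm.1 hw).le (zero_le_one.trans hL))
    ⟨(norm_fst_le _).trans k, ((norm_snd_le _).trans (norm_snd_le _)).trans k⟩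
  have k4 : 0 < ‖G z‖ := norm_pos_iff.2 h0
  refine ⟨fun x hx y hy k => ?_, fun w hw => ?_⟩
  · have k5 := (convex_ball z _).norm_image_sub_le_of_norm_fderiv_le'
      (fun w hw => (h3 w (k2 w hw)).2.1.differentiableAt) (fun w hw => (k3 w hw).2) hx hy
    rw [k, sub_self, zero_sub, norm_neg] at k5
    have k6 := ((h3 z k0).1 (y - x)).trans (mul_le_mul_of_nonneg_left k5 hC)
    by_contra k7
    have k8 : 0 < ‖y - x‖ := norm_pos_iff.2 (sub_ne_zero.2 (Ne.symm k7))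
    rw [← mul_assoc, mul_le_mul_iff_left₀ k8] at k6
    have k9 := (k1 z k0).2.trans (mul_le_mul_of_nonneg_right k6 (zero_le_one.trans hL))
    nlinarith [mul_pos h4 k4]
  · have k5 : ‖G z‖ / 2 ≤ ‖G w‖ := by
      nlinarith [norm_sub_norm_le (G z) (G w), norm_sub_rev (G z) (G w), (k3 w hw).1]
    refine ⟨(h3 w (k2 w hw)).2.2.2, right_ne_zero_of_mul (a := (fderiv ℂ Φ w).det)
      (norm_pos_iff.1 ((half_pos k4).trans_le k5)), le_of_mul_le_mul_right ?_ (one_pos.trans_le hL)⟩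
    refine le_trans ?_ (k5.trans (k1 w (k2 w hw)).2)
    nlinarith

end Unf

open Unf

theorem un : UN := by
  intro D m q a b g H z₀ hq ha hb hg h1 h2 h3 hH hI h4
  obtain ⟨r, hr, h5⟩ := Metric.eventually_nhds_iff_ball.1 hq.eventually_analyticAt
  obtain ⟨z₁, h6, h7⟩ := (h1.and_eventually (ball_mem_nhds z₀ hr)).exists
  obtain ⟨s, hs⟩ := (fderiv ℂ q z₁).exists_rightInverse_of_surjective
    (LinearMap.range_eq_top.2 h6)
  set A := fderiv ℂ q z₁ with hA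
  have hs' : Function.RightInverse s A := fun y => congr($hs y)
  let Φ : Cm D → Cm D := fun z => z + s (q z - A z)
  have hΦ : ∀ z ∈ ball z₀ r, AnalyticAt ℂ Φ z := fun z hz =>
    analyticAt_id.add ((s.analyticAt _).comp ((h5 z hz).sub (A.analyticAt z)))
  have h8 : ∀ z, A (Φ z) = q z := fun z => by rw [map_add, hs', add_sub_cancel]
  have h9 : (fderiv ℂ Φ z₁).det ≠ 0 := by
    have k : HasFDerivAt Φ _ z₁ := (hasFDerivAt_id z₁).add (s.hasFDerivAt.comp z₁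
      ((h5 z₁ h7).differentiableAt.hasFDerivAt.sub A.hasFDerivAt))
    rw [k.fderiv, ← hA, sub_self, ContinuousLinearMap.comp_zero, add_zero]
    simp [ContinuousLinearMap.det]
  have h0 := hΦ z₀ (mem_ball_self hr)
  have h10 := fr_mul (det_an h0) (hg.fun_mul hb)
    (spread (fun z hz => det_an (hΦ z hz)) h7 h9 (mem_ball_self hr)) (fr_mul hg hb h3 h2)
  refine ⟨fun z => ((fderiv ℂ Φ z).det * (g z * b z)) ^ (Module.finrank ℝ (Cm D) + 2),
    ((det_an h0).fun_mul (hg.fun_mul hb)).fun_pow _, h10.mono fun z k => pow_ne_zero _ k,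
    fun N => ?_⟩
  obtain ⟨W, hW, h11⟩ := loc_int A s hs' (x := Φ z₀) ((h8 z₀).symm ▸ hI N)
  obtain ⟨ε, hε, h12⟩ := core h0 (hg.fun_mul hb) ((h0.continuousAt.eventually_mem hW).and
    (h0.eventually_analyticAt.and (ha.eventually_analyticAt.and (hb.eventually_analyticAt.and h4))))
  have hV : 0 < (volume (ball (0 : Cm D) 1)).toReal :=
    ENNReal.toReal_pos (measure_ball_pos volume _ one_pos).ne' measure_ball_lt_top.ne
  refine ⟨(∫⁻ y in W, ‖H (A y) ^ N‖ₑ).toReal / (ε ^ (Module.finrank ℝ (Cm D) + 2) *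
    (volume (ball (0 : Cm D) 1)).toReal), h12.mono fun z k => ?_⟩
  beta_reduce
  by_cases c : (fderiv ℂ Φ z).det * (g z * b z) = 0
  · rw [c, zero_pow (Nat.succ_ne_zero _), norm_zero, mul_zero]
    positivity
  obtain ⟨k1, k2⟩ := k c
  have k3 := mul_pos hε (norm_pos_iff.2 c)
  have k4 := est (f := fun w => (a w / b w) ^ N) (u := fun y => ‖H (A y) ^ N‖ₑ) (W := W) k3.le k1
    fun w hw => by
      obtain ⟨⟨m1, m2, m3, m4, m5⟩, m6, m7⟩ := k2 w hw
      refine ⟨m2.differentiableAt, m1, m7, (m3.fun_div m4 (right_ne_zero_of_mul m6)).fun_pow N, ?_⟩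
      filter_upwards [m5 (left_ne_zero_of_mul m6), mem_inf_of_left
        (m4.continuousAt.eventually_ne (right_ne_zero_of_mul m6))] with y m8 m9
      rw [h8, ← ofReal_norm, ← ofReal_norm, norm_pow, norm_pow, norm_div, Real.norm_of_nonneg (hH _)]
      exact ENNReal.ofReal_le_ofReal (pow_le_pow_left₀ (by positivity)
        ((div_le_iff₀ (norm_pos_iff.2 m9)).2 m8) N)
  have k5 := ENNReal.toReal_mono h11.ne k4
  rw [Measure.addHaar_ball_of_pos volume _ k3, ENNReal.toReal_mul, ENNReal.toReal_mul,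
    ENNReal.toReal_mul, ENNReal.toReal_ofReal (by positivity), ENNReal.toReal_ofReal (by positivity),
    toReal_enorm, norm_pow, norm_div, div_pow] at k5
  have k6 : 0 < ‖b z‖ ^ N :=
    pow_pos (norm_pos_iff.2 (right_ne_zero_of_mul (right_ne_zero_of_mul c))) N
  rw [← div_le_iff₀ k6, le_div_iff₀ (by positivity), norm_pow]
  refine le_trans (le_of_eq ?_) k5
  ring

end Vale.Agent.P301Z.Sa
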