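import Vale.Agent.P301Z.Sa.Defs

/-!
# P301Z, block ABUN: the unit
-/

open scoped Manifold ContDiff Topology Matrix
open Set Filter Metric MeasureTheory
open Vale.Agent.P272.K Vale.Agent.P301.H599 Vale.Agent.P301.H99
open Vale.Agent.P277Z (Hol Mer at_chart)
open Vale.Agent.P281Z

noncomputable section

namespace Vale.Agent.P301Z.Sa

namespace Unt

variable {d D : ℕ} {X : Mf d} {W : Mf D} {ι : Type} {L : LineBundle d X.X ι} {ρ : ι → X.X → ℝ}
  {E : X.X → ℝ} {k : ℕ} {f : ι → X.X → ℂ} {p q : W.X → X.X} {T : Set W.X}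

theorem hol_cont {a : W.X → ℂ} {z : W.X} (h : Hol D a z) : ContinuousAt a z := AnV.cont (n := D) h

theorem sec_hol (hf : Sec L k f) {i : ι} {x : X.X} (hx : x ∈ L.U i) : Hol d (f i) x :=
  fun e he => hf.1 i e x he hx

theorem g_hol {i j : ι} {x : X.X} (hx : x ∈ L.U i) (hx' : x ∈ L.U j) : Hol d (L.g i j) x :=
  fun e he => L.holo i j e x he hx hx'

theorem ne_of (hf : Sec L k f) {i : ι} {x : X.X} (hx : x ∈ L.U i) (h : x ∉ Zr L f) : f i x ≠ 0 :=
  fun c => h (by rw [Zr, mem_ofPred, hf.2 _ i x (ix_mem L x) hx, c, mul_zero])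

theorem wt_eq (hρ : IsMetric L ρ) (hf : Sec L k f) {i : ι} {x : X.X} (hx : x ∈ L.U i)
    (h : x ∉ Zr L f) : wt L ρ E k f x = k * (ρ i x + E x) - 2 * Real.log ‖f i x‖ := by
  have h1 := L.ne_zero _ i x (ix_mem L x) hx
  rw [wt, hρ.change _ i x (ix_mem L x) hx, hf.2 _ i x (ix_mem L x) hx, norm_mul, norm_pow,
    Real.log_pow, Real.log_pow, Real.log_mul (pow_ne_zero _ (norm_ne_zero_iff.2 h1))
      (norm_ne_zero_iff.2 (ne_of hf hx h)), Real.log_pow]
  push_cast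
  ring

theorem rho_cont (hρ : IsMetric L ρ) {i : ι} {x : X.X} (hx : x ∈ L.U i) :
    ContinuousAt (ρ i) x := by
  have he := at_chart (n := d) x
  have h1 := (hρ.smooth i _ x he hx).continuousAt.comp ((chartAt (Cm d) x).continuousAt he.2)
  refine h1.congr ?_
  filter_upwards [(chartAt (Cm d) x).open_source.mem_nhds he.2] with y hy
  simp only [Function.comp, (chartAt (Cm d) x).left_inv hy]

theorem freq_chart {e : Chart D W.X} {z : W.X} (he : At e z) {P : W.X → Prop}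
    (h : ∃ᶠ y in 𝓝 z, P y) : ∃ᶠ v in 𝓝 (e z), P (e.symm v) := by
  rw [← e.symm_map_nhds_eq he.2] at h
  exact h

theorem ev_chart {e : Chart D W.X} {z : W.X} (he : At e z) {P : W.X → Prop}
    (h : ∀ᶠ v in 𝓝 (e z), P (e.symm v)) : ∀ᶠ y in 𝓝 z, P y := by
  rw [← e.symm_map_nhds_eq he.2]
  exact h

theorem one (h0 : NUL) (h1 : UN) (h2 : DIVL) (hρ : IsMetric L ρ) (hE : Env d E) (hk : 0 < k)
    (hf : Sec L k f) (hp : HolM D d p) (hq : HolM D d q) (hT : Thin D T)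
    (hs : ∀ z ∉ T, Sbm D d q z) (hz : ∀ z ∉ T, p z ∉ Zr L f ∧ q z ∉ Zr L f)
    (hw : ∀ z ∉ T, ∀ᶠ z' in aeAt D z, wt L ρ E k f (p z') = wt L ρ E k f (q z'))
    {z₀ : W.X} {i j : ι} (hi : p z₀ ∈ L.U i) (hj : q z₀ ∈ L.U j) :
    ∃ h, Hol D h z₀ ∧ ∀ᶠ z in 𝓝 z₀, f i (p z) = h z * f j (q z) := by
  have he := at_chart (n := D) z₀
  have hc := at_chart (n := d) (q z₀)
  set e := chartAt (Cm D) z₀
  set c := chartAt (Cm d) (q z₀) with hcd
  obtain ⟨g, g1, g2, g3⟩ := hT.nz z₀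
  have ha := hp.hol (sec_hol hf hi)
  have hb := hq.hol (sec_hol hf hj)
  set M := ρ i (p z₀) - ρ j (q z₀) + 1
  have k1 : ∀ᶠ z in 𝓝 z₀, ρ i (p z) - ρ j (q z) < M :=
    (((rho_cont hρ hi).comp hp.cont.continuousAt).sub
      ((rho_cont hρ hj).comp hq.cont.continuousAt)).eventually (gt_mem_nhds (lt_add_one _))
  have k2 : ∀ᶠ z in 𝓝 z₀, p z ∈ L.U i := hp.cont.continuousAt.eventually ((L.isOpen i).mem_nhds hi)
  have k3 : ∀ᶠ z in 𝓝 z₀, q z ∈ L.U j := hq.cont.continuousAt.eventually ((L.isOpen j).mem_nhds hj)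
  have k4 : ∀ᶠ z in 𝓝 z₀, At c (q z) := hq.cont.continuousAt.eventually (at_near hc)
  have k5 : ∃ᶠ v in 𝓝 (e z₀), f j (q (e.symm v)) ≠ 0 :=
    freq_chart he (P := fun z => f j (q z) ≠ 0)
      (((hT.freq z₀).and_eventually k3).mono fun z l => ne_of hf l.2 (hz z l.1).2)
  have k6 : ∀ᶠ v in 𝓝 (e z₀), v ∈ e.target := e.open_target.mem_nhds (e.map_source he.2)
  refine (h1 D d (fun v => c (q (e.symm v))) (fun v => f i (p (e.symm v)))
    (fun v => f j (q (e.symm v))) (fun v => g (e.symm v))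
    (fun y => Real.exp (k / 2 * M) * Real.exp (-(k / 2 * E (c.symm y)))) (e z₀)
    ((hq.at z₀).an he hc) (ha e he) (hb e he) (g1 e he) ?_ k5
    (freq_chart he (P := fun z => g z ≠ 0) (not_eventually.1 g2)) (fun y => by positivity)
    (fun N => ?_) ?_).elim fun G ⟨G1, G2, G3⟩ => ?_
  rotate_right
  · obtain ⟨h, l1, l2⟩ := h2 D _ _ G _ (ha e he) (hb e he) G1 k5 G2 G3
    refine ⟨fun z => h (e z), P277Z.Hol.of_chart he (l1.congr ?_), ev_chart he ?_⟩
    · filter_upwards [k6] with v hv using by rw [e.right_inv hv]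
    · filter_upwards [k6, l2] with v hv l using by rw [e.right_inv hv]; exact l
  · refine ((freq_chart he (P := fun z => Function.Surjective (df q e c z))
      (((hT.freq z₀).and_eventually ((at_near he).and k4)).mono
        fun z l => hs z l.1 e c l.2.1 l.2.2)).and_eventually k6).mono fun v l => ?_
    have := l.1
    rwa [df, e.right_inv l.2] at this
  · rw [e.left_inv he.2]
    rcases N.eq_zero_or_pos with rfl | hN
    · simpa using (continuous_const (y := (1 : ℝ))).locallyIntegrable (μ := volume) (c (q z₀))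
    · have := (hE.int (N * (k / 2)) (q z₀) (by positivity)).smul (Real.exp (k / 2 * M) ^ N)
      convert this using 2 with y
      simp only [Pi.smul_apply, smul_eq_mul, mul_pow, ← Real.exp_nat_mul, ← hcd]
      congr 2
      ring
  · filter_upwards [k6, at_ev he ((k1.and (k2.and (k3.and k4))).eventually_nhds.and
      (g3.and (at_near he)))] with v hv l hg
    have hv' : e.symm v ∉ T := fun a => hg (l.2.1 a)
    have l1 := (hw _ hv').and ((l.1.and (hT.closed.isOpen_compl.mem_nhds hv')).filter_mono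
      (h0.le D _ _))
    rw [h0.chart D _ e _ l.2.2, e.right_inv hv, eventually_map] at l1
    filter_upwards [l1] with v' ⟨m1, ⟨m2, m3, m4, m5⟩, m6⟩
    obtain ⟨m7, m8⟩ := hz _ m6
    rw [wt_eq hρ hf m3 m7, wt_eq hρ hf m4 m8] at m1
    rw [c.left_inv m5.2, ← Real.exp_log (norm_pos_iff.2 (ne_of hf m3 m7)),
      ← Real.exp_log (norm_pos_iff.2 (ne_of hf m4 m8)), ← Real.exp_add, ← Real.exp_add]
    refine Real.exp_le_exp.2 ?_
    have m9 : (0 : ℝ) ≤ k := Nat.cast_nonneg k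
    nlinarith [mul_nonneg m9 (sub_nonneg.2 m2.le),
      mul_nonneg m9 (neg_nonneg.2 (hE.nonpos (p (e.symm v'))))]

theorem eq_of (hT : Thin D T) {a b : W.X → ℂ} {z : W.X} (ha : ContinuousAt a z)
    (hb : ContinuousAt b z) (h : ∀ᶠ y in 𝓝 z, y ∉ T → a y = b y) : a z = b z :=
  tendsto_nhds_unique_of_frequently_eq ha hb
    (((hT.freq z).and_eventually h).mono fun _ l => l.2 l.1)

end Unt

open Unt

theorem unit_of (h0 : NUL) (h1 : UN) (h2 : DIVL) : UNIT := by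
  intro d n X u B G ι L ρ E k f hρ hE hk hf hB hw
  set T := {z | G.p z ∈ B ∨ G.q z ∈ B}
  have hT : Thin (d + n) T := G.thin
  have hz : ∀ z ∉ T, G.p z ∉ Zr L f ∧ G.q z ∉ Zr L f := fun z l =>
    ⟨fun a => l (Or.inl (hB a)), fun a => l (Or.inr (hB a))⟩
  have hw' : ∀ z ∉ T, ∀ᶠ z' in aeAt (d + n) z, wt L ρ E k f (G.p z') = wt L ρ E k f (G.q z') :=
    fun z l => hw z (fun a => l (Or.inl a)) fun a => l (Or.inr a)
  have ep : ∀ {z i}, G.p z ∈ L.U i → ∀ᶠ y in 𝓝 z, G.p y ∈ L.U i := fun hi =>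
    G.hp.cont.continuousAt.eventually ((L.isOpen _).mem_nhds hi)
  have eq : ∀ {z i}, G.q z ∈ L.U i → ∀ᶠ y in 𝓝 z, G.q y ∈ L.U i := fun hi =>
    G.hq.cont.continuousAt.eventually ((L.isOpen _).mem_nhds hi)
  have key : ∀ i j z, ∃ h : G.W.X → ℂ, G.p z ∈ L.U i → G.q z ∈ L.U j → Hol (d + n) h z ∧
      h z ≠ 0 ∧ ∀ᶠ y in 𝓝 z, f i (G.p y) = h y * f j (G.q y) := by
    intro i j z
    by_cases hij : G.p z ∈ L.U i ∧ G.q z ∈ L.U j
    swap
    · exact ⟨0, fun a b => (hij ⟨a, b⟩).elim⟩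
    obtain ⟨h, l1, l2⟩ := one h0 h1 h2 hρ hE hk hf G.hp G.hq hT
      (fun z l => G.sq z (fun a => l (Or.inl a)) fun a => l (Or.inr a)) hz hw' hij.1 hij.2
    obtain ⟨h', l3, l4⟩ := one h0 h1 h2 hρ hE hk hf G.hq G.hp hT
      (fun z l => G.sp z (fun a => l (Or.inl a)) fun a => l (Or.inr a)) (fun z l => (hz z l).symm)
      (fun z l => (hw' z l).mono fun _ a => a.symm) hij.2 hij.1
    refine ⟨h, fun _ _ => ⟨l1, left_ne_zero_of_mul_eq_one (b := h' z) ?_, l2⟩⟩
    refine eq_of hT (a := fun y => h y * h' y) (b := fun _ => 1)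
      ((hol_cont l1).mul (hol_cont l3)) continuousAt_const ?_
    filter_upwards [l2, l4, ep hij.1] with y m1 m2 m3 m4
    refine mul_right_cancel₀ (ne_of hf m3 (hz y m4).1) ?_
    rw [mul_assoc, ← m2, ← m1, one_mul]
  choose h hh using key
  have near : ∀ i j z, G.p z ∈ L.U i → G.q z ∈ L.U j → ∀ᶠ y in 𝓝 z, h i j z y = h i j y y := by
    intro i j z hi hj
    obtain ⟨l1, -, l2⟩ := hh i j z hi hj
    filter_upwards [l1.near, l2.eventually_nhds, ep hi, eq hj] with y m1 m2 m3 m4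
    obtain ⟨m5, -, m6⟩ := hh i j y m3 m4
    refine eq_of hT (hol_cont m1) (hol_cont m5) ?_
    filter_upwards [m2, m6, eq m4] with v n1 n2 n3 n4
    exact mul_right_cancel₀ (ne_of hf n3 (hz v n4).2) (n1.symm.trans n2)
  have hol : ∀ i j z, G.p z ∈ L.U i → G.q z ∈ L.U j → Hol (d + n) (fun y => h i j y y) z :=
    fun i j z hi hj => (hh i j z hi hj).1.congr (near i j z hi hj)
  have eqn : ∀ i j z, G.p z ∈ L.U i → G.q z ∈ L.U j → f i (G.p z) = h i j z z * f j (G.q z) :=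
    fun i j z hi hj => (hh i j z hi hj).2.2.self_of_nhds
  refine ⟨fun i j y => h i j y y, hol, fun i j z hi hj => (hh i j z hi hj).2.1, eqn,
    fun i i' j z hi hi' hj => ?_, fun i j j' z hi hj hj' => ?_⟩
  · refine eq_of hT (a := fun y => h i j y y) (b := fun y => L.g i i' (G.p y) ^ k * h i' j y y)
      (hol_cont (hol i j z hi hj))
      (((hol_cont (G.hp.hol (g_hol hi hi'))).pow k).mul (hol_cont (hol i' j z hi' hj))) ?_
    filter_upwards [ep hi, ep hi', eq hj] with y m1 m2 m3 m4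
    refine mul_right_cancel₀ (ne_of hf m3 (hz y m4).2) ?_
    rw [← eqn i j y m1 m3, mul_assoc, ← eqn i' j y m2 m3, hf.2 i i' _ m1 m2]
  · refine eq_of hT (a := fun y => h i j y y * L.g j j' (G.q y) ^ k) (b := fun y => h i j' y y)
      ((hol_cont (hol i j z hi hj)).mul ((hol_cont (G.hq.hol (g_hol hj hj'))).pow k))
      (hol_cont (hol i j' z hi hj')) ?_
    filter_upwards [ep hi, eq hj, eq hj'] with y m1 m2 m3 m4
    refine mul_right_cancel₀ (ne_of hf m3 (hz y m4).2) ?_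
    rw [← eqn i j' y m1 m3, mul_assoc, ← hf.2 j j' _ m2 m3, ← eqn i j y m1 m2]

end Vale.Agent.P301Z.Sa
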