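import Vale.Agent.P301Z.Sa.Top
import Vale.Agent.P301Z.Sa.Loc
import Vale.Agent.P301Z.Sec.All

/-!
# P301Z, block ABUN
-/

namespace Vale.Agent.P301Z.Sa

/-- abundance -/
theorem abun : P301Z.ABUN := abun_top loc Sec.hpt

end Vale.Agent.P301Z.Sa
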