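import Vale.Agent.P301Z.Sa.Defs
import Vale.Agent.P281Z.Lf.Defs
import Vale.Agent.P281Z.Mf.Fib
import Vale.Agent.P281Z.Mf.Mod

/-!
# P301Z, block ABUN: the model of the fibration, tubes
-/

open scoped Manifold ContDiff Topology
open Set Filter Metric
open Vale.Agent.P272.K
open Vale.Agent.P277Z (Hol at_chart)
open Vale.Agent.P277Z.Slc (Ind)
open Vale.Agent.P281Z
open Vale.Agent.P281Z.Lf (Fo)

noncomputable section

namespace Vale.Agent.P301Z.Sa.Geo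

variable {d n : ℕ} {X : Mf d} {u : Fin n → X.X → ℂ} {B₀ : Set X.X} (F : Fo X u B₀) (Q : Set F.Z.X)

/-- the bad set -/
def bad : Set X.X := F.B ∪ F.μ '' (F.γ ⁻¹' Q)

/-- generic smoothness off `Q` -/
structure Gd : Prop where
  dim : d = n + n
  thin : Thin n Q
  reg : ∀ t ∉ Q, RegAt d n F.γ F.G t
  hol : ∀ j, ∀ x ∉ B₀, Hol d (u j) x

variable {F Q} {y y' : F.W'.X} {t : F.Z.X}

theorem off_iff : y ∈ off F.G ↔ F.μ y ∉ F.B := ((F.bad y).not.trans not_exists).symm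

theorem bad_iff : F.μ y ∉ bad F Q ↔ y ∈ off F.G ∧ F.γ y ∉ Q :=
  ⟨fun h => ⟨off_iff.2 fun c => h (.inl c), fun c => h (.inr ⟨y, c, rfl⟩)⟩, fun h c =>
    c.elim (off_iff.1 h.1) fun ⟨_, a, b⟩ => h.2 (F.modif.inj (off_iff.1 h.1) b ▸ a)⟩

theorem Gd.dens (h : Gd F Q) (ht : t ∉ Q) : F.γ ⁻¹' {t} ⊆ closure (F.γ ⁻¹' {t} ∩ off F.G) := by
  obtain ⟨Y, i, hi, k⟩ := (h.reg t ht).fib h.dim F.hol F.snc
  intro y hy
  obtain ⟨w, rfl⟩ := hi.ex hy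
  exact map_mem_closure hi.hol.cont ((snc_thin_off k).2 w) fun w' c => ⟨hi.mem w', not_not.1 c⟩

theorem Gd.offc (h : Gd F Q) (ht : t ∉ Q) : IsConnected (F.γ ⁻¹' {t} ∩ off F.G) := by
  obtain ⟨y, hy⟩ := F.surj t
  obtain ⟨y', a, b⟩ := (closure_nonempty_iff.1 ⟨y, h.dens ht hy⟩)
  exact F.fib t ((show F.γ y' = t from a) ▸ F.pre y' b)

theorem Gd.conn (h : Gd F Q) (ht : t ∉ Q) : IsConnected (F.γ ⁻¹' {t}) :=
  (h.offc ht).subset_closure inter_subset_left (h.dens ht)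

theorem Gd.thinB (h : Gd F Q) (hR : REM) : Thin d (bad F Q) :=
  F.modif.thin.union (F.modif.img_thin hR (h.thin.pre F.hol
    ((snc_thin_off F.snc).2.mono fun y c => F.sbm y (not_not.1 c))))

theorem Gd.tube (h : Gd F Q) (s : Chart d X.X → Cm d → Matrix (Fin d) (Fin d) ℂ) {N : Set X.X}
    (hN : IsOpen N) (hu : ∀ y ∈ N, (∀ j, Hol d (u j) y) ∧ Com s u y) (hy : F.μ y ∉ bad F Q)
    (hs : ∀ y', F.γ y' = F.γ y → F.μ y' ∈ N) :
    ∃ (O : Set X.X) (b : Cm n) (r : ℝ), Tube s O (fun y j => u j y) b r ∧ F.μ y ∈ O ∧ O ⊆ N ∧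
      ∀ x ∈ O, ∀ x' ∈ O, (∀ j, u j x = u j x') →
        ∃ a a', F.γ a ∉ Q ∧ F.γ a' = F.γ a ∧ F.μ a = x ∧ F.μ a' = x' := by
  obtain ⟨y1, y2⟩ := bad_iff.1 hy
  have cμ := F.modif.hol.cont
  have cγ := F.hol.cont
  obtain ⟨g, g1, g2, g3⟩ := (F.sbm y y1).sec (F.hol.at y)
  have op : IsOpen (off F.G) := isClosed_compl_iff.1 (snc_thin_off F.snc).closed
  have a0 : ∀ᶠ t in 𝓝 (F.γ y), g t ∈ off F.G := g2.cont.eventually (g1.symm ▸ op.mem_nhds y1)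
  have a1 : ∀ᶠ t in 𝓝 (F.γ y), ∀ y' ∈ F.γ ⁻¹' {t}, F.μ y' ∈ N :=
    cγ.isClosedMap.eventually_nhds_fiber _ fun y' c =>
      cμ.continuousAt.eventually (hN.mem_nhds (hs y' c))
  have a2 : ∀ᶠ t in 𝓝 (F.γ y), ∀ y' ∈ F.γ ⁻¹' {t}, ∀ j, u j (F.μ (g t)) = u j (F.μ y') := by
    filter_upwards [a0, a1, g3, h.thin.closed.isOpen_compl.mem_nhds y2] with t c1 c2 c3 c4 y' c5 j
    refine tendsto_nhds_unique_of_frequently_eq tendsto_const_nhds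
      (((hu _ (c2 y' c5)).1 j).continuousAt'.comp cμ.continuousAt) ?_
    exact (mem_closure_iff_frequently.1 (h.dens c4 c5)).mono fun w c =>
      F.fac _ c1 _ c.2 (c3.trans c.1.symm) j
  have a3 : Ind n (fun j t => u j (F.μ (g t))) (F.γ y) := ind_of_comp (F.hol.at y)
    (fun j => ((F.modif.hol.at _).cmp g2).hol (g1.symm ▸ (hu _ (hs y rfl)).1 j))
    (ind_congr ((F.modif.sbm (off_iff.1 y1)).ind (F.modif.hol.at y) (F.ind y y1)) fun j =>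
      (cγ.continuousAt.eventually a2).mono fun w c => (c w rfl j).symm)
  obtain ⟨U, u1, u2, u3⟩ := eventually_nhds_iff.1 ((a1.and a2).and (a3.near.and
    (h.thin.closed.isOpen_compl.mem_nhds y2)))
  obtain ⟨Θ, -, t2, t3, t4⟩ := exists_co (d := 0) a3 (by simp) (u2.mem_nhds u3)
  have z0 : ∀ v : (Fin n → ℂ) × Cm 0, (v.1, 0) = v := fun v => Prod.ext rfl (Subsingleton.elim _ _)
  set b := (Θ (F.γ y)).1
  obtain ⟨r, r0, r1⟩ := Metric.isOpen_iff.1 (Θ.open_target.preimage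
    (continuous_id.prodMk continuous_const : Continuous fun c : Cm n => (c, (0 : Cm 0)))) b
    (show (b, 0) ∈ Θ.target from (z0 _).symm ▸ Θ.map_source t2)
  let τ : Cm n → F.Z.X := fun c => Θ.symm (c, 0)
  let P : Set F.Z.X := Θ.source ∩ Θ ⁻¹' (Prod.fst ⁻¹' ball b r)
  have p0 : IsOpen P := Θ.isOpen_inter_preimage (isOpen_ball.preimage continuous_fst)
  have p1 : ∀ w, F.γ w ∈ Θ.source → (Θ (F.γ w)).1 = fun j => u j (F.μ w) := fun w c =>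
    (t4 _ c).trans (funext ((u1 _ (t3 c)).1.2 w rfl))
  have p2 : ∀ w, F.γ w ∈ Θ.source → F.γ w = τ fun j => u j (F.μ w) := fun w c => by
    simp only [τ, ← p1 w c, z0, Θ.left_inv c]
  have p3 : ∀ c ∈ ball b r, τ c ∈ P ∧ (Θ (τ c)).1 = c := fun c k => by
    have e : Θ (τ c) = (c, 0) := Θ.right_inv (r1 k)
    exact ⟨⟨Θ.map_target (r1 k), by simpa only [mem_preimage, e] using k⟩, congrArg Prod.fst e⟩
  have p4 : ∀ K ⊆ ball b r, F.μ '' (F.γ ⁻¹' P) ∩ (fun y j => u j y) ⁻¹' K =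
      F.μ '' (F.γ ⁻¹' (τ '' K)) := fun K k => by
    refine subset_antisymm ?_ ?_
    · rintro _ ⟨⟨w, c, rfl⟩, c'⟩
      exact ⟨w, ⟨_, c', (p2 w c.1).symm⟩, rfl⟩
    · rintro _ ⟨w, ⟨c, c1, c2⟩, rfl⟩
      have e := p3 c (k c1)
      rw [c2] at e
      exact ⟨⟨w, e.1, rfl⟩, show (fun j => u j (F.μ w)) ∈ K from p1 w e.1.1 ▸ e.2.symm ▸ c1⟩
  have p5 : ∀ w w', F.γ w ∈ P → F.γ w' ∈ P → (∀ j, u j (F.μ w) = u j (F.μ w')) →
      F.γ w' = F.γ w := fun w w' c c' e => by rw [p2 w c.1, p2 w' c'.1, funext e]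
  have sat : ∀ w w', F.γ w ∈ P → F.μ w' = F.μ w → F.γ w' ∈ P := fun w w' c e => by
    by_contra k
    obtain ⟨v, v1, v2, v3⟩ := (F.modif.conn_all (F.μ w)).2 _ (F.γ ⁻¹' {F.γ w}ᶜ) (p0.preimage cγ)
      (isOpen_compl_singleton.preimage cγ) (fun v _ => (em (F.γ v = F.γ w)).imp
        (fun a : F.γ v = F.γ w => show F.γ v ∈ P from a ▸ c) id) ⟨w, rfl, c⟩
      ⟨w', e, fun a => k ((show F.γ w' = F.γ w from a) ▸ c)⟩
    exact v3 (p5 w v c v2 fun j => congrArg (u j) (Eq.symm v1))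
  have inU := fun w (c : F.γ w ∈ P) => u1 _ (t3 c.1)
  refine ⟨F.μ '' (F.γ ⁻¹' P), b, r, ⟨?_, r0, ?_, ?_, fun K k1 k2 => ?_, fun c k => ?_, ?_⟩,
    ⟨y, ⟨t2, mem_ball_self r0⟩, rfl⟩, ?_, ?_⟩
  · refine isClosed_compl_iff.1 ?_
    rw [show (F.μ '' (F.γ ⁻¹' P))ᶜ = F.μ '' (F.γ ⁻¹' P)ᶜ from subset_antisymm (fun x c =>
      let ⟨w, e⟩ := F.modif.surj x; ⟨w, fun a => c ⟨w, a, e⟩, e⟩)
      fun _ ⟨w, a, e⟩ ⟨w', a', e'⟩ => a (sat w' w a' (e.trans e'.symm))]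
    exact cμ.isClosedMap _ (p0.preimage cγ).isClosed_compl
  · rintro _ ⟨w, c, rfl⟩
    refine ind_of_comp (F.modif.hol.at w) (hu _ ((inU w c).1.1 w rfl)).1 (ind_congr
      (((h.reg _ (inU w c).2.2).sbm F.hol F.snc rfl).ind (F.hol.at w) (inU w c).2.1) fun j => ?_)
    filter_upwards [cγ.continuousAt.eventually (p0.mem_nhds c)] with v a using (inU v a).1.2 v rfl j
  · rintro _ ⟨w, c, rfl⟩
    exact show (fun j => u j (F.μ w)) ∈ ball b r from p1 w c.1 ▸ c.2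
  · rw [p4 K k1]
    exact ((k2.image_of_continuousOn (Θ.continuousOn_symm.comp
      (continuous_id.prodMk continuous_const).continuousOn fun c a => r1 (k1 a))).isClosed.preimage
        cγ).isCompact.image cμ
  · rw [p4 _ (singleton_subset_iff.2 k), image_singleton]
    exact (h.conn (u1 _ (t3 (p3 c k).1.1)).2.2).image _ cμ.continuousOn
  · rintro _ ⟨w, c, rfl⟩
    exact (hu _ ((inU w c).1.1 w rfl)).2
  · rintro _ ⟨w, c, rfl⟩
    exact (inU w c).1.1 w rfl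
  · rintro _ ⟨w, c, rfl⟩ _ ⟨w', c', rfl⟩ e
    exact ⟨w, w', (inU w c).2.2, p5 w w' c c' e, rfl, rfl⟩

end Vale.Agent.P301Z.Sa.Geo
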