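import Vale.Agent.P301Z.Sa.Defs
import Vale.Agent.P285Z.Defs

/-!
# P301Z, block ABUN: the parts of `LEAF`
-/

open scoped Manifold ContDiff Topology Matrix
open Set Filter Metric MeasureTheory
open Vale.Agent.P272.K Vale.Agent.P301.H599 Vale.Agent.P301.H99
open Vale.Agent.P277Z.Slc (Ind)
open Vale.Agent.P281Z
open Vale.Agent.P285Z (InS)

noncomputable section

namespace Vale.Agent.P301Z.Sa

/-- a bounded function of the weight -/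
def gw {d : ℕ} {X : Type} [TopologicalSpace X] [ChartedSpace (Cm d) X] {ι : Type}
    (L : LineBundle d X ι) (ρ : ι → X → ℝ) (φ : X → ℝ) (k : ℕ) (f : ι → X → ℂ) (y : X) : ℂ :=
  ((2 * Real.arctan (Real.exp (wt L ρ φ k f y / 2)) : ℝ) : ℂ)

/-- **COMS** -/
def COMS : Prop := ForM fun _ n X _ s ι L _ => ∀ (k : ℕ) (σ : Fin (n + 1) → ι → X.X → ℂ),
  Sys L k σ → ∀ x ∉ Zr L (σ 0), Com s (rat L σ) x

/-- **EN** -/
def EN : Prop := ForM fun d n X w s ι L ρ => ∀ (k : ℕ) (σ : Fin (n + 1) → ι → X.X → ℂ),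
  Sys L k σ → ∀ φ : ℕ → X.X → ℝ, (∀ m : ℕ, InS (curvature L ρ) w (1 / ((m : ℝ) + 1)) (φ m)) →
    ∀ x ∉ Zr L (σ 0), ∀ j, ∃ r : ℝ, 0 < r ∧ Tendsto (fun m => ∫⁻ z in ball (chartAt (Cm d) x x) r,
      ENNReal.ofReal (‖pb s (gw L ρ (φ m) k (σ 0)) (rat L σ j) (chartAt (Cm d) x)
        ((chartAt (Cm d) x).symm z)‖ ^ 2)) atTop (𝓝 0)

/-- **ENV** -/
def ENV : Prop := ForM fun d _ X w _ _ L ρ => ∃ (φ : ℕ → X.X → ℝ) (E : X.X → ℝ),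
  (∀ m : ℕ, InS (curvature L ρ) w (1 / ((m : ℝ) + 1)) (φ m)) ∧ Env d E ∧
    ∀ x, ∀ᶠ y in aeAt d x, Tendsto (fun m => φ m y) atTop (𝓝 (E y))

/-- **POI** -/
def POI : Prop := ∀ (n m : ℕ) (G : ℕ → Cm n × Cm m → ℝ) (G₀ : Cm n × Cm m → ℝ) (a : Cm n × Cm m)
  (r : ℝ), 0 < r → (∀ i, ∀ v ∈ ball a r, ContDiffAt ℝ 1 (G i) v) →
  Tendsto (fun i => ∫⁻ v in ball a r, ENNReal.ofReal
    (‖(fderiv ℝ (G i) v).comp (ContinuousLinearMap.inr ℝ (Cm n) (Cm m))‖ ^ 2)) atTop (𝓝 0) →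
  (∀ᵐ v, v ∈ ball a r → Tendsto (fun i => G i v) atTop (𝓝 (G₀ v))) →
  ∃ A : Cm n → ℝ, ∀ᶠ v in 𝓝 a ⊓ ae volume, G₀ v = A v.1

end Vale.Agent.P301Z.Sa
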