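import Mathlib.Analysis.Calculus.FDeriv.Measurable
import Mathlib.Analysis.Calculus.ContDiff.Comp
import Mathlib.Analysis.Calculus.Deriv.Mul
import Mathlib.MeasureTheory.Integral.IntervalIntegral.FundThmCalculus
import Mathlib.MeasureTheory.Measure.Haar.Basic
import Mathlib.MeasureTheory.Measure.Lebesgue.EqHaar
import Mathlib.MeasureTheory.Group.Measure
import Mathlib.MeasureTheory.Group.LIntegral
import Mathlib.MeasureTheory.Measure.Prod
import Mathlib.MeasureTheory.Covering.DensityTheorem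
import Mathlib.MeasureTheory.Group.Integral
import Mathlib.Analysis.SpecialFunctions.Trigonometric.Arctan

/-!
# P301Z: functions whose derivatives in one direction tend to zero
-/

open scoped Topology ENNReal
open Set Filter MeasureTheory Metric

set_option linter.unusedSectionVars false

noncomputable section

namespace Vale.Agent.P301Z.Sa.Lf0

variable {E : Type} [NormedAddCommGroup E] [NormedSpace ℝ E] [FiniteDimensional ℝ E]
  [MeasurableSpace E] [BorelSpace E] (μ : Measure E) [μ.IsAddHaarMeasure]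

/-- the limit of the averages over small balls -/
def av (f : E → ℝ) (p : E) : ℝ := limUnder (𝓝[>] (0 : ℝ)) fun δ => ⨍ y in closedBall p δ, f y ∂μ

theorem av_ae {f : E → ℝ} (hf : LocallyIntegrable f μ) : ∀ᵐ p ∂μ, av μ f p = f p := by
  filter_upwards [IsUnifLocDoublingMeasure.ae_tendsto_average μ hf 1] with p hp
  refine (hp (fun _ => p) id tendsto_id ?_).limUnder_eq
  filter_upwards [self_mem_nhdsWithin] with δ hδ
  exact mem_closedBall_self (by simpa using le_of_lt hδ)

theorem av_add {f : E → ℝ} {p c : E} (h : ∀ᶠ z in 𝓝 p ⊓ ae μ, f (z + c) = f z) :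
    av μ f (p + c) = av μ f p := by
  obtain ⟨U, hU, V, hV, h⟩ := mem_inf_iff_superset.1 h
  obtain ⟨r, hr, hU⟩ := nhds_basis_closedBall.mem_iff.1 hU
  refine congrArg lim (Filter.map_congr ?_)
  filter_upwards [Ioo_mem_nhdsGT hr] with δ hδ
  have e : (fun z => z + c) ⁻¹' closedBall (p + c) δ = closedBall p δ := by
    ext z
    simp
  rw [setAverage_eq, setAverage_eq, measureReal_def, measureReal_def,
    Measure.addHaar_closedBall_center μ (p + c), Measure.addHaar_closedBall_center μ p,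
    ← (measurePreserving_add_right μ c).setIntegral_preimage_emb (measurableEmbedding_addRight c),
    e]
  refine congrArg _ (setIntegral_congr_ae measurableSet_closedBall ?_)
  filter_upwards [hV] with z hz k
  exact h ⟨hU (closedBall_subset_closedBall hδ.2.le k), hz⟩

/-- a function which is invariant along the fibres of `π` is a function of `π` -/
theorem fac {T : Type} (π : E → T) {f : E → ℝ} {p₀ : E} {r : ℝ} (hr : 0 < r)
    (hf : AEMeasurable f (μ.restrict (closedBall p₀ (r + r))))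
    (h : ∀ p ∈ ball p₀ r, ∀ p' ∈ ball p₀ r, π p = π p' →
      ∀ᶠ z in 𝓝 p ⊓ ae μ, f (z + (p' - p)) = f z) :
    ∃ A : T → ℝ, ∀ᶠ p in 𝓝 p₀ ⊓ ae μ, f p = A (π p) := by
  classical
  set g := (closedBall p₀ (r + r)).indicator fun z => Real.arctan (f z) with hg
  have h1 : Integrable g μ := by
    rw [hg, integrable_indicator_iff measurableSet_closedBall]
    have : IsFiniteMeasure (μ.restrict (closedBall p₀ (r + r))) :=
      isFiniteMeasure_restrict.2 measure_closedBall_lt_top.ne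
    exact Integrable.of_bound
      (Real.continuous_arctan.measurable.comp_aemeasurable hf).aestronglyMeasurable (Real.pi / 2)
      (ae_of_all _ fun z => abs_le.2 ⟨(Real.neg_pi_div_two_lt_arctan _).le,
        (Real.arctan_lt_pi_div_two _).le⟩)
  have h2 : ∀ p ∈ ball p₀ r, closedBall p₀ (r + r) ∈ 𝓝 p := fun p hp =>
    mem_of_superset (isOpen_ball.mem_nhds hp)
      (ball_subset_closedBall.trans (closedBall_subset_closedBall (by linarith)))
  refine ⟨fun t => if k : ∃ p ∈ ball p₀ r, π p = t then Real.tan (av μ g k.choose) else 0, ?_⟩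
  filter_upwards [mem_inf_of_left (ball_mem_nhds p₀ hr),
    mem_inf_of_right (av_ae μ h1.locallyIntegrable)] with p hp a
  have k : ∃ p' ∈ ball p₀ r, π p' = π p := ⟨p, hp, rfl⟩
  have e := av_add μ (f := g) (p := p) (c := k.choose - p) (by
    have t : Tendsto (fun z => z + (k.choose - p)) (𝓝 p) (𝓝 k.choose) :=
      (continuous_add_const _).tendsto' _ _ (add_sub_cancel _ _)
    filter_upwards [h p hp _ k.choose_spec.1 k.choose_spec.2.symm, mem_inf_of_left (h2 p hp),
      mem_inf_of_left (t (h2 _ k.choose_spec.1))] with z a1 a2 a3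
    rw [hg, indicator_of_mem a2, indicator_of_mem (mem_preimage.1 a3), a1])
  rw [add_sub_cancel] at e
  rw [dif_pos k, e, a, hg, indicator_of_mem (mem_of_mem_nhds (h2 p hp)), Real.tan_arctan]

theorem seg {f : E → ℝ} {z c : E} (hf : ∀ t ∈ Icc (0 : ℝ) 1, ContDiffAt ℝ 1 f (z + t • c)) :
    ‖f (z + c) - f z‖ₑ ≤ ∫⁻ t in Ioc (0 : ℝ) 1, ‖fderiv ℝ f (z + t • c) c‖ₑ := by
  have hl : ∀ t : ℝ, HasDerivAt (fun s : ℝ => z + s • c) c t := fun t => by
    simpa using ((hasDerivAt_id t).smul_const c).const_add z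
  have h1 : ∀ t ∈ uIcc (0 : ℝ) 1,
      HasDerivAt (fun s : ℝ => f (z + s • c)) (fderiv ℝ f (z + t • c) c) t := fun t ht =>
    ((hf t (by rwa [uIcc_of_le zero_le_one] at ht)).differentiableAt
      one_ne_zero).hasFDerivAt.comp_hasDerivAt t (hl t)
  have h2 : ContinuousOn (fun t : ℝ => fderiv ℝ f (z + t • c) c) (uIcc 0 1) := fun t ht => by
    have k := (hf t (by rwa [uIcc_of_le zero_le_one] at ht)).continuousAt_fderiv one_ne_zero
    exact ((ContinuousAt.comp (f := fun s : ℝ => z + s • c) k (hl t).continuousAt).clm_apply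
      continuousAt_const).continuousWithinAt
  have h3 := intervalIntegral.integral_eq_sub_of_hasDerivAt h1 h2.intervalIntegrable
  simp only [one_smul, zero_smul, add_zero] at h3
  rw [← h3, intervalIntegral.integral_of_le zero_le_one]
  exact enorm_integral_le_lintegral_enorm _

theorem shift {f : E → ℝ} {c : E} {A O : Set E} (hA : MeasurableSet A) (hO : MeasurableSet O)
    (hf : ∀ z ∈ O, ContDiffAt ℝ 1 f z) (h : ∀ z ∈ A, ∀ t ∈ Icc (0 : ℝ) 1, z + t • c ∈ O) :
    ∫⁻ z in A, ‖f (z + c) - f z‖ₑ ∂μ ≤ ∫⁻ z in O, ‖fderiv ℝ f z c‖ₑ ∂μ := by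
  have hm : Measurable fun z => ‖fderiv ℝ f z c‖ₑ := (measurable_fderiv_apply_const ℝ f c).enorm
  calc _ ≤ ∫⁻ z in A, (∫⁻ t in Ioc (0 : ℝ) 1, ‖fderiv ℝ f (z + t • c) c‖ₑ) ∂μ :=
        setLIntegral_mono' hA fun z hz => seg fun t ht => hf _ (h z hz t ht)
    _ = ∫⁻ t in Ioc (0 : ℝ) 1, ∫⁻ z in A, ‖fderiv ℝ f (z + t • c) c‖ₑ ∂μ :=
        lintegral_lintegral_swap (hm.comp (by fun_prop)).aemeasurable
    _ ≤ ∫⁻ _ in Ioc (0 : ℝ) 1, ∫⁻ z in O, ‖fderiv ℝ f z c‖ₑ ∂μ := by
        refine setLIntegral_mono' measurableSet_Ioc fun t ht => ?_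
        rw [← lintegral_indicator hO, ← lintegral_indicator hA,
          ← lintegral_add_right_eq_self (O.indicator _) (t • c)]
        refine lintegral_mono fun z => ?_
        by_cases hz : z ∈ A
        · rw [indicator_of_mem hz, indicator_of_mem (h z hz t (Ioc_subset_Icc_self ht))]
        · rw [indicator_of_notMem hz]
          exact zero_le
    _ = _ := by simp

theorem sq_lim {Y : Type*} [MeasurableSpace Y] {ν : Measure Y} [IsFiniteMeasure ν]
    {g : ℕ → Y → ℝ} (h : Tendsto (fun k => ∫⁻ z, ENNReal.ofReal (g k z ^ 2) ∂ν) atTop (𝓝 0)) :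
    Tendsto (fun k => ∫⁻ z, ‖g k z‖ₑ ∂ν) atTop (𝓝 0) := by
  refine ENNReal.tendsto_nhds_zero.2 fun ε hε => ?_
  obtain ⟨δ, hδ, h1⟩ := ENNReal.exists_nnreal_pos_mul_lt (measure_ne_top ν univ)
    (ENNReal.half_pos hε.ne').ne'
  have h0 : (0 : ℝ) < δ := hδ
  have h2 : Tendsto (fun k => ENNReal.ofReal (δ : ℝ)⁻¹ * ∫⁻ z, ENNReal.ofReal (g k z ^ 2) ∂ν)
      atTop (𝓝 0) := by
    simpa using ENNReal.Tendsto.const_mul h (.inr ENNReal.ofReal_ne_top)
  filter_upwards [ENNReal.tendsto_nhds_zero.1 h2 _ (ENNReal.half_pos hε.ne')] with k hk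
  calc _ ≤ ∫⁻ z, (δ : ℝ≥0∞) + ENNReal.ofReal (δ : ℝ)⁻¹ * ENNReal.ofReal (g k z ^ 2) ∂ν := by
        refine lintegral_mono fun z => ?_
        rw [← ofReal_norm, ← ENNReal.ofReal_coe_nnreal, ← ENNReal.ofReal_mul (by positivity),
          ← ENNReal.ofReal_add h0.le (by positivity)]
        refine ENNReal.ofReal_le_ofReal ?_
        rw [← sq_abs, Real.norm_eq_abs, ← sub_nonneg]
        have e : δ + (δ : ℝ)⁻¹ * |g k z| ^ 2 - |g k z| =
            (δ : ℝ)⁻¹ * ((δ - |g k z|) ^ 2 + δ * |g k z|) := by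
          field_simp
          ring
        rw [e]
        positivity
    _ = _ + _ := lintegral_add_left measurable_const _
    _ ≤ ε / 2 + ε / 2 := by
        rw [lintegral_const, lintegral_const_mul' _ _ ENNReal.ofReal_ne_top]
        exact add_le_add h1.le hk
    _ = ε := ENNReal.add_halves ε

/-- the limit is invariant under the translation -/
theorem inv {f : ℕ → E → ℝ} {f₀ : E → ℝ} {c : E} {A O : Set E} (hA : MeasurableSet A)
    (hO : MeasurableSet O) (hv : μ O ≠ ⊤) (hf : ∀ k, ∀ z ∈ O, ContDiffAt ℝ 1 (f k) z)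
    (h : ∀ z ∈ A, ∀ t ∈ Icc (0 : ℝ) 1, z + t • c ∈ O)
    (hl : ∀ᵐ z ∂μ, z ∈ O → Tendsto (fun k => f k z) atTop (𝓝 (f₀ z)))
    (hd : Tendsto (fun k => ∫⁻ z in O, ENNReal.ofReal (fderiv ℝ (f k) z c ^ 2) ∂μ) atTop (𝓝 0)) :
    ∀ᵐ z ∂μ, z ∈ A → f₀ (z + c) = f₀ z := by
  have : IsFiniteMeasure (μ.restrict O) := isFiniteMeasure_restrict.2 hv
  have h0 : ∀ z ∈ A, z ∈ O := fun z hz => by simpa using h z hz 0 ⟨le_rfl, zero_le_one⟩
  have h1 : ∀ z ∈ A, z + c ∈ O := fun z hz => by simpa using h z hz 1 ⟨zero_le_one, le_rfl⟩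
  have h2 : Tendsto (fun k => ∫⁻ z in A, ‖f k (z + c) - f k z‖ₑ ∂μ) atTop (𝓝 0) :=
    tendsto_of_tendsto_of_tendsto_of_le_of_le tendsto_const_nhds (sq_lim hd) (fun _ => zero_le)
      fun k => shift μ hA hO (hf k) h
  have hm : ∀ k, AEMeasurable (fun z => ‖f k (z + c) - f k z‖ₑ) (μ.restrict A) := fun k => by
    refine (ContinuousOn.aemeasurable (fun z hz => ?_) hA).enorm
    exact ((ContinuousAt.comp (f := fun z => z + c) (hf k _ (h1 z hz)).continuousAt
      (by fun_prop)).sub (hf k _ (h0 z hz)).continuousAt).continuousWithinAt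
  have h3 := lintegral_liminf_le' (u := atTop) hm
  have h5 : AEMeasurable (fun z => liminf (fun k => ‖f k (z + c) - f k z‖ₑ) atTop)
      (μ.restrict A) := ⟨_, Measurable.liminf fun k => (hm k).measurable_mk, by
    filter_upwards [ae_all_iff.2 fun k => (hm k).ae_eq_mk] with z hz
    simp only [hz]⟩
  rw [h2.liminf_eq, nonpos_iff_eq_zero, lintegral_eq_zero_iff' h5] at h3
  have h4 : ∀ᵐ z ∂μ, z + c ∈ O → Tendsto (fun k => f k (z + c)) atTop (𝓝 (f₀ (z + c))) := by
    rw [← map_add_right_ae μ c] at hl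
    exact hl
  filter_upwards [(ae_restrict_iff' hA).1 h3, hl, h4] with z a b d hz
  have k := (((d (h1 z hz)).sub (b (h0 z hz))).enorm).liminf_eq
  rw [a hz, Pi.zero_apply, eq_comm, enorm_eq_zero] at k
  exact sub_eq_zero.1 k

end Vale.Agent.P301Z.Sa.Lf0
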