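import Vale.Agent.P301Z.Sa.Lf0
import Vale.Agent.P272.K.Inv.Wirt
import Vale.Agent.P272.K.C2.Wirt
import Vale.Agent.P272.K.INT.Dens
import Mathlib.Algebra.Order.Chebyshev

/-!
# P301Z: a limit of functions with small Hamiltonian derivatives is constant on the leaves
-/

open scoped Topology ENNReal Matrix
open Set Filter MeasureTheory Metric
open Vale.Agent.P272.K

set_option linter.unusedSectionVars false

noncomputable section

namespace Vale.Agent.P301Z.Sa.Lf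

open Lf0

theorem la {n N : ℕ} (hN : N = n + n) {G : Matrix (Fin n) (Fin N) ℂ}
    {R : Matrix (Fin N) (Fin n) ℂ} {S : Matrix (Fin N) (Fin N) ℂ} (hS : IsUnit S.det)
    (hR : G * R = 1) (hc : G * S⁻¹ * Gᵀ = 0) {V : Fin N → ℂ} (hV : G *ᵥ V = 0) :
    V = (G * S⁻¹)ᵀ *ᵥ ((S * R)ᵀ *ᵥ V) := by
  have h1 : (S * R)ᵀ * (G * S⁻¹)ᵀ = 1 := by
    rw [← Matrix.transpose_mul, Matrix.mul_assoc, Matrix.nonsing_inv_mul_cancel_left _ _ hS, hR,
      Matrix.transpose_one]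
  have h2 : LinearMap.range (G * S⁻¹)ᵀ.mulVecLin ≤ LinearMap.ker G.mulVecLin := by
    rintro _ ⟨v, rfl⟩
    have : G * (G * S⁻¹)ᵀ = 0 := by
      rw [← Matrix.transpose_eq_zero, Matrix.transpose_mul, Matrix.transpose_transpose, hc]
    simp only [LinearMap.mem_ker, Matrix.mulVecLin_apply, Matrix.mulVec_mulVec, this,
      Matrix.zero_mulVec]
  have h3 : Function.Injective (G * S⁻¹)ᵀ.mulVecLin := fun u v h => by
    have := congrArg ((S * R)ᵀ *ᵥ ·) h
    simpa only [Matrix.mulVecLin_apply, Matrix.mulVec_mulVec, h1, Matrix.one_mulVec] using this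
  have h4 : LinearMap.range G.mulVecLin = ⊤ := LinearMap.range_eq_top.2 fun v =>
    ⟨R *ᵥ v, by simp only [Matrix.mulVecLin_apply, Matrix.mulVec_mulVec, hR, Matrix.one_mulVec]⟩
  have h5 := LinearMap.finrank_range_add_finrank_ker G.mulVecLin
  rw [h4, finrank_top] at h5
  have h6 := LinearMap.finrank_range_of_inj h3
  simp only [Module.finrank_fintype_fun_eq_card, Fintype.card_fin] at h5 h6
  obtain ⟨u, rfl⟩ : V ∈ LinearMap.range (G * S⁻¹)ᵀ.mulVecLin := by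
    rw [Submodule.eq_of_le_of_finrank_eq h2 (by omega)]
    exact hV
  simp only [Matrix.mulVecLin_apply, Matrix.mulVec_mulVec]
  rw [h1, Matrix.mul_one]

theorem map_of {A B : Type*} [TopologicalSpace A] [TopologicalSpace B] [MeasurableSpace A]
    [MeasurableSpace B] {μ : Measure A} {ν : Measure B} (Ψ : OpenPartialHomeomorph A B)
    (h1 : ∀ M, ν M = 0 → μ (Ψ.source ∩ Ψ ⁻¹' M) = 0)
    (h2 : ∀ M, μ M = 0 → ν (Ψ.target ∩ Ψ.symm ⁻¹' M) = 0) {w : A} (hw : w ∈ Ψ.source) :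
    map Ψ (𝓝 w ⊓ ae μ) = 𝓝 (Ψ w) ⊓ ae ν := by
  have k1 : Tendsto Ψ (𝓝 w ⊓ ae μ) (𝓝 (Ψ w) ⊓ ae ν) :=
    tendsto_inf.2 ⟨(Ψ.continuousAt hw).mono_left inf_le_left, fun V hV => mem_map.2 <|
      mem_of_superset (inter_mem_inf (Ψ.open_source.mem_nhds hw) (compl_mem_ae_iff.2 (h1 _ hV)))
        fun z hz => by_contra fun k => hz.2 ⟨hz.1, k⟩⟩
  have hp := Ψ.map_source hw
  have k2 : Tendsto Ψ.symm (𝓝 (Ψ w) ⊓ ae ν) (𝓝 w ⊓ ae μ) :=
    tendsto_inf.2 ⟨(Ψ.tendsto_symm hw).mono_left inf_le_left, fun V hV => mem_map.2 <|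
      mem_of_superset (inter_mem_inf (Ψ.open_target.mem_nhds hp) (compl_mem_ae_iff.2 (h2 _ hV)))
        fun z hz => by_contra fun k => hz.2 ⟨hz.1, k⟩⟩
  refine le_antisymm k1 (le_trans (le_of_eq ?_) (map_mono k2))
  rw [map_map]
  refine map_id.symm.trans (Filter.map_congr ?_)
  filter_upwards [mem_inf_of_left (Ψ.open_target.mem_nhds hp)] with z hz
  exact (Ψ.right_inv hz).symm

variable {n N : ℕ}

theorem null_pre (Ψ : OpenPartialHomeomorph (Cm N) (Cm N))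
    (h : ∀ p ∈ Ψ.target, AnalyticAt ℂ Ψ.symm p) (M : Set (Cm N)) (hM : volume M = 0) :
    volume (Ψ.source ∩ Ψ ⁻¹' M) = 0 := by
  refine measure_mono_null (t := Ψ.symm '' (Ψ.target ∩ M))
    (fun z hz => ⟨Ψ z, ⟨Ψ.map_source hz.1, hz.2⟩, Ψ.left_inv hz.1⟩)
    (addHaar_image_eq_zero_of_differentiableOn_of_addHaar_eq_zero volume (fun p hp => ?_)
      (measure_mono_null inter_subset_right hM))
  exact ((h p hp.1).differentiableAt.restrictScalars ℝ).differentiableWithinAt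

theorem chg (Ψ : OpenPartialHomeomorph (Cm N) (Cm N)) (h : ∀ w ∈ Ψ.source, AnalyticAt ℂ Ψ w)
    {K : Set (Cm N)} (hK : IsCompact K) (hs : K ⊆ Ψ.source) : ∃ C : ℝ, ∀ H : Cm N → ℝ≥0∞,
      ∫⁻ p in Ψ '' K, H (Ψ.symm p) ≤ ENNReal.ofReal C * ∫⁻ w in K, H w := by
  have h1 : ∀ w ∈ K, ContDiffAt ℝ 1 Ψ w := fun w hw =>
    ((h w (hs hw)).contDiffAt (n := 1)).restrict_scalars ℝ
  obtain ⟨C, hC⟩ := hK.exists_bound_of_continuousOn (f := fun w => (fderiv ℝ Ψ w).det)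
    fun w hw => (ContinuousLinearMap.continuous_det.continuousAt.comp
      ((h1 w hw).continuousAt_fderiv one_ne_zero)).continuousWithinAt
  refine ⟨C, fun H => ?_⟩
  rw [lintegral_image_eq_lintegral_abs_det_fderiv_mul volume hK.measurableSet
    (fun w hw => ((h1 w hw).differentiableAt one_ne_zero).hasFDerivAt.hasFDerivWithinAt)
    (Ψ.injOn.mono hs), ← lintegral_const_mul' _ _ ENNReal.ofReal_ne_top]
  refine setLIntegral_mono' hK.measurableSet fun w hw => ?_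
  rw [Ψ.left_inv (hs hw)]
  exact mul_le_mul_left (ENNReal.ofReal_le_ofReal (hC w hw)) _

/-- the gradient -/
def gd (f : Cm N → ℂ) (w : Cm N) : Fin N → ℂ := fun a => dz a f w

theorem gd_hol {f : Cm N → ℂ} {w : Cm N} (h : AnalyticAt ℂ f w) (v : Cm N) :
    gd f w ⬝ᵥ v = fderiv ℂ f w v := by
  conv_rhs => rw [← Finset.univ_sum_single v, map_sum]
  refine Finset.sum_congr rfl fun a _ => ?_
  rw [gd, INT.dz_of_holo h.differentiableAt, mul_comm, ← smul_eq_mul, ← map_smul,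
    ← Pi.single_smul, smul_eq_mul, mul_one]

theorem gd_real {b : Cm N → ℝ} {w : Cm N} (h : DifferentiableAt ℝ b w) (v : Cm N) :
    |fderiv ℝ b w v| ≤ 2 * ‖gd (fun z => (b z : ℂ)) w ⬝ᵥ v‖ := by
  have h1 : fderiv ℝ (fun y => ((b y : ℝ) : ℂ)) w v = ((fderiv ℝ b w v : ℝ) : ℂ) := by
    have k : HasFDerivAt (fun y => ((b y : ℝ) : ℂ)) (Complex.ofRealCLM.comp (fderiv ℝ b w)) w :=
      Complex.ofRealCLM.hasFDerivAt.comp w h.hasFDerivAt
    rw [k.fderiv]
    rfl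
  rw [← Real.norm_eq_abs, ← Complex.norm_real, ← h1, P272.K.fderiv_eq, Finset.sum_add_distrib,
    two_mul]
  refine (norm_add_le _ _).trans (add_le_add le_rfl (le_of_eq ?_))
  rw [← Complex.norm_conj, map_sum]
  refine congrArg _ (Finset.sum_congr rfl fun a _ => ?_)
  rw [C2.dzb_real a h]
  simp [gd, cj]

/-- the pointwise bound -/
theorem pt (hN : N = n + n) {g : Cm N → Cm n} {T : Cm N → Cm N} {π : Cm N →L[ℂ] Cm n}
    {ι : Cm n →L[ℂ] Cm N} (hι : ∀ a, π (ι a) = a) {p c : Cm N} (hT : AnalyticAt ℂ T p)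
    (hg : AnalyticAt ℂ g (T p)) (he : ∀ᶠ z in 𝓝 p, g (T z) = π z) (hc : π c = 0)
    {S : Matrix (Fin N) (Fin N) ℂ} (hS : IsUnit S.det)
    (h0 : ∀ i j, gd (fun z => g z i) (T p) ⬝ᵥ (S⁻¹ *ᵥ gd (fun z => g z j) (T p)) = 0)
    (β : Fin N → ℂ) : β ⬝ᵥ fderiv ℂ T p c = ∑ i,
      (fderiv ℂ T p c ⬝ᵥ (S *ᵥ fderiv ℂ T p (ι (Pi.single i 1)))) *
        (gd (fun z => g z i) (T p) ⬝ᵥ (S⁻¹ *ᵥ β)) := by
  have h1 : ∀ v i, gd (fun z => g z i) (T p) ⬝ᵥ fderiv ℂ T p v = π v i := fun v i => by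
    have k := (hg.differentiableAt.hasFDerivAt.comp p hT.differentiableAt.hasFDerivAt).fderiv
    rw [EventuallyEq.fderiv_eq (f₁ := g ∘ T) he, π.fderiv] at k
    rw [gd_hol (analyticAt_pi_iff.1 hg i), k, fderiv_apply hg.differentiableAt]
    rfl
  have h2 := la hN (G := Matrix.of fun i => gd (fun z => g z i) (T p))
    (R := Matrix.of fun a j => fderiv ℂ T p (ι (Pi.single j 1)) a) hS (by
      ext i j
      refine (h1 (ι (Pi.single j 1)) i).trans ?_
      rw [hι, Matrix.one_apply, Pi.single_apply]) (by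
      ext i j
      rw [Matrix.mul_assoc]
      exact h0 i j) (V := fderiv ℂ T p c) (funext fun i => (h1 c i).trans (by rw [hc]))
  conv_lhs => rw [h2, Matrix.dotProduct_mulVec, Matrix.vecMul_transpose, dotProduct_comm]
  refine Finset.sum_congr rfl fun i _ => ?_
  rw [← Matrix.mulVec_mulVec, Matrix.mulVec_transpose]
  rfl

/-- **the local statement** -/
theorem loc (hN : N = n + n) (Ψ : OpenPartialHomeomorph (Cm N) (Cm N))
    (h1 : ∀ w ∈ Ψ.source, AnalyticAt ℂ Ψ w) (h2 : ∀ p ∈ Ψ.target, AnalyticAt ℂ Ψ.symm p)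
    {π : Cm N →L[ℂ] Cm n} {ι : Cm n →L[ℂ] Cm N} (hι : ∀ a, π (ι a) = a) {g : Cm N → Cm n}
    (hg : ∀ w ∈ Ψ.source, g w = π (Ψ w)) {S : Cm N → Matrix (Fin N) (Fin N) ℂ}
    (hS : ∀ w ∈ Ψ.source, ContinuousAt S w) (hd : ∀ w ∈ Ψ.source, IsUnit (S w).det)
    (hc : ∀ w ∈ Ψ.source, ∀ i j,
      gd (fun z => g z i) w ⬝ᵥ ((S w)⁻¹ *ᵥ gd (fun z => g z j) w) = 0)
    {b : ℕ → Cm N → ℝ} (hb : ∀ k, ∀ w ∈ Ψ.source, ContDiffAt ℝ 1 (b k) w) {b₀ : Cm N → ℝ}
    (hl : ∀ᵐ w, w ∈ Ψ.source → Tendsto (fun k => b k w) atTop (𝓝 (b₀ w)))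
    (hi : ∀ K ⊆ Ψ.source, IsCompact K → Tendsto (fun k => ∫⁻ w in K, ENNReal.ofReal (∑ i,
      ‖gd (fun z => g z i) w ⬝ᵥ ((S w)⁻¹ *ᵥ gd (fun z => (b k z : ℂ)) w)‖ ^ 2)) atTop (𝓝 0))
    {w₀ : Cm N} (hw : w₀ ∈ Ψ.source) :
    ∃ A : Cm n → ℝ, ∀ᶠ w in 𝓝 w₀ ⊓ ae volume, b₀ w = A (g w) := by
  obtain ⟨r, hr, hB⟩ : ∃ r, 0 < r ∧ closedBall (Ψ w₀) (r + r) ⊆ Ψ.target := by
    obtain ⟨r, h, k⟩ := nhds_basis_closedBall.mem_iff.1 (Ψ.open_target.mem_nhds (Ψ.map_source hw))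
    exact ⟨r / 2, half_pos h, by rwa [add_halves]⟩
  set O := closedBall (Ψ w₀) (r + r)
  have hO : IsCompact O := isCompact_closedBall _ _
  have hb' : ∀ k, ∀ p ∈ O, ContDiffAt ℝ 1 (fun z => b k (Ψ.symm z)) p := fun k p hp =>
    (hb k _ (Ψ.map_target (hB hp))).comp p
      (((h2 p (hB hp)).contDiffAt (n := 1)).restrict_scalars ℝ)
  have hl' : ∀ᵐ p, p ∈ O → Tendsto (fun k => b k (Ψ.symm p)) atTop (𝓝 (b₀ (Ψ.symm p))) := by
    filter_upwards [compl_mem_ae_iff.2 (null_pre Ψ.symm h1 _ (mem_ae_iff.1 hl))] with p hp k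
    exact by_contra fun k' => hp ⟨hB k, fun j => k' (j (Ψ.map_target (hB k)))⟩
  suffices H : ∃ A : Cm n → ℝ, ∀ᶠ p in 𝓝 (Ψ w₀) ⊓ ae volume, b₀ (Ψ.symm p) = A (π p) by
    obtain ⟨A, H⟩ := H
    rw [← map_of (μ := volume) Ψ (null_pre Ψ h2) (null_pre Ψ.symm h1) hw, eventually_map] at H
    refine ⟨A, ?_⟩
    filter_upwards [H, mem_inf_of_left (Ψ.open_source.mem_nhds hw)] with w a a'
    rwa [Ψ.left_inv a', ← hg w a'] at a
  refine fac volume π (f := fun p => b₀ (Ψ.symm p)) hr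
    (aemeasurable_of_tendsto_metrizable_ae' (fun k => ContinuousOn.aemeasurable
      (fun p hp => (hb' k p hp).continuousAt.continuousWithinAt) hO.measurableSet)
      ((ae_restrict_iff' hO.measurableSet).2 hl')) fun q a q' a' hww => ?_
  set c := q' - q with hc'
  have c0 : π c = 0 := by rw [hc', map_sub, hww, sub_self]
  have hK : IsCompact (Ψ.symm '' O) := hO.image_of_continuousOn (Ψ.continuousOn_symm.mono hB)
  have hKs : Ψ.symm '' O ⊆ Ψ.source := by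
    rintro _ ⟨p, hp, rfl⟩
    exact Ψ.map_target (hB hp)
  obtain ⟨C, hC⟩ := chg Ψ h1 hK hKs
  rw [show Ψ '' (Ψ.symm '' O) = O from Ψ.image_symm_image_of_subset_target hB] at hC
  have hT : ∀ p ∈ O, ∀ v, ContinuousAt (fun p => fderiv ℂ Ψ.symm p v) p := fun p hp v =>
    (h2 p (hB hp)).fderiv.continuousAt.clm_apply continuousAt_const
  obtain ⟨D, hD⟩ := hO.exists_bound_of_continuousOn (f := fun p (i : Fin n) =>
    fderiv ℂ Ψ.symm p c ⬝ᵥ (S (Ψ.symm p) *ᵥ fderiv ℂ Ψ.symm p (ι (Pi.single i 1)))) fun p hp => by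
    have k := ContinuousAt.comp (hS _ (Ψ.map_target (hB hp))) (Ψ.continuousAt_symm (hB hp))
    refine (continuousAt_pi.2 fun i => ?_).continuousWithinAt
    simp only [dotProduct, Matrix.mulVec]
    exact tendsto_finsetSum _ fun a _ => (continuousAt_pi.1 (hT p hp c) a).mul
      (tendsto_finsetSum _ fun a' _ => (continuousAt_pi.1 (continuousAt_pi.1 k a) a').mul
        (continuousAt_pi.1 (hT p hp _) a'))
  have key := Lf0.inv volume (f := fun k z => b k (Ψ.symm z)) (f₀ := fun z => b₀ (Ψ.symm z))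
    (c := c) (A := ball q r) measurableSet_ball hO.measurableSet hO.measure_ne_top hb'
    (fun z hz t ht => by
      have k := (convex_ball (Ψ w₀) r).add_smul_sub_mem a a' ht
      rw [mem_ball, dist_eq_norm] at hz k
      rw [mem_closedBall, dist_eq_norm, show z + t • c - Ψ w₀ =
        (z - q) + (q + t • (q' - q) - Ψ w₀) by rw [hc']; abel]
      exact (norm_add_le _ _).trans (add_le_add hz.le k.le))
    hl' (by
      have t1 := ENNReal.Tendsto.const_mul (a := ENNReal.ofReal (4 * D ^ 2 * n))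
        (ENNReal.Tendsto.const_mul (a := ENNReal.ofReal C) (hi _ hKs hK)
          (.inr ENNReal.ofReal_ne_top)) (.inr ENNReal.ofReal_ne_top)
      simp only [mul_zero] at t1
      refine tendsto_of_tendsto_of_tendsto_of_le_of_le tendsto_const_nhds t1 (fun _ => zero_le)
        fun k => le_trans ?_ (mul_le_mul_right (hC _) _)
      rw [← lintegral_const_mul' _ _ ENNReal.ofReal_ne_top]
      refine setLIntegral_mono' hO.measurableSet fun p hp => ?_
      have hp' := Ψ.map_target (hB hp)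
      have d1 := (hb k _ hp').differentiableAt one_ne_zero
      have d2 := (h2 p (hB hp)).differentiableAt
      have k1 := gd_real d1 (fderiv ℂ Ψ.symm p c)
      rw [pt hN hι (h2 p (hB hp)) (g := g) (((π.analyticAt _).fun_comp (h1 _ hp')).congr (by
        filter_upwards [Ψ.open_source.mem_nhds hp'] with z hz using (hg z hz).symm)) (by
        filter_upwards [Ψ.open_target.mem_nhds (hB hp)] with z hz
        rw [hg _ (Ψ.map_target hz), Ψ.right_inv hz]) c0 (hd _ hp') (hc _ hp')] at k1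
      rw [← ENNReal.ofReal_mul (by positivity),
        fderiv_fun_comp p d1 (d2.restrictScalars ℝ), d2.fderiv_restrictScalars ℝ]
      refine ENNReal.ofReal_le_ofReal ?_
      have k2 := k1.trans (mul_le_mul_of_nonneg_left ((norm_sum_le _ _).trans
        (Finset.sum_le_sum fun i _ => (norm_mul_le _ _).trans (mul_le_mul_of_nonneg_right
          ((norm_le_pi_norm _ i).trans (hD p hp)) (norm_nonneg _)))) zero_le_two)
      rw [← Finset.mul_sum] at k2
      have k3 := pow_le_pow_left₀ (abs_nonneg _) k2 2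
      rw [sq_abs, mul_pow, mul_pow] at k3
      refine k3.trans ?_
      rw [mul_assoc, mul_assoc, show (2 : ℝ) ^ 2 = 4 by norm_num]
      refine mul_le_mul_of_nonneg_left (mul_le_mul_of_nonneg_left ?_ (sq_nonneg _)) zero_le_four
      simpa using sq_sum_le_card_mul_sum_sq (s := (Finset.univ : Finset (Fin n))))
  filter_upwards [mem_inf_of_left (ball_mem_nhds _ hr), mem_inf_of_right key] with z k1 k2
  exact k2 k1

end Vale.Agent.P301Z.Sa.Lf
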