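import Vale.Agent.P301Z.Sa.Lf1
import Vale.Agent.P285Z.Lse4
import Vale.Agent.P272.K.C2.PosLin

/-!
# P301Z: pointwise lower bounds for the density of the quadratic form
-/

open scoped Topology ENNReal Matrix ComplexOrder ComplexConjugate
open Set Filter
open Vale.Agent.P272.K Vale.Agent.P285Z.Ch
open Vale.Agent.P285Z (Qf)
open Vale.Agent.P301.H98 (nh Dc)

noncomputable section

namespace Vale.Agent.P301Z.Sa.Lf

variable {N : ℕ} {A B W S : Matrix (Fin N) (Fin N) ℂ} {z : Cm N}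

/-- the density of the quadratic form -/
def qd (S A B : Matrix (Fin N) (Fin N) ℂ) : ℝ := (A * ((Sᴴ)⁻¹ * Bᵀ * S⁻¹)).trace.re

theorem qd_nonneg (hA : A.PosSemidef) (hB : B.PosSemidef) : 0 ≤ qd S A B := by
  have h := hB.transpose.conjTranspose_mul_mul_same S⁻¹
  rw [Matrix.conjTranspose_nonsing_inv] at h
  exact (Complex.le_def.1 (C2.trace_mul_nonneg hA h)).1

/-- the matrix of rank one -/
def r1 (α : Fin N → ℂ) : Matrix (Fin N) (Fin N) ℂ := Matrix.vecMulVec α (star α)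

theorem qd_r1 (α β : Fin N → ℂ) : qd S (r1 α) (r1 β) = ‖β ⬝ᵥ (S⁻¹ *ᵥ α)‖ ^ 2 := by
  have h : star α ⬝ᵥ ((Sᴴ)⁻¹ *ᵥ star β) = conj (β ⬝ᵥ (S⁻¹ *ᵥ α)) := by
    rw [← Matrix.conjTranspose_nonsing_inv, Matrix.dotProduct_mulVec, ← Matrix.star_mulVec,
      Matrix.star_dotProduct_star, RCLike.star_def]
  rw [qd, r1, r1, Matrix.transpose_vecMulVec, Matrix.mul_vecMulVec,
    Matrix.vecMulVec_mul _ β, Matrix.vecMulVec_mul_vecMulVec, Matrix.trace_vecMulVec, dotProduct_smul, h, dotProduct_comm α,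
    ← Matrix.dotProduct_mulVec, smul_eq_mul, Complex.conj_mul']
  norm_cast

theorem Qf_r1 (α u : Fin N → ℂ) : Qf (r1 α) u = ‖∑ b, conj (α b) * u b‖ ^ 2 := by
  rw [← Qf_rank_one]
  congr 1
  ext j k
  simp [r1, Matrix.vecMulVec_apply]

theorem r1_psd (α : Fin N → ℂ) : (r1 α).PosSemidef := Matrix.posSemidef_vecMulVec_self_star α

theorem qd_low (hA : A.PosSemidef) {c : ℝ} (hc : 0 ≤ c) {α β : Fin N → ℂ}
    (h1 : ∀ u, ‖∑ b, conj (α b) * u b‖ ^ 2 ≤ c * Qf A u)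
    (h2 : ∀ u, ‖∑ b, conj (β b) * u b‖ ^ 2 ≤ c * Qf A u) :
    ‖β ⬝ᵥ (S⁻¹ *ᵥ α)‖ ^ 2 ≤ c ^ 2 * qd S A A := by
  have k : ∀ γ : Fin N → ℂ, (∀ u, ‖∑ b, conj (γ b) * u b‖ ^ 2 ≤ c * Qf A u) →
      ((c : ℂ) • A - r1 γ).PosSemidef := fun γ h =>
    psd_of_Qf ((herm_smul c hA.1).sub (r1_psd γ).1) fun u => by
      rw [Qf_sub, Qf_smul, Qf_r1]
      exact sub_nonneg.2 (h u)
  have a := qd_nonneg (S := S) (psd_smul hc hA) (k β h2)
  have b := qd_nonneg (S := S) (k α h1) (r1_psd β)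
  rw [← qd_r1]
  simp only [qd, Matrix.transpose_sub, Matrix.transpose_smul, Matrix.mul_sub, Matrix.sub_mul,
    Matrix.mul_smul, Matrix.smul_mul, Matrix.trace_sub, Matrix.trace_smul, Complex.sub_re,
    smul_eq_mul, Complex.re_ofReal_mul] at a b ⊢
  nlinarith

theorem low (hW : W.PosSemidef) {R : Cm N → ℝ} (hR : Good W R z) (u : Fin N → ℂ) :
    Qf (cHess R z) u + R z * Qf W u ≤
      (1 + R z) ^ 2 * Qf (W + cHess (fun y => Real.log (1 + R y)) z) u := by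
  have h0 : 0 < 1 + R z := add_pos_of_pos_of_nonneg one_pos hR.nn
  have e := cHess_chain' (h := fun s => Real.log (1 + s)) (h₁ := fun s => (1 + s)⁻¹)
    (h₂ := -((1 + R z) ^ 2)⁻¹) (u := R) (z := z) (by
      filter_upwards [(isOpen_Ioi (a := (-1 : ℝ))).mem_nhds (show -1 < R z by linarith)] with s hs
      simpa using ((hasDerivAt_id s).const_add 1).log (show 1 + s ≠ 0 by linarith [mem_Ioi.1 hs]))
    (by simpa [neg_div] using ((hasDerivAt_id (R z)).const_add 1).fun_inv h0.ne') hR.sm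
  rw [e, Qf_add, Qf_add, Qf_smul, Qf_smul, Qf_gm (hR.sm.differentiableAt (by norm_num))]
  have e2 : (1 + R z) ^ 2 * (Qf W u + ((1 + R z)⁻¹ * Qf (cHess R z) u +
      -((1 + R z) ^ 2)⁻¹ * ‖Dv R z u‖ ^ 2)) =
      (1 + R z) ^ 2 * Qf W u + (1 + R z) * Qf (cHess R z) u - ‖Dv R z u‖ ^ 2 := by
    field_simp
    ring
  rw [e2]
  nlinarith [hR.le u, mul_nonneg hR.nn (Qf_nonneg hW u), Qf_nonneg hW u]

theorem sq_eq (f : Cm N → ℂ) : (fun y => ‖f y‖ ^ 2) = nh f fun _ => 0 := by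
  funext y
  simp [nh]

theorem good_sq (hW : W.PosSemidef) {f : Cm N → ℂ} (hf : AnalyticAt ℂ f z) :
    Good W (fun y => ‖f y‖ ^ 2) z := by
  rw [sq_eq]
  refine (good_nh hf contDiffAt_const).mono_form ?_
  rwa [C2.cHess_const, sub_zero]

theorem Qf_sq {f : Cm N → ℂ} (hf : AnalyticAt ℂ f z) (u : Fin N → ℂ) :
    Qf (cHess (fun y => ‖f y‖ ^ 2) z) u = ‖∑ b, conj (gd f z b) * u b‖ ^ 2 := by
  rw [← Qf_r1, sq_eq]
  congr 1
  ext j k
  rw [P301.H98.cHess_nh hf contDiffAt_const, C2.cHess_const]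
  simp [r1, Matrix.vecMulVec_apply, Dc, gd]

/-- **the pointwise bounds** -/
theorem ptw (hW : W.PosSemidef) {v : Cm N → ℝ} (hv : ContDiffAt ℝ 2 v z)
    (h : (W + cHess v z).PosSemidef) {r : ℕ} {g : Fin r → Cm N → ℂ}
    (hg : ∀ j, AnalyticAt ℂ (g j) z)
    (hA : A = W + cHess (fun y => Real.log (1 + (Real.exp (v y) + ∑ j, ‖g j y‖ ^ 2))) z) (i : Fin r) :
    (∀ j, ‖gd (g i) z ⬝ᵥ (S⁻¹ *ᵥ gd (g j) z)‖ ^ 2 ≤
      (1 + (Real.exp (v z) + ∑ j, ‖g j z‖ ^ 2)) ^ 4 * qd S A A) ∧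
    ‖gd (g i) z ⬝ᵥ (S⁻¹ *ᵥ gd (fun y => (Real.exp (v y / 2) : ℝ)) z)‖ ^ 2 ≤
      (1 + (Real.exp (v z) + ∑ j, ‖g j z‖ ^ 2)) ^ 4 * qd S A A := by
  have g1 := good_exp hv h
  have g2 := fun j => good_sq hW (hg j)
  have g3 := good_sum Finset.univ fun j _ => g2 j
  have g4 := g1.add g3
  have hd : DifferentiableAt ℝ v z := hv.differentiableAt (by norm_num)
  have hP : A.PosSemidef := by
    have g0 : Good W (fun _ => 1) z := by
      simpa using good_exp (Θ := W) (a := fun _ => 0) (z := z) contDiffAt_const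
        (by rwa [C2.cHess_const, add_zero])
    rw [hA]
    exact (g0.add g4).psd (add_pos_of_pos_of_nonneg one_pos g4.nn) hW.1
  have k := fun u => low hW g4 u
  simp only [← hA, C2.cHess_add g1.sm g3.sm, Qf_add, add_mul] at k
  have k1 : ∀ j u, ‖∑ b, conj (gd (g j) z b) * u b‖ ^ 2 ≤
      (1 + (Real.exp (v z) + ∑ j, ‖g j z‖ ^ 2)) ^ 2 * Qf A u := fun j u => by
    have g5 := good_sum (Finset.univ.erase j) fun j _ => g2 j
    have e : (fun y => ∑ j, ‖g j y‖ ^ 2) =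
        fun y => ‖g j y‖ ^ 2 + ∑ l ∈ Finset.univ.erase j, ‖g l y‖ ^ 2 :=
      funext fun y => (Finset.add_sum_erase _ _ (Finset.mem_univ j)).symm
    have a := k u
    rw [e, C2.cHess_add (g2 j).sm g5.sm, Qf_add, Qf_sq (hg j)] at a
    have b := g5.pos u
    have c := mul_nonneg (sq_nonneg ‖g j z‖) (Qf_nonneg hW u)
    have e' := congrFun e z
    simp only at e'
    rw [e'] at a ⊢
    nlinarith [g1.pos u]
  have k2 : ∀ u, ‖∑ b, conj (gd (fun y => (Real.exp (v y / 2) : ℝ)) z b) * u b‖ ^ 2 ≤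
      (1 + (Real.exp (v z) + ∑ j, ‖g j z‖ ^ 2)) ^ 2 * Qf A u := fun u => by
    have e : ∑ b, conj (gd (fun y => (Real.exp (v y / 2) : ℝ)) z b) * u b =
        Dv (fun y => Real.exp (v y / 2)) z u :=
      Finset.sum_congr rfl fun b _ => by
        rw [C2.dzb_real b (u := fun y => Real.exp (v y / 2)) (by fun_prop), gd]
    have a := g1.le u
    rw [Dv_chain (Real.hasDerivAt_exp _) hd, norm_mul, Complex.norm_real,
      Real.norm_of_nonneg (Real.exp_pos _).le, mul_pow, sq (Real.exp _), mul_assoc] at a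
    have b := le_of_mul_le_mul_left a (Real.exp_pos _)
    rw [e, Dv_chain (h := fun s => Real.exp (s / 2)) ((hasDerivAt_id (v z)).div_const 2).exp hd,
      norm_mul, Complex.norm_real, mul_pow, Real.norm_eq_abs, sq_abs, mul_pow, sq (Real.exp _),
      ← Real.exp_add, id, add_halves]
    nlinarith [g3.pos u, k u, mul_nonneg (Real.exp_pos (v z)).le (sq_nonneg ‖Dv v z u‖)]
  rw [show (4 : ℕ) = 2 * 2 from rfl, pow_mul]
  exact ⟨fun j => qd_low hP (sq_nonneg _) (k1 j) (k1 i), qd_low hP (sq_nonneg _) k2 (k1 i)⟩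

end Vale.Agent.P301Z.Sa.Lf
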