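import Vale.Agent.P301Z.Sa.Lf2
import Vale.Agent.P301.H450.Fuj
import Vale.Agent.P299.H167.VolChart

/-!
# P301Z: the integral estimate for the brackets
-/

open scoped Manifold ContDiff Topology ENNReal Matrix ComplexOrder
open Set Filter MeasureTheory
open Vale.Agent.P272.K Vale.Agent.P285Z.Ch Vale.Agent.P301.H599 Vale.Agent.P301.H450
open Vale.Agent.P285Z (sumN PSD)
open Vale.Agent.P301.H98 (IsSection nrm nh)
open Vale.Agent.P272.K.INT (IsClosedForm IsDensity intX)

set_option linter.unusedSectionVars false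

noncomputable section

namespace Vale.Agent.P301Z.Sa.Lf

theorem lim_of {N : ℕ} {U : Set (Cm N)} {f D : ℕ → Cm N → ℝ} {c : Cm N → ℝ}
    (hc : ContinuousOn c U) (h : ∀ k, ∀ z ∈ U, f k z ≤ c z * D k z) (h0 : ∀ k, ∀ z ∈ U, 0 ≤ D k z)
    (hD : Tendsto (fun k => ∫⁻ z in U, ENNReal.ofReal (D k z)) atTop (𝓝 0)) {K : Set (Cm N)}
    (hU : K ⊆ U) (hK : IsCompact K) :
    Tendsto (fun k => ∫⁻ z in K, ENNReal.ofReal (f k z)) atTop (𝓝 0) := by
  obtain ⟨C, hC⟩ := hK.exists_bound_of_continuousOn (hc.mono hU)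
  have t := ENNReal.Tendsto.const_mul (a := ENNReal.ofReal C) hD (.inr ENNReal.ofReal_ne_top)
  rw [mul_zero] at t
  refine tendsto_of_tendsto_of_tendsto_of_le_of_le tendsto_const_nhds t (fun _ => zero_le)
    fun k => le_trans ?_ (mul_le_mul_right (lintegral_mono_set hU) _)
  rw [← lintegral_const_mul' _ _ ENNReal.ofReal_ne_top]
  refine setLIntegral_mono' hK.measurableSet fun z hz => ?_
  rw [← ENNReal.ofReal_mul ((norm_nonneg _).trans (hC z hz))]
  exact ENNReal.ofReal_le_ofReal ((h k z (hU hz)).trans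
    (mul_le_mul_of_nonneg_right ((le_abs_self _).trans (hC z hz)) (h0 k z (hU hz))))

theorem zero_of {N : ℕ} {U : Set (Cm N)} (hU : IsOpen U) {f : Cm N → ℝ} (hf : ContinuousOn f U)
    (h : ∀ K ⊆ U, IsCompact K →
      Tendsto (fun _ : ℕ => ∫⁻ z in K, ENNReal.ofReal (f z)) atTop (𝓝 0)) {z : Cm N} (hz : z ∈ U) :
    f z ≤ 0 := by
  obtain ⟨K, h1, h2, h3⟩ := local_compact_nhds (hU.mem_nhds hz)
  have h4 := tendsto_nhds_unique tendsto_const_nhds (h K h2 h3)
  rw [lintegral_eq_zero_iff' ((hf.mono h2).aemeasurable h3.measurableSet).ennreal_ofReal] at h4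
  have h5 := Measure.eqOn_open_of_ae_eq (ae_restrict_of_ae_restrict_of_subset interior_subset h4)
    isOpen_interior (ENNReal.continuous_ofReal.comp_continuousOn
      (hf.mono (interior_subset.trans h2))) continuousOn_const (mem_interior_iff_mem_nhds.2 h1)
  exact ENNReal.ofReal_eq_zero.1 h5

theorem gd_cont {N : ℕ} {f : Cm N → ℂ} {z : Cm N} (h : AnalyticAt ℂ f z) (a : Fin N) :
    ContinuousAt (fun y => gd f y a) z := by
  refine (h.fderiv.continuousAt.clm_apply
    (continuousAt_const (y := (Pi.single a 1 : Cm N)))).congr ?_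
  filter_upwards [h.eventually_analyticAt] with y hy
  rw [← gd_hol hy, dotProduct_single, mul_one]

variable {d : ℕ} {X : Type} [TopologicalSpace X] [ChartedSpace (Cm d) X]
  [IsManifold 𝓘(ℂ, Cm d) ω X] [T2Space X] [CompactSpace X] {ι : Type} {M : LineBundle d X ι}
  {τ : ι → X → ℝ} {e : Chart d X} {x : X}

theorem lint_le {D : Chart d X → Cm d → ℝ} (hD : IsDensity D)
    (h0 : ∀ e x, At e x → 0 ≤ D e (e x)) (he : e ∈ atlas (Cm d) X) :
    ∫⁻ z in e.target, ENNReal.ofReal (D e z) ≤ ENNReal.ofReal (intX D) := by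
  borelize X
  have := AMP.isFiniteMeasure_volD hD
  have h1 := P299.H167.lintegral_volD hD h0 he (G := e.source.indicator 1)
    (measurable_one.indicator e.open_source.measurableSet) fun x hx => indicator_of_notMem hx _
  have h2 := AMP.integral_volD hD h0 (f := fun _ => 1) continuous_const
  simp only [one_mul, integral_const, smul_eq_mul, mul_one] at h2
  rw [lintegral_indicator_one e.open_source.measurableSet] at h1
  rw [← show (AMP.volD D).real univ = intX D from h2, ofReal_measureReal]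
  refine le_trans (le_of_eq ?_) (h1.ge.trans (measure_mono (subset_univ _)))
  refine setLIntegral_congr_fun e.open_target.measurableSet fun z hz => ?_
  simp only [indicator_of_mem (e.map_target hz), Pi.one_apply, mul_one]

theorem nrm_ev (hτ : IsMetric M τ) {f : ι → X → ℂ} (hf : IsSection M f) (hx : At e x) {i : ι}
    (hi : x ∈ M.U i) : (fun y => nrm M τ f (e.symm y)) =ᶠ[𝓝 (e x)]
      nh (fun z => f i (e.symm z)) fun z => τ i (e.symm z) := by
  filter_upwards [P301.H98.ev_mem hx hi] with y hy using P301.H98.nrm_symm hτ hf hy.2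

theorem nrm_sm (hτ : IsMetric M τ) {f : ι → X → ℂ} (hf : IsSection M f) :
    Smooth (d := d) (nrm M τ f) := fun e x hx => by
  obtain ⟨i, hi⟩ := M.cover x
  exact (P301.H98.contDiff_nh (m := ⊤) (hf.holo i e x hx hi)
    (hτ.smooth i e x hx hi)).congr_of_eventuallyEq (nrm_ev hτ hf hx hi)

theorem nrm_ne (hτ : IsMetric M τ) {f : ι → X → ℂ} (hf : IsSection M f) (hx : At e x)
    (h0 : nrm M τ f x ≠ 0) : ∀ᶠ y in 𝓝 (e x), nrm M τ f (e.symm y) ≠ 0 :=
  (nrm_sm hτ hf e x hx).continuousAt.eventually_ne (by rwa [hx.left_inv])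

theorem hess_log (hτ : IsMetric M τ) {f : ι → X → ℂ} (hf : IsSection M f) (hx : At e x)
    (h0 : nrm M τ f x ≠ 0) :
    cHess (fun y => Real.log (nrm M τ f (e.symm y))) (e x) = -curvature M τ e (e x) := by
  obtain ⟨i, hi⟩ := M.cover x
  have h1 : f i (e.symm (e x)) ≠ 0 := fun k => h0 (by
    rw [hx.left_inv] at k
    rw [P301.H98.nrm_eq hτ hf hi, k]
    simp)
  have h2 := hf.holo i e x hx hi
  have h3 : (fun y => Real.log (nrm M τ f (e.symm y))) =ᶠ[𝓝 (e x)]
      fun y => Real.log (‖f i (e.symm y)‖ ^ 2) - τ i (e.symm y) := by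
    filter_upwards [nrm_ev hτ hf hx hi, h2.continuousAt.eventually_ne h1] with y a b
    rw [a, nh, Real.log_mul (by positivity) (Real.exp_pos _).ne', Real.log_exp, sub_eq_add_neg]
  rw [C2.cHess_congr h3, C2.cHess_sub (((P301.H98.contDiff_f (m := 2) h2).norm_sq ℝ).log
    (by positivity)) ((hτ.smooth i e x hx hi).of_le (by norm_cast)),
    cHess_log_norm_sq h2.contDiffAt h1, zero_sub, curvature_eq hτ hx hi, ddc]

variable {r : ℕ} {σ : Fin (r + 1) → ι → X → ℂ} {w w' s : Chart d X → Cm d → Matrix (Fin d) (Fin d) ℂ}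
  {κ : ℝ}

/-- the ratios -/
def ra (M : LineBundle d X ι) (σ : Fin (r + 1) → ι → X → ℂ) (j : Fin r) (x : X) : ℂ :=
  σ j.succ (M.cover x).choose x / σ 0 (M.cover x).choose x

theorem ra_hol (hτ : IsMetric M τ) (hσ : ∀ j, IsSection M (σ j)) (hx : At e x)
    (h0 : nrm M τ (σ 0) x ≠ 0) (j : Fin r) : AnalyticAt ℂ (fun y => ra M σ j (e.symm y)) (e x) := by
  obtain ⟨i, hi⟩ := M.cover x
  refine (((hσ j.succ).holo i e x hx hi).fun_div ((hσ 0).holo i e x hx hi) fun k => h0 ?_).congr ?_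
  · rw [hx.left_inv] at k
    rw [P301.H98.nrm_eq hτ (hσ 0) hi, k]
    simp
  · filter_upwards [P301.H98.ev_mem hx hi] with y hy
    have k := (M.cover (e.symm y)).choose_spec
    rw [ra, (hσ 0).change i _ _ hy.2 k, (hσ j.succ).change i _ _ hy.2 k,
      mul_div_mul_left _ _ (M.ne_zero _ _ _ hy.2 k)]

/-- the weight -/
def cw (M : LineBundle d X ι) (τ : ι → X → ℝ) (σ : Fin (r + 1) → ι → X → ℂ)
    (s : Chart d X → Cm d → Matrix (Fin d) (Fin d) ℂ) (e : Chart d X) (z : Cm d) : ℝ :=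
  (1 + ((nrm M τ (σ 0) (e.symm z))⁻¹ + ∑ j, ‖ra M σ j (e.symm z)‖ ^ 2)) ^ 4 / ‖(s e z).det‖

/-- **the estimate** -/
theorem est (S : SData s w' κ) (hw : IsKahler w) (hτ : IsMetric M τ)
    (hq : q s (curvature M τ) (curvature M τ) = 0) (hσ : ∀ j, IsSection M (σ j)) {ε : ℝ}
    (hε : 0 ≤ ε) {φ : X → ℝ} (hφ : Smooth (d := d) φ) (h0 : ∀ x, φ x ≤ 0)
    (hp : PSD fun e z => curvature M τ e z + (ε : ℂ) • w e z + ddc φ e z) :
    ∃ D : Chart d X → Cm d → ℝ, IsDensity D ∧ (∀ e x, At e x → 0 ≤ D e (e x)) ∧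
      intX D = ε * (2 * q s (curvature M τ) w + ε * q s w w) ∧
      ∀ e x, At e x → nrm M τ (σ 0) x ≠ 0 → ∀ i,
        (∀ j, ‖gd (fun y => ra M σ i (e.symm y)) (e x) ⬝ᵥ ((s e (e x))⁻¹ *ᵥ
          gd (fun y => ra M σ j (e.symm y)) (e x))‖ ^ 2 ≤ cw M τ σ s e (e x) * D e (e x)) ∧
        ‖gd (fun y => ra M σ i (e.symm y)) (e x) ⬝ᵥ ((s e (e x))⁻¹ *ᵥ gd (fun y =>
          (Real.exp ((φ (e.symm y) - Real.log (nrm M τ (σ 0) (e.symm y))) / 2) : ℝ)) (e x))‖ ^ 2 ≤
            cw M τ σ s e (e x) * D e (e x) := by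
  have hS : Smooth (d := d) fun x => sumN M τ σ x + Real.exp (φ x) := fun e x hx =>
    (sumN_smooth hτ hσ e x hx).add (sm_comp Real.contDiff_exp hφ e x hx)
  have hpos : ∀ x, 0 < sumN M τ σ x + Real.exp (φ x) := fun x =>
    add_pos_of_nonneg_of_pos (sumN_nonneg x) (Real.exp_pos _)
  have hΛ : SmoothFn (n := d) fun x => Real.log (sumN M τ σ x + Real.exp (φ x)) :=
    sm_comp' (fun x => Real.contDiffAt_log.2 (hpos x).ne') hS
  have cθ := (P301.H98.rform_curvature hτ).closed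
  have c0 := INT.IsKahler.isClosedForm hw
  have c1 : IsClosedForm fun e z => curvature M τ e z + (ε : ℂ) • w e z := cθ.add (c0.smul _)
  have c2 := c1.add (isClosed_ddc hΛ)
  have hW : ∀ e x, At e x → ((ε : ℂ) • w e (e x)).PosSemidef := fun e x hx =>
    psd_smul hε (hw.posDef e x hx).posSemidef
  have hG : ∀ e x, At e x → (curvature M τ e (e x) + (ε : ℂ) • w e (e x) +
      ddc (fun x => Real.log (sumN M τ σ x + Real.exp (φ x))) e (e x)).PosSemidef := fun e x hx =>
    (((good_sumN hτ hσ hx).mono_form (by simpa using hW e x hx)).add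
      (good_exp (sm_two hφ hx) (hp e x hx))).psd (hpos _) ((curv_herm hτ hx).add (hW e x hx).1)
  have hD : ∀ (B : Matrix (Fin d) (Fin d) ℂ) (A : Chart d X → Cm d → Matrix (Fin d) (Fin d) ℂ) e z,
      (B * kf s A e z).trace.re = ‖(s e z).det‖ * qd (s e z) B (A e z) := fun B A e z => by
    rw [kf, Matrix.mul_smul, Matrix.trace_smul, smul_eq_mul, Complex.re_ofReal_mul, qd]
  refine ⟨_, q_dens S c2 c2, fun e x hx => ?_, ?_, fun e x hx hn i => ?_⟩
  · rw [hD]
    exact mul_nonneg (norm_nonneg _) (qd_nonneg (hG e x hx) (hG e x hx))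
  · refine (q_addH S c1 hΛ).trans ?_
    rw [q_add_left S cθ (c0.smul _) c1, q_add_right S cθ cθ (c0.smul _),
      q_add_right S (c0.smul _) cθ (c0.smul _), q_smul_left, q_smul_left, q_smul_right S,
      q_smul_right S, q_symm S w, hq]
    ring
  · have l1 : ContDiffAt ℝ 2 (fun y => Real.log (nrm M τ (σ 0) (e.symm y))) (e x) :=
      (sm_two (nrm_sm hτ (hσ 0)) hx).log (by rwa [hx.left_inv])
    have l2 := hess_log hτ (hσ 0) hx hn
    have l3 := (sm_two hφ hx).sub l1
    have l4 := fun j => ra_hol hτ hσ hx hn j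
    have l5 : (fun y => Real.log (sumN M τ σ (e.symm y) + Real.exp (φ (e.symm y)))) =ᶠ[𝓝 (e x)]
        fun y => Real.log (nrm M τ (σ 0) (e.symm y)) + Real.log (1 + (Real.exp (φ (e.symm y) -
          Real.log (nrm M τ (σ 0) (e.symm y))) + ∑ j, ‖ra M σ j (e.symm y)‖ ^ 2)) := by
      filter_upwards [nrm_ne hτ (hσ 0) hx hn] with y hy
      have a : 0 < nrm M τ (σ 0) (e.symm y) := (P301.H98.nrm_nonneg _).lt_of_ne hy.symm
      have b : σ 0 (M.cover (e.symm y)).choose (e.symm y) ≠ 0 := fun k => hy (by simp [nrm, k])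
      rw [← Real.log_mul hy (by positivity), Real.exp_sub, Real.exp_log a, sumN,
        Fin.sum_univ_succ, mul_add, mul_add, mul_one, mul_div_cancel₀ _ hy, Finset.mul_sum,
        add_assoc, add_comm (Real.exp _)]
      refine congrArg (fun t => Real.log (_ + (t + _))) (Finset.sum_congr rfl fun j _ => ?_)
      rw [ra, nrm, nrm, norm_div]
      field_simp
    have k := ptw (S := s e (e x)) (hW e x hx) l3 (by
      rw [C2.cHess_sub (sm_two hφ hx) l1, l2, sub_neg_eq_add, ← add_assoc, add_comm, ← add_assoc]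
      exact hp e x hx) l4 (A := curvature M τ e (e x) + (ε : ℂ) • w e (e x) +
        ddc (fun x => Real.log (sumN M τ σ x + Real.exp (φ x))) e (e x)) (by
      rw [ddc, C2.cHess_congr l5, C2.cHess_add l1 ((contDiffAt_const.add (l3.exp.add
        (ContDiffAt.sum fun j _ => (P301.H98.contDiff_f (m := 2) (l4 j)).norm_sq ℝ))).log
          (by positivity)), l2]
      abel) i
    have hs : ‖(s e (e x)).det‖ ≠ 0 := norm_ne_zero_iff.2 (S.nondeg e x hx)
    rw [hD, cw, ← mul_assoc, div_mul_cancel₀ _ hs]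
    have a : 0 < nrm M τ (σ 0) (e.symm (e x)) :=
      (P301.H98.nrm_nonneg _).lt_of_ne (by rw [hx.left_inv]; exact hn.symm)
    have b := mul_le_mul_of_nonneg_right (pow_le_pow_left₀ (by positivity)
      (add_le_add (le_refl (1 : ℝ)) (add_le_add (show Real.exp (φ (e.symm (e x)) -
        Real.log (nrm M τ (σ 0) (e.symm (e x)))) ≤ (nrm M τ (σ 0) (e.symm (e x)))⁻¹ by
          rw [Real.exp_sub, Real.exp_log a, ← one_div]
          exact div_le_div_of_nonneg_right (Real.exp_le_one_iff.2 (h0 _)) a.le)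
        (le_refl (∑ j, ‖ra M σ j (e.symm (e x))‖ ^ 2)))) 4)
      (qd_nonneg (S := s e (e x)) (hG e x hx) (hG e x hx))
    exact ⟨fun j => (k.1 j).trans b, k.2.trans b⟩

end Vale.Agent.P301Z.Sa.Lf
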