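import Mathlib.Analysis.Calculus.InverseFunctionTheorem.ApproximatesLinearOn
import Mathlib.Analysis.Calculus.ContDiff.RCLike
import Mathlib.Analysis.Calculus.FDeriv.Analytic
import Mathlib.Analysis.Calculus.MeanValue
import Mathlib.Analysis.Analytic.IsolatedZeros
import Mathlib.Analysis.Analytic.Uniqueness
import Mathlib.Analysis.Complex.Basic
import Mathlib.Topology.Instances.Matrix
import Mathlib.Topology.Algebra.Module.FiniteDimension
import Mathlib.LinearAlgebra.Matrix.Adjugate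

/-!
# P301Z, block ABUN: a quantitative open mapping theorem
-/

open scoped Topology NNReal Matrix
open Set Filter Metric Function

noncomputable section

namespace Vale.Agent.P301Z.Sa.Qom

variable {E : Type} [NormedAddCommGroup E] [NormedSpace ℂ E]

theorem line {P : E → ℂ} (hP : AnalyticAt ℂ P 0) (h : ¬ ∀ᶠ z in 𝓝 0, P z = 0) :
    ∃ (ξ : E) (k : ℕ) (c : ℝ), 0 < c ∧ ∀ᶠ t : ℝ in 𝓝[>] 0, c * t ^ k ≤ ‖P ((t : ℂ) • ξ)‖ := by
  obtain ⟨ε, e0, e1⟩ := Metric.eventually_nhds_iff_ball.1 hP.eventually_analyticAt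
  obtain ⟨ξ, x1, x2⟩ : ∃ ξ ∈ ball (0 : E) ε, P ξ ≠ 0 := by
    by_contra k
    push Not at k
    exact h (mem_of_superset (ball_mem_nhds 0 e0) k)
  have a : ∀ t : ℂ, AnalyticAt ℂ (fun t : ℂ => t • ξ) t := fun t => analyticAt_id.smul analyticAt_const
  have b : AnalyticAt ℂ (fun t : ℂ => P (t • ξ)) 0 := hP.comp_of_eq (a 0) (zero_smul _ _)
  obtain ⟨k, g, g1, g2, g3⟩ := b.exists_eventuallyEq_pow_smul_nonzero_iff.2 fun k => x2 (by
    have := AnalyticOnNhd.eqOn_zero_of_preconnected_of_eventuallyEq_zero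
      (f := fun t : ℂ => P (t • ξ)) (U := closedBall 0 1) (fun t ht => (e1 _ (by
        rw [mem_ball_zero_iff, norm_smul]
        exact (mul_le_of_le_one_left (norm_nonneg _) (mem_closedBall_zero_iff.1 ht)).trans_lt
          (mem_ball_zero_iff.1 x1))).comp_of_eq (a t) rfl)
      (convex_closedBall 0 1).isPreconnected (mem_closedBall_self zero_le_one) k
      (mem_closedBall_zero_iff.2 norm_one.le)
    simpa using this)
  have c0 := half_pos (norm_pos_iff.2 g2)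
  refine ⟨ξ, k, _, c0, ?_⟩
  have t : Tendsto (fun t : ℝ => (t : ℂ)) (𝓝[>] 0) (𝓝 0) :=
    (Complex.continuous_ofReal.tendsto' 0 0 rfl).mono_left nhdsWithin_le_nhds
  filter_upwards [t.eventually (g3.and (g1.continuousAt.norm.eventually
    (lt_mem_nhds (half_lt_self (norm_pos_iff.2 g2))))), self_mem_nhdsWithin] with t c d
  rw [c.1, sub_zero, norm_smul, norm_pow, Complex.norm_real, Real.norm_of_nonneg (le_of_lt d),
    mul_comm]
  exact mul_le_mul_of_nonneg_left c.2.le (pow_nonneg (le_of_lt d) _)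

theorem mul_ne {a b : E → ℂ} (ha : AnalyticAt ℂ a 0) (hb : AnalyticAt ℂ b 0)
    (h : ¬ ∀ᶠ z in 𝓝 0, a z = 0) (h' : ¬ ∀ᶠ z in 𝓝 0, b z = 0) : ¬ ∀ᶠ z in 𝓝 0, a z * b z = 0 := by
  intro k
  obtain ⟨ε, e0, e1⟩ := Metric.eventually_nhds_iff_ball.1 ((ha.eventually_analyticAt.and
    hb.eventually_analyticAt).and k.eventually_nhds)
  obtain ⟨z, z1, z2⟩ := ((not_eventually.1 h).and_eventually (ball_mem_nhds 0 e0)).exists
  refine h' (mem_of_superset (ball_mem_nhds 0 e0)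
    (AnalyticOnNhd.eqOn_zero_of_preconnected_of_eventuallyEq_zero (fun y c => (e1 y c).1.2)
      (convex_ball 0 ε).isPreconnected z2 ?_))
  filter_upwards [(e1 z z2).2, (e1 z z2).1.1.continuousAt.eventually_ne z1] with y c d
    using (mul_eq_zero.1 c).resolve_left d

theorem adj {d : ℕ} {φ : E → Fin d → ℂ} [CompleteSpace E] [FiniteDimensional ℂ E]
    (hφ : AnalyticAt ℂ φ 0) (hs : ∃ᶠ z in 𝓝 0, Surjective (fderiv ℂ φ z)) :
    ∃ (Δ : E → ℂ) (R : E → (Fin d → ℂ) →L[ℂ] E), AnalyticAt ℂ Δ 0 ∧ (¬ ∀ᶠ z in 𝓝 0, Δ z = 0) ∧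
      ContinuousAt R 0 ∧ ∀ z y, fderiv ℂ φ z (R z y) = Δ z • y := by
  obtain ⟨ε, e0, e1⟩ := Metric.eventually_nhds_iff_ball.1 hφ.eventually_analyticAt
  obtain ⟨z₀, z1, z2⟩ := (hs.and_eventually (ball_mem_nhds 0 e0)).exists
  obtain ⟨N, hN⟩ := (fderiv ℂ φ z₀ : E →ₗ[ℂ] Fin d → ℂ).exists_rightInverse_of_surjective
    (LinearMap.range_eq_top.2 z1)
  let M : E → Matrix (Fin d) (Fin d) ℂ := fun z =>
    LinearMap.toMatrix' ((fderiv ℂ φ z : E →ₗ[ℂ] Fin d → ℂ) ∘ₗ N)
  have a : ∀ z ∈ ball (0 : E) ε, ∀ i j, AnalyticAt ℂ (fun z => M z i j) z := fun z hz i j => by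
    simp only [M, LinearMap.toMatrix'_apply]
    exact analyticAt_pi_iff.1 (((ContinuousLinearMap.apply ℂ (Fin d → ℂ) _).analyticAt _).fun_comp
      (e1 z hz).fderiv) i
  have b : ∀ z ∈ ball (0 : E) ε, AnalyticAt ℂ (fun z => (M z).det) z := fun z hz => by
    simp only [Matrix.det_apply']
    exact Finset.analyticAt_fun_sum _ fun σ _ =>
      analyticAt_const.mul (Finset.analyticAt_fun_prod _ fun i _ => a z hz _ _)
  let T : Matrix (Fin d) (Fin d) ℂ →ₗ[ℂ] (Fin d → ℂ) →L[ℂ] E :=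
    LinearMap.toContinuousLinearMap.toLinearMap ∘ₗ LinearMap.llcomp ℂ _ _ _ N ∘ₗ
      Matrix.toLin'.toLinearMap
  refine ⟨fun z => (M z).det, fun z => T (M z).adjugate, b 0 (mem_ball_self e0), fun k => ?_,
    T.continuous_of_finiteDimensional.continuousAt.comp
      (continuous_id.matrix_adjugate.continuousAt.comp (continuousAt_pi.2 fun i =>
        continuousAt_pi.2 fun j => (a 0 (mem_ball_self e0) i j).continuousAt)), fun z y => ?_⟩
  · have := AnalyticOnNhd.eqOn_zero_of_preconnected_of_eventuallyEq_zero b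
      (convex_ball 0 ε).isPreconnected (mem_ball_self e0) k z2
    simp [M, hN] at this
  · have : M z *ᵥ ((M z).adjugate *ᵥ y) = (M z).det • y := by
      rw [Matrix.mulVec_mulVec, Matrix.mul_adjugate, Matrix.smul_mulVec, Matrix.one_mulVec]
    rw [← this, ← Matrix.toLin'_apply (M z), Matrix.toLin'_toMatrix']
    rfl

/-- the image of a small ball contains a ball whose radius is a power -/
theorem qom {d : ℕ} {φ : E → Fin d → ℂ} [CompleteSpace E] [FiniteDimensional ℂ E] {θ : E → ℂ}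
    (hφ : AnalyticAt ℂ φ 0) (hs : ∃ᶠ z in 𝓝 0, Surjective (fderiv ℂ φ z))
    (hθ : AnalyticAt ℂ θ 0) (h0 : ¬ ∀ᶠ z in 𝓝 0, θ z = 0) :
    ∃ M : ℕ, ∀ᶠ r : ℝ in 𝓝[>] 0, ∃ y, closedBall y (r ^ M) ⊆ φ '' {z | ‖z‖ < r ∧ θ z ≠ 0} := by
  obtain ⟨Δ, R, d1, d2, d3, d4⟩ := adj hφ hs
  obtain ⟨ξ, k, c, c0, hc⟩ := line (d1.fun_mul hθ) (mul_ne d1 hθ d2 h0)
  obtain ⟨K, s1, s1', hK⟩ := (hφ.fderiv.contDiffAt (n := 1)).exists_lipschitzOnWith
  obtain ⟨K', s2, s2', hK'⟩ := (hθ.contDiffAt (n := 1)).exists_lipschitzOnWith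
  set B := ‖Δ 0‖ + ‖θ 0‖ + ‖R 0‖ + 1
  have n1 := norm_nonneg (Δ 0)
  have n2 := norm_nonneg (θ 0)
  have n3 := norm_nonneg (R 0)
  have B0 : 0 < B := by positivity
  obtain ⟨ε, e0, e1⟩ := Metric.eventually_nhds_iff_ball.1 (hφ.eventually_analyticAt.and
    ((Filter.Eventually.and s1' s2').and ((d1.continuousAt.norm.eventually
      (gt_mem_nhds (show ‖Δ 0‖ < B by linarith))).and ((hθ.continuousAt.norm.eventually
        (gt_mem_nhds (show ‖θ 0‖ < B by linarith))).and (d3.norm.eventually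
          (gt_mem_nhds (show ‖R 0‖ < B by linarith)))))))
  set a := (2 * (‖ξ‖ + 1))⁻¹
  have a0 : 0 < a := by positivity
  set c' := c * a ^ k / B
  have c0' : 0 < c' := by positivity
  have small : ∀ u v : ℝ, 0 < v → ∀ᶠ r : ℝ in 𝓝[>] 0, u * r < v := fun u v hv =>
    (((continuous_const.mul continuous_id).tendsto' 0 0 (mul_zero u)).mono_left
      nhdsWithin_le_nhds).eventually (gt_mem_nhds hv)
  have t : Tendsto (fun r : ℝ => a * r) (𝓝[>] 0) (𝓝[>] 0) := tendsto_nhdsWithin_iff.2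
    ⟨((continuous_const.mul continuous_id).tendsto' 0 0 (mul_zero a)).mono_left nhdsWithin_le_nhds,
      mem_of_superset self_mem_nhdsWithin fun r hr => mul_pos a0 hr⟩
  refine ⟨2 * k + 3, ?_⟩
  filter_upwards [t.eventually hc, self_mem_nhdsWithin, small 1 ε e0, small 2 1 one_pos,
    small K' c' c0', small (K + 1) (c' / B) (by positivity)] with r r1 (r0 : 0 < r) r2 r3 r4 r5
  set z := ((a * r : ℝ) : ℂ) • ξ
  have z1 : ‖z‖ ≤ r / 2 := by
    rw [norm_smul, Complex.norm_real, Real.norm_of_nonneg (mul_pos a0 r0).le]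
    have : a * (2 * (‖ξ‖ + 1)) = 1 := inv_mul_cancel₀ (by positivity)
    nlinarith [mul_pos a0 r0, norm_nonneg ξ]
  have p0 : 0 < r ^ k := pow_pos r0 k
  have p1 : r ^ k ≤ 1 := pow_le_one₀ r0.le (by linarith)
  set ρ := r ^ k * r * r
  have ρ0 : 0 < ρ := by positivity
  have ρ1 : ρ ≤ r ^ k * r := mul_le_of_le_one_right (by positivity) (by linarith)
  have ρ2 : ρ < r / 2 := by
    have : r ^ k * r ≤ r := mul_le_of_le_one_left r0.le p1
    nlinarith
  have in1 : ∀ w ∈ closedBall z ρ, ‖w‖ < r := fun w hw => by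
    have := norm_le_norm_add_norm_sub' w z
    rw [mem_closedBall, dist_eq_norm] at hw
    linarith
  have in2 := fun w hw => e1 w (mem_ball_zero_iff.2 ((in1 w hw).trans (by linarith)))
  have zz := in2 z (mem_closedBall_self ρ0.le)
  rw [norm_mul, mul_pow] at r1
  have l1 : c' * r ^ k ≤ ‖Δ z‖ := by
    rw [div_mul_eq_mul_div, div_le_iff₀ B0, mul_assoc]
    exact r1.trans (mul_le_mul_of_nonneg_left zz.2.2.2.1.le (norm_nonneg _))
  have l2 : c' * r ^ k ≤ ‖θ z‖ := by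
    rw [div_mul_eq_mul_div, div_le_iff₀ B0, mul_assoc, mul_comm _ B]
    exact r1.trans (mul_le_mul_of_nonneg_right zz.2.2.1.le (norm_nonneg _))
  have D0 : Δ z ≠ 0 := norm_pos_iff.1 ((mul_pos c0' p0).trans_le l1)
  have ap : ApproximatesLinearOn φ (fderiv ℂ φ z) (closedBall z ρ) (K * NNReal.mk ρ ρ0.le) :=
    fun x hx y hy => (convex_closedBall z ρ).norm_image_sub_le_of_norm_fderiv_le'
      (fun w hw => (in2 w hw).1.differentiableAt) (fun w hw => by
        rw [← dist_eq_norm]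
        exact (hK.dist_le_mul _ (in2 w hw).2.1.1 _ zz.2.1.1).trans
          (mul_le_mul_of_nonneg_left hw K.2)) hy hx
  have q0 : 0 < B / (c' * r ^ k) := by positivity
  have sj := ap.surjOn_closedBall_of_nonlinearRightInverse
    ⟨fun y => (Δ z)⁻¹ • R z y, NNReal.mk _ q0.le, fun y => by
      rw [norm_smul, norm_inv, NNReal.coe_mk, div_eq_inv_mul, mul_assoc]
      exact mul_le_mul (inv_anti₀ (mul_pos c0' p0) l1) ((R z).le_of_opNorm_le zz.2.2.2.2.le y)
        (norm_nonneg _) (by positivity), fun y => by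
      rw [map_smul, d4, inv_smul_smul₀ D0]⟩ ρ0.le Subset.rfl
  refine ⟨φ z, (closedBall_subset_closedBall ?_).trans (Subset.trans sj (image_mono fun w hw =>
    ⟨in1 w hw, fun h => ?_⟩))⟩
  · simp only [NNReal.coe_mk, NNReal.coe_mul, inv_div]
    rw [show r ^ (2 * k + 3) = r ^ k * r * ρ by simp only [ρ]; ring]
    refine mul_le_mul_of_nonneg_right ?_ ρ0.le
    have := mul_le_mul_of_nonneg_left ρ1 K.2
    have := mul_lt_mul_of_pos_right r5 p0
    rw [show c' * r ^ k / B = c' / B * r ^ k by ring]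
    simp only [NNReal.val_eq_coe] at *
    nlinarith
  · have := hK'.dist_le_mul _ zz.2.1.2 _ (in2 w hw).2.1.2
    rw [h, dist_zero_right, dist_comm] at this
    have h1 := mul_le_mul_of_nonneg_left ((mem_closedBall.1 hw).trans ρ1) K'.2
    have := mul_lt_mul_of_pos_right r4 p0
    simp only [NNReal.val_eq_coe] at *
    nlinarith

end Vale.Agent.P301Z.Sa.Qom
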