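import Vale.Agent.P281Z.An.Rk
import Vale.Agent.P281Z.Mf.Adapt
import Vale.Agent.P277Z.Pj.Br
import Vale.Agent.P277Z.Pj.Bdd

/-!
# P301Z, block ABUN: proper maps in equal dimensions are onto; norms along finite fibres
-/

open scoped Manifold ContDiff Topology
open Set Filter Function Metric
open Vale.Agent.P272.K Vale.Agent.P277.H762 Vale.Agent.P281Z Vale.Agent.P281Z.Ana
open Vale.Agent.P277Z (Hol at_chart)
open Vale.Agent.P277Z.Pj (Enum)

set_option linter.unusedSectionVars false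

noncomputable section

namespace Vale.Agent.P301Z.Sa.Sl

theorem img_closed {A B : Type} [TopologicalSpace A] [TopologicalSpace B] [T2Space B]
    [LocallyCompactSpace B] {O S : Set A} {Ω : Set B} {Φ : A → B} (hΩ : IsOpen Ω)
    (hc : ContinuousOn Φ O) (hp : ∀ K ⊆ Ω, IsCompact K → IsCompact (O ∩ Φ ⁻¹' K))
    (hS : ∀ z ∈ O, z ∉ S → ∀ᶠ w in 𝓝 z, w ∉ S) {b : B} (hb : b ∈ Ω)
    (h : b ∈ closure (Φ '' (O ∩ S))) : b ∈ Φ '' (O ∩ S) := by
  obtain ⟨K, h1, h2, h3⟩ := local_compact_nhds (hΩ.mem_nhds hb)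
  have h4 : IsCompact ((O ∩ Φ ⁻¹' K) \ interior Sᶜ) := (hp K h2 h3).diff isOpen_interior
  have h5 := (h4.image_of_continuousOn (hc.mono fun z hz => hz.1.1)).isClosed
  have h6 : b ∈ closure (Φ '' ((O ∩ Φ ⁻¹' K) \ interior Sᶜ)) := by
    refine mem_closure_iff_frequently.2
      (((mem_closure_iff_frequently.1 h).and_eventually h1).mono ?_)
    rintro _ ⟨⟨z, hz, rfl⟩, k⟩
    exact ⟨z, ⟨⟨hz.1, k⟩, fun l => interior_subset l hz.2⟩, rfl⟩
  obtain ⟨z, hz, e⟩ := h5.closure_subset h6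
  exact ⟨z, ⟨hz.1.1, by_contra fun k => hz.2 (mem_interior_iff_mem_nhds.2 (hS z hz.1.1 k))⟩, e⟩

theorem onto0 {k : ℕ} {O B : Set (Cm (k + 1))} {Φ : Cm (k + 1) → Cm (k + 1)} (hO : IsOpen O)
    (hB : IsOpen B) (hc : IsPreconnected B) (ha : ∀ z ∈ O, AnalyticAt ℂ Φ z)
    (hp : ∀ K ⊆ B, IsCompact K → IsCompact (O ∩ Φ ⁻¹' K)) {z₀ : Cm (k + 1)} (h0 : z₀ ∈ O)
    (h0' : Φ z₀ ∈ B) (hi : Surjective (fderiv ℂ Φ z₀)) : B ⊆ Φ '' O := by
  have hE := cvrk _ _ k O Φ hO ha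
  set E := Φ '' {z | z ∈ O ∧ rk (fderiv ℂ Φ z) ≤ k}
  have hE' : Cv k (B ∩ E) := hE.mono inter_subset_right
  have h1 : ∀ b ∈ B, b ∈ closure (Φ '' O) → b ∈ Φ '' O := fun b hb h => by
    have := img_closed (S := univ) hB (fun z hz => (ha z hz).continuousAt.continuousWithinAt) hp
      (fun _ _ k => (k trivial).elim) hb (by rwa [inter_univ])
    rwa [inter_univ] at this
  have h2 : ∀ z ∈ O, Surjective (fderiv ℂ Φ z) → Φ z ∈ interior (Φ '' O) := fun z hz h => by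
    rw [mem_interior_iff_mem_nhds, ← (ha z hz).hasStrictFDerivAt.map_nhds_eq_of_surj
      (LinearMap.range_eq_top.2 h)]
    exact image_mem_map (hO.mem_nhds hz)
  have h3 : B \ E ⊆ interior (Φ '' O) := by
    refine (P277Z.Pj.conn k B E hB hc hE').subset_of_closure_inter_subset isOpen_interior ?_ ?_
    · obtain ⟨b, k1, k2⟩ := mem_closure_iff_nhds.1 (hE'.mem_closure (by simp) hB h0') _
        (isOpen_interior.mem_nhds (h2 z₀ h0 hi))
      exact ⟨b, k2, k1⟩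
    · rintro b ⟨k1, k2⟩
      obtain ⟨z, hz, rfl⟩ := h1 b k2.1 (closure_mono interior_subset k1)
      refine h2 z hz ((rk_eq_iff_surj _).1 (le_antisymm (rk_le_right _) ?_))
      exact Nat.succ_le_of_lt (lt_of_not_ge fun k => k2.2 ⟨z, ⟨hz, k⟩, rfl⟩)
  exact fun b hb => h1 b hb
    (closure_mono (h3.trans interior_subset) (hE'.mem_closure (by simp) hB hb))

/-- a proper map which is somewhere a local isomorphism is onto -/
theorem onto {E : Type} [NormedAddCommGroup E] [NormedSpace ℂ E] [FiniteDimensional ℂ E] {k : ℕ}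
    (hk : Module.finrank ℂ E = k + 1) {O B : Set E} {Φ : E → E} (hO : IsOpen O)
    (hB : IsOpen B) (hc : IsPreconnected B) (ha : ∀ z ∈ O, AnalyticAt ℂ Φ z)
    (hp : ∀ K ⊆ B, IsCompact K → IsCompact (O ∩ Φ ⁻¹' K)) {z₀ : E} (h0 : z₀ ∈ O)
    (h0' : Φ z₀ ∈ B) (hi : Surjective (fderiv ℂ Φ z₀)) : B ⊆ Φ '' O := by
  let L : E ≃L[ℂ] Cm (k + 1) := ContinuousLinearEquiv.ofFinrankEq (by simpa using hk)
  have h1 := onto0 (O := L.symm ⁻¹' O) (B := L.symm ⁻¹' B) (Φ := fun z => L (Φ (L.symm z)))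
    (hO.preimage L.symm.continuous) (hB.preimage L.symm.continuous)
    (L.symm.toHomeomorph.isPreconnected_preimage.2 hc)
    (fun z hz => (L.analyticAt _).comp ((ha _ hz).comp (L.symm.analyticAt z))) (fun K k1 k2 => ?_)
    (z₀ := L z₀) (by simpa using h0) (by simpa using h0') ?_
  · intro b hb
    obtain ⟨z, k1, k2⟩ := h1 (show L b ∈ L.symm ⁻¹' B by simpa using hb)
    exact ⟨_, k1, L.injective k2⟩
  · exact L.symm.toHomeomorph.isCompact_preimage.2 (hp (L ⁻¹' K) (fun z hz => by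
      simpa using k1 hz) (L.toHomeomorph.isCompact_preimage.2 k2))
  · have h2 : HasFDerivAt Φ (fderiv ℂ Φ z₀) (L.symm (L z₀)) := by
      rw [L.symm_apply_apply]; exact (ha _ h0).differentiableAt.hasFDerivAt
    rw [show fderiv ℂ (fun z => L (Φ (L.symm z))) (L z₀) = _ from
      (L.hasFDerivAt.comp _ (h2.comp _ L.symm.hasFDerivAt)).fderiv]
    exact L.surjective.comp (hi.comp L.symm.surjective)

theorem at_self {n : ℕ} {e : Chart n (Cm n)} {w : Cm n} (he : At e w) :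
    e = OpenPartialHomeomorph.refl _ := by simpa using he.1

theorem hol_self {n : ℕ} {φ : Cm n → ℂ} {w : Cm n} (h : AnalyticAt ℂ φ w) : Hol n φ w :=
  fun e he => by rw [at_self he]; exact h

theorem anV_self {n : ℕ} {E : Type} [NormedAddCommGroup E] [NormedSpace ℂ E] {φ : Cm n → E}
    {w : Cm n} (h : AnalyticAt ℂ φ w) : AnV n φ w :=
  fun e he => by rw [at_self he]; exact h

variable {r : ℕ} {Z : Type} [TopologicalSpace Z] [ChartedSpace (Cm (r + 1)) Z]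
  {W : Set (Cm (r + 1))} {F : Cm (r + 1) → Z} {Ω : Set Z}

/-- `F` is proper over `Ω` -/
structure PF (W : Set (Cm (r + 1))) (F : Cm (r + 1) → Z) (Ω : Set Z) : Prop where
  opn : IsOpen W
  opn' : IsOpen Ω
  hol : ∀ w ∈ W, HolA (r + 1) (r + 1) F w
  prp : ∀ K ⊆ Ω, IsCompact K → IsCompact (W ∩ F ⁻¹' K)

/-- the critical values -/
def crit (W : Set (Cm (r + 1))) (F : Cm (r + 1) → Z) : Set Z :=
  F '' (W ∩ {w | ¬ Imm (r + 1) (r + 1) F w})

variable [T2Space Z] [LocallyCompactSpace Z] [SecondCountableTopology Z]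
  [IsManifold 𝓘(ℂ, Cm (r + 1)) ω Z]

theorem PF.cont (h : PF W F Ω) : ContinuousOn F W := fun w hw =>
  (h.hol w hw).cont.continuousWithinAt

theorem PF.open_diff (h : PF W F Ω) : IsOpen (Ω \ crit W F) := by
  refine isOpen_iff_mem_nhds.2 fun b hb => inter_mem (h.opn'.mem_nhds hb.1) ?_
  refine mem_of_superset (isClosed_closure.isOpen_compl.mem_nhds fun k => hb.2 ?_)
    (compl_subset_compl.2 (subset_closure (s := crit W F)))
  refine img_closed h.opn' h.cont h.prp (fun z hz l => ?_) hb.1 k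
  exact ((not_not.1 l).near (h.hol z hz)).mono fun _ => not_not.2

theorem PF.cv (h : PF W F Ω) {c : Chart (r + 1) Z} (hc : c ∈ atlas (Cm (r + 1)) Z) :
    Cv r (c.target ∩ c.symm ⁻¹' (Ω ∩ crit W F)) := by
  have h1 : ∀ w ∈ W ∩ F ⁻¹' c.source, AnalyticAt ℂ (fun z => c (F z)) w := fun w hw =>
    (h.hol w hw.1).an (at_chart w) ⟨hc, hw.2⟩
  refine (cvrk _ _ r _ _ (h.cont.isOpen_inter_preimage h.opn c.open_source) h1).mono ?_
  rintro t ⟨k1, -, w, k2, k3⟩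
  have k4 : F w ∈ c.source := k3 ▸ c.map_target k1
  refine ⟨w, ⟨⟨k2.1, k4⟩, Nat.le_of_lt_succ (lt_of_le_of_ne (rk_le_right _) fun k => k2.2 ?_)⟩,
    by simp only [k3, c.right_inv k1]⟩
  exact imm_iff_sbm.2 (Sbm.of_chart (h.hol w k2.1) (at_chart w) ⟨hc, k4⟩ ((rk_eq_iff_surj _).1 k))

theorem PF.freq (h : PF W F Ω) {b : Z} (hb : b ∈ Ω) : ∃ᶠ t in 𝓝 b, t ∈ Ω \ crit W F := by
  have hc := at_chart (n := r + 1) b
  set c := chartAt (Cm (r + 1)) b
  have h1 := mem_closure_iff_frequently.1 ((h.cv hc.1).dense_compl (by simp) (c b))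
  rw [← c.symm_map_nhds_eq hc.2, frequently_map]
  refine (h1.and_eventually ((c.open_target.eventually_mem (c.map_source hc.2)).and
    ((c.tendsto_symm hc.2).eventually (h.opn'.mem_nhds hb)))).mono fun t k => ?_
  exact ⟨k.2.2, fun l => k.1 ⟨k.2.1, k.2.2, l⟩⟩

theorem PF.sheets (h : PF W F Ω) {b : Z} (hb : b ∈ Ω \ crit W F) :
    ∃ (δ : ℕ) (σ : Fin δ → Z → Cm (r + 1)), (∀ k, HolA (r + 1) (r + 1) (σ k) b) ∧
      ∀ᶠ t in 𝓝 b, Enum W F t fun k => σ k t := by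
  have h1 : ∀ w ∈ W ∩ F ⁻¹' {b}, Imm (r + 1) (r + 1) F w := fun w hw =>
    by_contra fun k => hb.2 ⟨w, ⟨hw.1, k⟩, hw.2⟩
  choose! g g1 g2 _ g4 g5 using fun w hw => (h1 w hw).inv (h.hol w hw.1)
  have h2 : (W ∩ F ⁻¹' {b}).Finite := by
    obtain ⟨s, s1, s2⟩ := (h.prp {b} (by simpa using hb.1) isCompact_singleton).elim_nhds_subcover
      (fun w => {y | g w (F y) = y}) g4
    refine s.finite_toSet.subset fun y hy => ?_
    obtain ⟨w, k1, k2⟩ := mem_iUnion₂.1 (s2 hy)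
    have k3 : F y = F w := hy.2.trans (s1 w k1).2.symm
    rwa [← show g w (F y) = y from k2, k3, g1 w (s1 w k1)]
  obtain ⟨δ, y, y1, y2⟩ := h2.fin_param
  have y3 : ∀ k, y k ∈ W ∩ F ⁻¹' {b} := fun k => y2 ▸ mem_range_self k
  have y4 : ∀ k, F (y k) = b := fun k => (y3 k).2
  have y5 : ∀ k, HolA (r + 1) (r + 1) (g (y k)) b := fun k => y4 k ▸ g2 _ (y3 k)
  have y6 : ∀ k, g (y k) b = y k := fun k => by
    have := g1 _ (y3 k)
    rwa [y4] at this
  refine ⟨δ, fun k => g (y k), y5, ?_⟩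
  have h3 : ∀ᶠ t in 𝓝 b, ∀ k l, k ≠ l → g (y k) t ≠ g (y l) t :=
    eventually_all.2 fun k => eventually_all.2 fun l => by
      by_cases hkl : k = l
      · exact .of_forall fun _ a => absurd hkl a
      · refine (((y5 k).cont.sub (y5 l).cont).eventually_ne (y := 0) ?_).mono
          fun t a _ => sub_ne_zero.1 a
        simpa only [Pi.sub_apply, y6, sub_ne_zero] using y1.ne hkl
  have h4 : ∀ᶠ t in 𝓝 b, ∀ k, g (y k) t ∈ W ∧ F (g (y k) t) = t := eventually_all.2 fun k =>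
    ((y5 k).cont.eventually (h.opn.mem_nhds ((y6 k).symm ▸ (y3 k).1))).and (y4 k ▸ g5 _ (y3 k))
  have h5 : b ∉ closure (F '' (W ∩ (interior {w | ∃ k, g (y k) (F w) = w})ᶜ)) := fun k => by
    obtain ⟨w, k1, k2⟩ := img_closed h.opn' h.cont h.prp (fun z _ l =>
      (isOpen_interior.eventually_mem (not_not.1 l)).mono fun _ => not_not.2) hb.1 k
    obtain ⟨l, rfl⟩ : w ∈ range y := y2 ▸ ⟨k1.1, k2⟩
    exact k1.2 (mem_interior_iff_mem_nhds.2 ((g4 _ (y3 l)).mono fun _ a => ⟨l, a⟩))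
  filter_upwards [h3, h4, isClosed_closure.isOpen_compl.mem_nhds h5] with t a1 a2 a3
  refine ⟨fun k l e => by_contra fun n => a1 k l n e, fun w => ⟨?_, fun k => ?_⟩⟩
  · rintro ⟨k, rfl⟩
    exact a2 k
  · obtain ⟨l, hl⟩ := interior_subset
      (by_contra fun n => a3 (subset_closure ⟨w, ⟨k.1, n⟩, k.2⟩) :
        w ∈ interior {w | ∃ k, g (y k) (F w) = w})
    exact ⟨l, k.2 ▸ hl⟩

theorem fin_enum {δ : ℕ} {y : Fin δ → Cm (r + 1)} {b : Z} (h : Enum W F b y)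
    (φ : Cm (r + 1) → ℂ) : ∏ᶠ w ∈ W ∩ F ⁻¹' {b}, φ w = ∏ k, φ (y k) := by
  rw [show W ∩ F ⁻¹' {b} = range y from Set.ext fun w => (h.2 w).symm, finprod_mem_range h.1,
    finprod_eq_prod_of_fintype]

/-- the norm of a bounded function -/
theorem PF.norm (h : PF W F Ω) {φ : Cm (r + 1) → ℂ} (h1 : ∀ w ∈ W, AnalyticAt ℂ φ w)
    (h2 : ∀ w ∈ W, ‖φ w‖ ≤ 1) : ∃ N : Z → ℂ, (∀ b ∈ Ω, Hol (r + 1) N b ∧ ‖N b‖ ≤ 1) ∧
      ∀ b ∈ Ω \ crit W F, ∀ (δ : ℕ) (y : Fin δ → Cm (r + 1)), Enum W F b y →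
        N b = ∏ k, φ (y k) := by
  have h3 : ∀ b ∈ Ω \ crit W F, ‖∏ᶠ w ∈ W ∩ F ⁻¹' {b}, φ w‖ ≤ 1 := fun b hb => by
    obtain ⟨δ, σ, -, k⟩ := h.sheets hb
    rw [fin_enum k.self_of_nhds, norm_prod]
    exact Finset.prod_le_one (fun _ _ => norm_nonneg _)
      fun l _ => h2 _ (k.self_of_nhds.mem l).1
  have h4 : ∀ b ∈ Ω \ crit W F, Hol (r + 1) (fun b => ∏ᶠ w ∈ W ∩ F ⁻¹' {b}, φ w) b := by
    intro b hb
    obtain ⟨δ, σ, k1, k2⟩ := h.sheets hb
    have k3 : Hol (r + 1) (fun t => ∏ k, φ (σ k t)) b := fun e he =>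
      Finset.analyticAt_fun_prod _ fun l _ =>
        (k1 l).hol (hol_self (h1 _ (k2.self_of_nhds.mem l).1)) e he
    exact k3.congr (k2.mono fun t a => (fin_enum a φ).symm)
  obtain ⟨N, k1, k2⟩ := P277Z.Pj.rext r Z Ω (crit W F) h.opn' h.open_diff (fun _ => h.cv)
    (fun b => ∏ᶠ w ∈ W ∩ F ⁻¹' {b}, φ w) (fun b hb e he => h4 b hb e he)
    fun b hb => ⟨1, (h.opn'.eventually_mem hb).mono fun t a c => h3 t ⟨a, c⟩⟩
  refine ⟨N, fun b hb => ⟨k1 b hb, ?_⟩, fun b hb δ y k => (k2 b hb).trans (fin_enum k φ)⟩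
  exact (isClosed_le continuous_norm continuous_const).mem_of_frequently_of_tendsto
    ((h.freq hb).mono fun t a => (k2 t a).symm ▸ h3 t a) (Hol.cont (k1 b hb))

end Vale.Agent.P301Z.Sa.Sl
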