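import Vale.Agent.P301Z.Sa.SlA
import Vale.Agent.P277Z.Pj.Prj1
import Vale.Agent.P281Z.Mf.An
import Vale.Agent.P301Z.Sa.Hpt

/-!
# P301Z, block ABUN: the relation of a generic fibration, slices
-/

open scoped Manifold ContDiff Topology
open Set Filter Function Metric
open Vale.Agent.P272.K Vale.Agent.P277.H762 Vale.Agent.P281Z Vale.Agent.P281Z.Ana
open Vale.Agent.P277Z (Hol at_chart)
open Vale.Agent.P277Z.Slc (Ind)

set_option linter.unusedSectionVars false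

noncomputable section

namespace Vale.Agent.P301Z.Sa.Sl

/-- the points related to `x` in two steps -/
def R2 {X : Type} (R : Set (X × X)) (x : X) : Set X := {y | ∃ y', (x, y') ∈ R ∧ (y', y) ∈ R}

variable {d n : ℕ} {X : Type} [TopologicalSpace X] [ChartedSpace (Cm d) X]

/-- a closed relation whose general classes are the fibres of tubes -/
structure Lam (s : Chart d X → Cm d → Matrix (Fin d) (Fin d) ℂ) (T : Set X) (R : Set (X × X))
    (f : X → Cm n) : Prop where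
  thin : Thin d T
  cl : IsClosed R
  refl : ∀ x, (x, x) ∈ R
  symm : ∀ x y, (x, y) ∈ R → (y, x) ∈ R
  tube : ∀ y ∉ T, ∀ N, IsOpen N → (∀ y', (y, y') ∈ R → y' ∈ N) → ∃ O b r, Tube s O f b r ∧
    y ∈ O ∧ O ⊆ N ∧ ∀ y₁ ∈ O, ∀ y₂, (y₁, y₂) ∈ R ↔ y₂ ∈ O ∧ f y₂ = f y₁

variable [T2Space X] [CompactSpace X] [IsManifold 𝓘(ℂ, Cm d) ω X] {T O : Set X} {f : X → Cm n}
  {x y y' : X} {s : Chart d X → Cm d → Matrix (Fin d) (Fin d) ℂ} {R : Set (X × X)} {b : Cm n}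
  {r : ℝ}

theorem holA_of_ind (h : Ind d (fun j y => f y j) y) : HolA d n f y :=
  .of_hol (continuousAt_pi.2 fun j => (h.1 j).cont) (at_chart _) h.1

theorem sbm_of_ind (h : Ind d (fun j y => f y j) y) : Sbm d n f y :=
  (sbm_iff_ind (holA_of_ind h) (at_chart _)).2 h

theorem tube_cont (h : Tube s O f b r) : ContinuousOn f O := fun y hy =>
  (holA_of_ind (h.ind y hy)).cont.continuousWithinAt

theorem Lam.ind (h : Lam s T R f) (hy : y ∉ T) : Ind d (fun j y => f y j) y :=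
  let ⟨_, _, _, a, b, _⟩ := h.tube y hy univ isOpen_univ fun _ _ => trivial
  a.ind y b

theorem Lam.trans (h : Lam s T R f) (hy : y ∉ T) {y'' : X} (k : (y, y') ∈ R) (k' : (y', y'') ∈ R) :
    (y, y'') ∈ R := by
  obtain ⟨O, b, r, -, a, -, c⟩ := h.tube y hy univ isOpen_univ fun _ _ => trivial
  have h1 := (c y a y').1 k
  have h2 := (c y' h1.1 y'').1 k'
  exact (c y a y'').2 ⟨h2.1, h2.2.trans h1.2⟩

variable (d) in
/-- coordinates in which the slice through `x` is good -/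
structure Slc (T : Set X) (R : Set (X × X)) (f : X → Cm n) (x : X)
    (Θ : OpenPartialHomeomorph X (Cm n × Cm n)) : Prop where
  co : Co d Θ
  mem : x ∈ Θ.source
  cnt : {w | ((Θ x).1, w) ∈ Θ.target ∧ Θ.symm ((Θ x).1, w) ∈ R2 R x}.Countable
  frq : ∃ᶠ y in 𝓝 x, y ∉ T ∧ y ∈ Θ.source ∧
    Surjective (fderiv ℂ (fun q : Cm n × Cm n => (f (Θ.symm q), q.1)) (Θ y))

theorem Lam.slc (h : Lam s T R f) (hd : d = 2 * n) {e : Chart d X} (he : At e x)
    (hc : Cv n (e.target ∩ e.symm ⁻¹' R2 R x)) : ∃ Θ, Slc d T R f x Θ := by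
  have := ChartedSpace.secondCountable_of_sigmaCompact (Cm d) X
  obtain ⟨y, y1, y2⟩ := exists_seq_forall_of_frequently
    ((h.thin.freq x).and_eventually (at_near he))
  let D : ℕ → Cm d →L[ℂ] Cm n := fun i => df f e (chartAt (Cm n) (f (y i))) (y i)
  have k1 : ∀ A : Cm d →L[ℂ] Cm n, Surjective A →
      Module.finrank ℂ (LinearMap.ker (A : Cm d →ₗ[ℂ] Cm n)) = n := fun A hA => by
    have a1 := LinearMap.finrank_range_add_finrank_ker (A : Cm d →ₗ[ℂ] Cm n)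
    rw [LinearMap.range_eq_top.2 hA] at a1
    simp only [finrank_top, Module.finrank_fintype_fun_eq_card, Fintype.card_fin] at a1
    omega
  have k2 : ∀ i, Surjective (D i) := fun i => sbm_of_ind (h.ind (y2 i).1) _ _ (y2 i).2 (at_chart _)
  obtain ⟨π, p1, p2⟩ := P277Z.Pj.H38.exists_proj (e x) n _
    (fun i => LinearMap.ker (D i : Cm d →ₗ[ℂ] Cm n)) hc fun i => (k1 _ (k2 i)).le
  have k3 : Surjective π := by
    have a1 : Injective ((π : Cm d →ₗ[ℂ] Cm n).comp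
        (LinearMap.ker (D 0 : Cm d →ₗ[ℂ] Cm n)).subtype) :=
      (injective_iff_map_eq_zero _).2 fun v hv => Subtype.ext (p2 0 v.1 v.2 hv)
    have a2 := (LinearMap.injective_iff_surjective_of_finrank_eq_finrank
      (by simpa using k1 _ (k2 0))).1 a1
    exact fun v => (a2 v).elim fun u hu => ⟨u.1, hu⟩
  obtain ⟨κ, hs⟩ := (π : Cm d →ₗ[ℂ] Cm n).exists_rightInverse_of_surjective
    (LinearMap.range_eq_top.2 k3)
  let J : (LinearMap.ker (π : Cm d →ₗ[ℂ] Cm n)) ≃L[ℂ] Cm n :=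
    ContinuousLinearEquiv.ofFinrankEq (by simpa using k1 _ k3)
  let Λ : Cm d ≃L[ℂ] Cm n × Cm n := (ContinuousLinearEquiv.equivOfRightInverse π
    (LinearMap.toContinuousLinearMap κ) fun v => LinearMap.congr_fun hs v).trans
      ((ContinuousLinearEquiv.refl ℂ _).prodCongr J)
  have k4 : ∀ q, π (Λ.symm q) = q.1 := fun q => congrArg Prod.fst (Λ.apply_symm_apply q)
  refine ⟨e.transHomeomorph Λ.toHomeomorph, (co_chart he.1).trans Λ, he.2,
    (p1.preimage (f := fun w => Λ.symm ((Λ (e x)).1, w)) fun a b k =>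
      (Prod.ext_iff.1 (Λ.symm.injective k)).2).mono fun w hw => And.intro hw (k4 _),
    y1.frequently (.of_forall fun i => ⟨(y2 i).1, (y2 i).2.2, ?_⟩)⟩
  have a1 : HasFDerivAt (fun z => f (e.symm z)) (D i)
      (Λ.symm (Λ (e (y i)))) := by
    rw [Λ.symm_apply_apply]
    exact ((holA_of_ind (h.ind (y2 i).1)).an (y2 i).2 (at_chart _)).differentiableAt.hasFDerivAt
  have a2 := ((a1.comp _ Λ.symm.hasFDerivAt).prodMk (hasFDerivAt_fst (𝕜 := ℂ))).fderiv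
  refine a2 ▸ LinearMap.injective_iff_surjective.1 ((injective_iff_map_eq_zero
    (_ : (Cm n × Cm n) →ₗ[ℂ] Cm n × Cm n)).2 fun q hq => ?_)
  have a3 := Prod.ext_iff.1 hq
  exact Λ.symm.map_eq_zero_iff.1 (p2 i _ a3.1 ((k4 q).trans a3.2))

variable {Θ : OpenPartialHomeomorph X (Cm n × Cm n)}

theorem Slc.rad (h : Slc d T R f x Θ) {N : Set X} (hN : N ∈ 𝓝 x) {ε : ℝ} (hε : 0 < ε) :
    ∃ ρ, 0 < ρ ∧ ρ < ε ∧ closedBall (Θ x) ρ ⊆ Θ.target ∩ Θ.symm ⁻¹' N ∧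
      ∀ w ∈ sphere (Θ x).2 ρ, Θ.symm ((Θ x).1, w) ∉ R2 R x := by
  obtain ⟨η, h1, h2⟩ := nhds_basis_closedBall.mem_iff.1 (inter_mem
    (Θ.open_target.mem_nhds (Θ.map_source h.mem)) ((Θ.tendsto_symm h.mem).eventually hN))
  obtain ⟨ρ, h3, h4⟩ := ((h.cnt.image fun w => dist w (Θ x).2).dense_compl ℝ).inter_open_nonempty
    _ isOpen_Ioo (nonempty_Ioo.2 (lt_min h1 hε))
  have h5 := (closedBall_subset_closedBall (h3.2.le.trans (min_le_left _ _))).trans h2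
  refine ⟨ρ, h3.1, h3.2.trans_le (min_le_right _ _), h5, fun w hw k => h4 ⟨w, ⟨(h5 ?_).1, k⟩, hw⟩⟩
  rw [← closedBall_prod_same]
  exact ⟨mem_closedBall_self h3.1.le, sphere_subset_closedBall hw⟩

/-- the fibres near `x` meet the slice near `x` -/
theorem Slc.hit (h : Slc d T R f x Θ) (hF : Lam s T R f) (hn : 0 < n) {ε : ℝ} (hε : 0 < ε) :
    ∃ᶠ y in 𝓝 x, ∀ᶠ y' in 𝓝 y, ∃ w ∈ ball (Θ x).2 ε, (y', Θ.symm ((Θ x).1, w)) ∈ R := by
  obtain ⟨ρ, r1, r2, r3, r4⟩ := h.rad univ_mem hε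
  have r5 : ∀ q : Cm n × Cm n, q.1 ∈ closedBall (Θ x).1 ρ → q.2 ∈ closedBall (Θ x).2 ρ →
      q ∈ Θ.target := fun q a b => (r3 (by rw [← closedBall_prod_same]; exact ⟨a, b⟩)).1
  have h1 : ∀ᶠ p : X × Cm n in 𝓝 (x, (Θ x).1), ∀ w ∈ sphere (Θ x).2 ρ,
      (p.1, Θ.symm (p.2, w)) ∉ R := by
    refine (isCompact_sphere _ _).eventually_forall_of_forall_eventually fun w hw => ?_
    have a1 : ContinuousAt (fun z : (X × Cm n) × Cm n => (z.1.1, Θ.symm (z.1.2, z.2)))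
        ((x, (Θ x).1), w) := continuousAt_fst.fst.prodMk
      (ContinuousAt.comp (g := Θ.symm) (Θ.continuousAt_symm (r5 (_, w) (mem_closedBall_self r1.le)
        (sphere_subset_closedBall hw))) (continuousAt_fst.snd.prodMk continuousAt_snd))
    exact a1.eventually (hF.cl.isOpen_compl.mem_nhds fun k => r4 w hw ⟨x, hF.refl x, k⟩)
  obtain ⟨N, n1, M, m1, h2⟩ := mem_nhds_prod_iff.1 h1
  obtain ⟨η, e1, e2⟩ := nhds_basis_ball.mem_iff.1 (inter_mem m1 (closedBall_mem_nhds _ r1))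
  have h3 : ∀ᶠ y in 𝓝 x, N ∈ 𝓝 y ∧ Θ y ∈ ball (Θ x).1 η ×ˢ ball (Θ x).2 ρ :=
    (eventually_mem_nhds_iff.2 n1).and
      ((Θ.continuousAt h.mem).eventually ((isOpen_ball.prod isOpen_ball).mem_nhds
        ⟨mem_ball_self e1, mem_ball_self r1⟩))
  refine (h.frq.and_eventually h3).mono ?_
  rintro y ⟨⟨y1, y2, c2⟩, y3, y4⟩
  obtain ⟨U, b, r, u1, u2, -, u3⟩ := hF.tube y y1 univ isOpen_univ fun _ _ => trivial
  have u4 := holA_of_ind (u1.ind y u2)
  obtain ⟨β, b1, b2⟩ := nhds_basis_ball.mem_iff.1 (inter_mem (isOpen_ball.mem_nhds (u1.maps u2))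
    ((sbm_of_ind (u1.ind y u2)).ev u4 (inter_mem y3 (u1.opn.mem_nhds u2))))
  set Φ := fun q : Cm n × Cm n => (f (Θ.symm q), q.1) with hΦ
  set O := ((ball (Θ x).1 η ×ˢ ball (Θ x).2 ρ) ∩ Θ.symm ⁻¹' U)
  have o1 : ball (Θ x).1 η ×ˢ ball (Θ x).2 ρ ⊆ Θ.target := fun q a =>
    r5 q (e2 a.1).2 (ball_subset_closedBall a.2)
  have o2 : ∀ q ∈ Θ.target, Θ.symm q ∈ U → AnalyticAt ℂ Φ q := fun q a b =>
    (analyticAt_pi_iff.2 fun j => h.co.an_hol (a := fun z => f z j) a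
      ((u1.ind _ b).1 j)).prod analyticAt_fst
  have o3 := onto (k := 2 * n - 1) (by simp; omega) (O := O) (Φ := Φ)
    (B := ball (f y) β ×ˢ ball (Θ x).1 η)
    ((Θ.continuousOn_symm.mono o1).isOpen_inter_preimage (isOpen_ball.prod isOpen_ball) u1.opn)
    (isOpen_ball.prod isOpen_ball)
    ((convex_ball _ _).prod (convex_ball _ _)).isPreconnected (fun q a => o2 q (o1 a.1) a.2)
    (fun K k1 k2 => ?_) (z₀ := Θ y) ⟨y4, by rw [mem_preimage, Θ.left_inv y2]; exact u2⟩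
    ⟨by simp only [hΦ, Θ.left_inv y2]; exact mem_ball_self b1, y4.1⟩ c2
  · filter_upwards [u4.cont.eventually (ball_mem_nhds _ b1), u1.opn.mem_nhds u2] with z a1 a2
    obtain ⟨q, q1, q2⟩ := o3 (show (f z, (Θ x).1) ∈ _ from ⟨a1, mem_ball_self e1⟩)
    have q3 : q = ((Θ x).1, q.2) := Prod.ext (Prod.ext_iff.1 q2).2 rfl
    exact ⟨q.2, ball_subset_ball r2.le q1.1.2, q3 ▸ (u3 z a2 _).2 ⟨q1.2, (Prod.ext_iff.1 q2).1⟩⟩
  · have a1 : Prod.fst '' K ⊆ ball (f y) β := by rintro _ ⟨q, a, rfl⟩; exact (k1 a).1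
    have a2 := u1.prp (Prod.fst '' K) (fun t a => (b2 (a1 a)).1) (k2.image continuous_fst)
    set C := U ∩ f ⁻¹' (Prod.fst '' K)
    have a4 : IsClosed (closedBall (Θ x) ρ ∩ Θ.symm ⁻¹' C) :=
      (Θ.continuousOn_symm.mono fun q a => (r3 a).1).preimage_isClosed_of_isClosed
        isClosed_closedBall a2.isClosed
    have a5 : IsClosed ((closedBall (Θ x) ρ ∩ Θ.symm ⁻¹' C) ∩ Φ ⁻¹' K) :=
      ContinuousOn.preimage_isClosed_of_isClosed (fun q a =>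
        (o2 q (r3 a.1).1 a.2.1).continuousAt.continuousWithinAt) a4 k2.isClosed
    refine (congrArg IsCompact (Set.ext fun q => ⟨fun a => ?_, fun a => ?_⟩)).mp
      ((isCompact_closedBall (Θ x) ρ).of_isClosed_subset a5 fun q a => a.1.1)
    · have a6 : q.1 ∈ ball (Θ x).1 η := (k1 a.2).2
      have a7 : q.2 ∈ closedBall (Θ x).2 ρ := ((closedBall_prod_same _ _ _).ge a.1.1).2
      refine ⟨⟨⟨a6, mem_ball.2 (lt_of_le_of_ne a7 fun k => ?_)⟩, a.1.2.1⟩, a.2⟩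
      obtain ⟨z, z1, z2⟩ := (b2 (a1 a.1.2.2)).2
      exact h2 (show (z, q.1) ∈ N ×ˢ M from ⟨z1.1, (e2 a6).1⟩) q.2 k
        ((u3 z z1.2 _).2 ⟨a.1.2.1, z2.symm⟩)
    · exact ⟨⟨(closedBall_prod_same _ _ _).le ⟨(e2 a.1.1.1).2, ball_subset_closedBall a.1.1.2⟩,
        a.1.2, _, a.2, rfl⟩, a.2⟩

end Vale.Agent.P301Z.Sa.Sl
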