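import Vale.Agent.P301Z.Sa.SlB
import Vale.Agent.P281Z.Md.Ext

/-!
# P301Z, block ABUN: norms along the slices
-/

open scoped Manifold ContDiff Topology
open Set Filter Function Metric
open Vale.Agent.P272.K Vale.Agent.P277.H762 Vale.Agent.P281Z Vale.Agent.P281Z.Ana
open Vale.Agent.P277Z (Hol at_chart)
open Vale.Agent.P277Z.Slc (Ind)
open Vale.Agent.P277Z.Pj (Enum)

set_option linter.unusedSectionVars false

noncomputable section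

namespace Vale.Agent.P301Z.Sa.Sl

variable {d r : ℕ} {X : Type} [TopologicalSpace X] [ChartedSpace (Cm d) X]

/-- the points whose class misses the boundary of the slice -/
def VV (R : Set (X × X)) (σ : Cm (r + 1) → X) (c : Cm (r + 1)) (ρ : ℝ) : Set X :=
  {y | ∀ w ∈ sphere c ρ, (y, σ w) ∉ R}

/-- the points of the slice in the class of `y` -/
def SS (R : Set (X × X)) (σ : Cm (r + 1) → X) (c : Cm (r + 1)) (ρ : ℝ) (y : X) :
    Set (Cm (r + 1)) :=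
  {w | w ∈ ball c ρ ∧ (y, σ w) ∈ R}

/-- the points whose class is transversal to the slice -/
def Gd (T : Set X) (R : Set (X × X)) (f : X → Cm (r + 1)) (σ : Cm (r + 1) → X) (c : Cm (r + 1))
    (ρ : ℝ) : Set X :=
  {y | y ∈ VV R σ c ρ ∧ y ∉ T ∧ ∀ w ∈ SS R σ c ρ y, Imm (r + 1) (r + 1) (fun w => f (σ w)) w}

/-- a tube whose fibres are classes -/
def TR (s : Chart d X → Cm d → Matrix (Fin d) (Fin d) ℂ) (R : Set (X × X)) (f : X → Cm (r + 1))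
    (O : Set X) (b : Cm (r + 1)) (β : ℝ) : Prop :=
  Tube s O f b β ∧ ∀ y₁ ∈ O, ∀ y₂, (y₁, y₂) ∈ R ↔ y₂ ∈ O ∧ f y₂ = f y₁

variable [T2Space X] [CompactSpace X] [IsManifold 𝓘(ℂ, Cm d) ω X] {T O : Set X}
  {f : X → Cm (r + 1)} {x y : X} {s : Chart d X → Cm d → Matrix (Fin d) (Fin d) ℂ}
  {R : Set (X × X)} {σ : Cm (r + 1) → X} {c b : Cm (r + 1)} {ρ β : ℝ}

theorem vv_open (h : Lam s T R f) (hσ : ∀ w ∈ closedBall c ρ, HolA (r + 1) d σ w) :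
    IsOpen (VV R σ c ρ) := by
  refine isOpen_iff_mem_nhds.2 fun y hy =>
    (isCompact_sphere c ρ).eventually_forall_of_forall_eventually fun w hw => ?_
  have a1 : ContinuousAt (fun z : X × Cm (r + 1) => (z.1, σ z.2)) (y, w) :=
    continuousAt_fst.prodMk (ContinuousAt.comp (g := σ)
      (hσ w (sphere_subset_closedBall hw)).cont continuousAt_snd)
  exact a1.eventually (h.cl.isOpen_compl.mem_nhds (hy w hw))

theorem vv_sat (h : Lam s T R f) (hy : y ∈ VV R σ c ρ) (hT : y ∉ T) {y' : X} (k : (y, y') ∈ R) :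
    y' ∈ VV R σ c ρ := fun w hw l => hy w hw (h.trans hT k l)

theorem vv_tube (h : Lam s T R f) (hσ : ∀ w ∈ closedBall c ρ, HolA (r + 1) d σ w)
    (hy : y ∈ VV R σ c ρ) (hT : y ∉ T) : ∃ O b β, TR s R f O b β ∧ y ∈ O ∧ O ⊆ VV R σ c ρ :=
  let ⟨O, b, β, a1, a2, a3, a4⟩ := h.tube y hT _ (vv_open h hσ) fun _ => vv_sat h hy hT
  ⟨O, b, β, ⟨a1, a4⟩, a2, a3⟩

theorem TR.pf (h : TR s R f O b β) (hσ : ∀ w ∈ closedBall c ρ, HolA (r + 1) d σ w)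
    (hO : O ⊆ VV R σ c ρ) : PF (ball c ρ ∩ σ ⁻¹' O) (fun w => f (σ w)) (ball b β) := by
  have h1 : ContinuousOn σ (closedBall c ρ) := fun w hw => (hσ w hw).cont.continuousWithinAt
  refine ⟨(h1.mono ball_subset_closedBall).isOpen_inter_preimage isOpen_ball h.1.opn, isOpen_ball,
    fun w hw => (holA_of_ind (h.1.ind _ hw.2)).cmp (hσ w (ball_subset_closedBall hw.1)),
    fun K k1 k2 => ?_⟩
  refine (congrArg IsCompact (Set.ext fun w => ⟨fun a => ?_, fun a => ?_⟩)).mp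
    ((isCompact_closedBall c ρ).of_isClosed_subset (h1.preimage_isClosed_of_isClosed
      isClosed_closedBall (h.1.prp K k1 k2).isClosed) inter_subset_left)
  · exact ⟨⟨mem_ball.2 (lt_of_le_of_ne a.1 fun k => hO a.2.1 w k
      ((h.2 _ a.2.1 _).2 ⟨a.2.1, rfl⟩)), a.2.1⟩, a.2.2⟩
  · exact ⟨ball_subset_closedBall a.1.1, a.1.2, a.2⟩

theorem TR.ss (h : TR s R f O b β) (hy : y ∈ O) (w : Cm (r + 1)) :
    w ∈ SS R σ c ρ y ↔ w ∈ ball c ρ ∩ σ ⁻¹' O ∧ f (σ w) = f y :=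
  ⟨fun a => ⟨⟨a.1, ((h.2 y hy _).1 a.2).1⟩, ((h.2 y hy _).1 a.2).2⟩,
    fun a => ⟨a.1.1, (h.2 y hy _).2 ⟨a.1.2, a.2⟩⟩⟩

theorem TR.gd (h : TR s R f O b β) (hO : O ⊆ VV R σ c ρ) (hy : y ∈ O) (hT : y ∉ T) :
    y ∈ Gd T R f σ c ρ ↔ f y ∉ crit (ball c ρ ∩ σ ⁻¹' O) fun w => f (σ w) :=
  ⟨fun a ⟨w, k1, k2⟩ => k1.2 (a.2.2 w ((h.ss hy w).2 ⟨k1.1, k2⟩)), fun a => ⟨hO hy, hT, fun w hw =>
    by_contra fun k => a ⟨w, ⟨((h.ss hy w).1 hw).1, k⟩, ((h.ss hy w).1 hw).2⟩⟩⟩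

theorem TR.enum (h : TR s R f O b β) (hy : y ∈ O) {δ : ℕ} {w : Fin δ → Cm (r + 1)} :
    Enum (ball c ρ ∩ σ ⁻¹' O) (fun w => f (σ w)) (f y) w ↔
      Injective w ∧ range w = SS R σ c ρ y :=
  and_congr_right fun _ => ⟨fun a => Set.ext fun z => (a z).trans (h.ss hy z).symm,
    fun a z => (Set.ext_iff.1 a z).trans (h.ss hy z)⟩

theorem gd_freq (h : Lam s T R f) (hσ : ∀ w ∈ closedBall c ρ, HolA (r + 1) d σ w)
    (hy : y ∈ VV R σ c ρ) : ∃ᶠ y' in 𝓝 y, y' ∈ Gd T R f σ c ρ := by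
  refine frequently_frequently_nhds.1
    (((h.thin.freq y).and_eventually ((vv_open h hσ).mem_nhds hy)).mono fun z hz => ?_)
  obtain ⟨O, b, β, a1, a2, a3⟩ := vv_tube h hσ hz.2 hz.1
  have a4 := a1.1.ind z a2
  refine (((sbm_of_ind a4).freq (holA_of_ind a4) ((a1.pf hσ a3).freq (a1.1.maps a2))).and_eventually
    ((a1.1.opn.eventually_mem a2).and (h.thin.closed.isOpen_compl.eventually_mem hz.1))).mono
    fun t k => (a1.gd a3 k.2.1 k.2.2).2 k.1.2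

theorem gd_enum (h : Lam s T R f) (hσ : ∀ w ∈ closedBall c ρ, HolA (r + 1) d σ w)
    (hy : y ∈ Gd T R f σ c ρ) :
    ∃ (δ : ℕ) (w : Fin δ → Cm (r + 1)), Injective w ∧ range w = SS R σ c ρ y := by
  obtain ⟨O, b, β, a1, a2, a3⟩ := vv_tube h hσ hy.1 hy.2.1
  obtain ⟨δ, w, -, k⟩ := (a1.pf hσ a3).sheets ⟨a1.1.maps a2, (a1.gd a3 a2 hy.2.1).1 hy⟩
  exact ⟨δ, _, (a1.enum a2).1 k.self_of_nhds⟩

/-- the norm of a bounded function on the slice -/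
theorem nrm (h : Lam s T R f) (hσ : ∀ w ∈ closedBall c ρ, HolA (r + 1) d σ w)
    {φ : Cm (r + 1) → ℂ} (h1 : ∀ w ∈ ball c ρ, AnalyticAt ℂ φ w) (h2 : ∀ w ∈ ball c ρ, ‖φ w‖ ≤ 1) :
    ∃ G : X → ℂ, (∀ y ∈ VV R σ c ρ, Hol d G y) ∧
      (∀ y ∈ Gd T R f σ c ρ, ∀ (δ : ℕ) (w : Fin δ → Cm (r + 1)), Injective w →
        range w = SS R σ c ρ y → G y = ∏ k, φ (w k)) ∧
      ∀ O b β, TR s R f O b β → O ⊆ VV R σ c ρ → ∀ y ∈ O, ∀ y' ∈ O, f y = f y' → G y = G y' := by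
  set N₀ : X → ℂ := fun y => ∏ᶠ w ∈ SS R σ c ρ y, φ w
  have k0 : ∀ y (δ : ℕ) (w : Fin δ → Cm (r + 1)), Injective w → range w = SS R σ c ρ y →
      N₀ y = ∏ k, φ (w k) := fun y δ w a b => by
    simp only [N₀, ← b]
    rw [finprod_mem_range a, finprod_eq_prod_of_fintype]
  have k1 : ∀ y ∈ VV R σ c ρ, ∀ᶠ z in 𝓝 y, ∃ᶠ z' in 𝓝 z, z' ∈ Gd T R f σ c ρ := fun y hy =>
    ((vv_open h hσ).eventually_mem hy).mono fun _ => gd_freq h hσ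
  have k2 : ∀ O b β, TR s R f O b β → O ⊆ VV R σ c ρ → ∃ N : Cm (r + 1) → ℂ, ∀ y ∈ O,
      Hol d (fun z => N (f z)) y ∧ ‖N (f y)‖ ≤ 1 ∧ (y ∈ Gd T R f σ c ρ → N (f y) = N₀ y) ∧
        ∀ᶠ z in 𝓝 y, N (f z) = Md.ext (Gd T R f σ c ρ) N₀ z := fun O b β a1 a2 => by
    obtain ⟨N, n1, n2⟩ := (a1.pf hσ a2).norm (fun w hw => h1 w hw.1) fun w hw => h2 w hw.1
    have n3 : ∀ y ∈ O, y ∈ Gd T R f σ c ρ → N (f y) = N₀ y := fun y a3 a4 => by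
      obtain ⟨δ, w, w1, w2⟩ := gd_enum h hσ a4
      rw [k0 y δ w w1 w2]
      exact n2 _ ⟨a1.1.maps a3, (a1.gd a2 a3 a4.2.1).1 a4⟩ δ w ((a1.enum a3).2 ⟨w1, w2⟩)
    have n4 : ∀ y ∈ O, Hol d (fun z => N (f z)) y := fun y hy =>
      (holA_of_ind (a1.1.ind y hy)).hol (n1 _ (a1.1.maps hy)).1
    exact ⟨N, fun y hy => ⟨n4 y hy, (n1 _ (a1.1.maps hy)).2, n3 y hy,
      Md.ext_ev (k1 y (a2 hy)) (n4 y hy) ((a1.1.opn.eventually_mem hy).mono n3)⟩⟩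
  have k3 : ∀ y ∈ VV R σ c ρ, y ∉ T → Hol d (Md.ext (Gd T R f σ c ρ) N₀) y ∧
      ‖Md.ext (Gd T R f σ c ρ) N₀ y‖ ≤ 1 ∧
      (y ∈ Gd T R f σ c ρ → Md.ext (Gd T R f σ c ρ) N₀ y = N₀ y) := fun y a1 a2 => by
    obtain ⟨O, b, β, b1, b2, b3⟩ := vv_tube h hσ a1 a2
    obtain ⟨N, hN⟩ := k2 O b β b1 b3
    obtain ⟨n1, n2, n3, n4⟩ := hN y b2
    exact ⟨n1.congr n4, n4.self_of_nhds ▸ n2, n4.self_of_nhds ▸ n3⟩
  refine ⟨Md.ext (Gd T R f σ c ρ) N₀, fun y hy => ?_, fun y hy δ w a b =>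
    ((k3 y hy.1 hy.2.1).2.2 hy).trans (k0 y δ w a b), fun O b β a1 a2 y hy y' hy' e => ?_⟩
  · have k4 := ((vv_open h hσ).eventually_mem hy).mono k3
    obtain ⟨H, n1, n2⟩ := Md.riem (Md.gn_of_thin h.thin y) (k4.mono fun z a b => (a b).1)
      ⟨1, k4.mono fun z a b => (a b).2.1⟩
    refine n1.congr (Md.ext_ev (k1 y hy) n1 ?_)
    filter_upwards [k4, n2] with z a1 a2 a3 using (a2 a3.2.1).trans ((a1 a3.2.1).2.2 a3)
  · obtain ⟨N, hN⟩ := k2 O b β a1 a2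
    rw [← (hN y hy).2.2.2.self_of_nhds, ← (hN y' hy').2.2.2.self_of_nhds, e]

theorem loc_const [LocallyConnectedSpace X] {V : Set X} (hV : IsOpen V) {H : X → ℂ}
    (hH : ContinuousOn H V) {A : Set ℂ} (hA : A.Countable) (h : MapsTo H V A) (hy : y ∈ V) : ∀ᶠ z in 𝓝 y, H z = H y := by
  have h1 := (isPreconnected_connectedComponentIn (F := V) (x := y)).image H
    (hH.mono (connectedComponentIn_subset _ _))
  have h2 := hA.isTotallyDisconnected _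
    (image_subset_iff.2 fun z hz => h (connectedComponentIn_subset _ _ hz)) h1
  filter_upwards [connectedComponentIn_mem_nhds (hV.mem_nhds hy)] with z hz
  exact h2 ⟨z, hz, rfl⟩ ⟨y, mem_connectedComponentIn hy, rfl⟩

/-- the open set on which the number of the points on the slice is the same as near `x` -/
theorem deg (h : Lam s T R f) (hσ : ∀ w ∈ closedBall c ρ, HolA (r + 1) d σ w)
    (hx : x ∈ VV R σ c ρ) (h0 : ∃ᶠ y in 𝓝 x, y ∈ Gd T R f σ c ρ ∧ (SS R σ c ρ y).Nonempty) :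
    ∃ (U : Set X) (δ : ℕ), IsOpen U ∧ x ∈ U ∧ U ⊆ VV R σ c ρ ∧ IsOpen (VV R σ c ρ \ U) ∧ 0 < δ ∧
      (∀ y ∈ U, y ∉ T → ∀ y', (y, y') ∈ R → y' ∈ U) ∧ ∀ y ∈ U, y ∈ Gd T R f σ c ρ →
        ∃ w : Fin δ → Cm (r + 1), Injective w ∧ range w = SS R σ c ρ y := by
  have := ChartedSpace.locallyConnectedSpace (Cm d) X
  obtain ⟨H, h1, h2, h3⟩ := nrm h hσ (φ := fun _ => (1 / 2 : ℂ)) (fun _ _ => analyticAt_const)
    fun _ _ => by norm_num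
  have h4 : ∀ y ∈ Gd T R f σ c ρ, ∀ (δ : ℕ) (w : Fin δ → Cm (r + 1)), Injective w →
      range w = SS R σ c ρ y → H y = (1 / 2 : ℂ) ^ δ := fun y a δ w b e => by
    simpa using h2 y a δ w b e
  have h5 := (tendsto_pow_atTop_nhds_zero_of_norm_lt_one (x := (1 / 2 : ℂ)) (by norm_num))
  have h6 : ∀ y ∈ VV R σ c ρ, ∀ᶠ z in 𝓝 y, H z = H y := fun y hy =>
    loc_const (vv_open h hσ) (fun z hz => (h1 z hz).cont.continuousWithinAt)
      ((countable_range fun k : ℕ => (1 / 2 : ℂ) ^ k).insert 0) (fun z hz =>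
        h5.isCompact_insert_range.isClosed.mem_of_frequently_of_tendsto
          ((gd_freq h hσ hz).mono fun t ht => by
            obtain ⟨δ, w, a, b⟩ := gd_enum h hσ ht
            exact Or.inr ⟨δ, (h4 t ht δ w a b).symm⟩) (h1 z hz).cont) hy
  obtain ⟨y₀, ⟨y1, y2⟩, y3⟩ := (h0.and_eventually (h6 x hx)).exists
  obtain ⟨δ, w₀, w1, w2⟩ := gd_enum h hσ y1
  have h7 : H x = (1 / 2 : ℂ) ^ δ := y3.symm.trans (h4 _ y1 δ w₀ w1 w2)
  refine ⟨{y | y ∈ VV R σ c ρ ∧ H y = H x}, δ, isOpen_iff_mem_nhds.2 fun y hy => ?_, ⟨hx, rfl⟩,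
    fun _ a => a.1, isOpen_iff_mem_nhds.2 fun y hy => ?_, ?_, fun y a1 a2 y' a3 => ?_,
    fun y a1 a2 => ?_⟩
  · filter_upwards [(vv_open h hσ).mem_nhds hy.1, h6 y hy.1] with z a b using ⟨a, b.trans hy.2⟩
  · filter_upwards [(vv_open h hσ).mem_nhds hy.1, h6 y hy.1] with z a b
    exact ⟨a, fun k => hy.2 ⟨hy.1, b.symm.trans k.2⟩⟩
  · obtain ⟨_, k, -⟩ := w2 ▸ y2
    exact k.pos
  · obtain ⟨O, b, β, b1, b2, b3⟩ := vv_tube h hσ a1.1 a2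
    have b4 := (b1.2 y b2 y').1 a3
    exact ⟨b3 b4.1, (h3 O b β b1 b3 y' b4.1 y b2 b4.2).trans a1.2⟩
  · obtain ⟨δ', w, b1, b2⟩ := gd_enum h hσ a2
    have b3 := congrArg norm ((h4 y a2 δ' w b1 b2).symm.trans (a1.2.trans h7))
    rw [norm_pow, norm_pow] at b3
    obtain rfl := pow_right_injective₀ (by norm_num) (by norm_num) b3
    exact ⟨w, b1, b2⟩

end Vale.Agent.P301Z.Sa.Sl
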