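import Vale.Agent.P301Z.Sa.SlC
import Vale.Agent.P277Z.Pj.Poly

/-!
# P301Z, block ABUN: functions which are constant on the classes and separate a class
-/

open scoped Manifold ContDiff Topology
open Set Filter Function Metric
open Vale.Agent.P272.K Vale.Agent.P277.H762 Vale.Agent.P281Z Vale.Agent.P281Z.Ana
open Vale.Agent.P277Z (Hol at_chart)
open Vale.Agent.P277Z.Slc (Ind)
open Vale.Agent.P277Z.Pj (mom exists_mom)

set_option linter.unusedSectionVars false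

noncomputable section

namespace Vale.Agent.P301Z.Sa.Sl

/-- the normalised linear forms -/
def lf {n : ℕ} (c : Cm n) (ρ : ℝ) (l : ℕ) (w : Cm n) : ℂ :=
  mom n (l : ℂ) (w - c) / ((‖mom n (l : ℂ)‖ * ρ + 1 : ℝ) : ℂ)

theorem lf_an {n : ℕ} (c : Cm n) (ρ : ℝ) (l : ℕ) (w : Cm n) : AnalyticAt ℂ (lf c ρ l) w :=
  (((mom n _).analyticAt _).comp (analyticAt_id.sub analyticAt_const)).div_const

theorem lf_le {n : ℕ} {c : Cm n} {ρ ε : ℝ} (hρ : 0 < ρ) (l : ℕ) {w : Cm n} (hw : w ∈ ball c ε) :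
    ‖lf c ρ l w‖ ≤ ε / ρ := by
  have h1 : 0 < ‖mom n (l : ℂ)‖ * ρ + 1 := by positivity
  have h2 := (mom n (l : ℂ)).le_opNorm (w - c)
  have h3 : ‖w - c‖ < ε := mem_ball_iff_norm.1 hw
  rw [lf, norm_div, Complex.norm_real, Real.norm_of_nonneg h1.le, div_le_div_iff₀ h1 hρ]
  have h4 := norm_nonneg (w - c)
  have h5 := norm_nonneg (mom n (l : ℂ))
  nlinarith [mul_le_mul_of_nonneg_right h2 hρ.le, mul_nonneg h5 hρ.le,
    mul_le_mul_of_nonneg_left h3.le (mul_nonneg h5 hρ.le)]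

theorem lf_low {n : ℕ} (c : Cm n) {ρ ε : ℝ} (hρ : 0 < ρ) (hε : 0 < ε) (δ : ℕ) :
    ∃ a : ℝ, 0 < a ∧ ∀ v : Fin δ → Cm n, (∀ k, v k ∈ closedBall c ρ \ ball c ε) →
      a ≤ ∑ l : Fin (δ * n + 1), ‖∏ k, lf c ρ l (v k)‖ ^ 2 := by
  have h1 : IsCompact (Set.pi univ fun _ : Fin δ => closedBall c ρ \ ball c ε) :=
    isCompact_univ_pi fun _ => (isCompact_closedBall c ρ).diff isOpen_ball
  have h2 : Continuous fun v : Fin δ → Cm n => ∑ l : Fin (δ * n + 1), ‖∏ k, lf c ρ l (v k)‖ ^ 2 :=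
    continuous_finsetSum _ fun l _ => (continuous_finsetProd _ fun k _ =>
      (continuous_iff_continuousAt.2 fun w => (lf_an c ρ l w).continuousAt).comp
        (continuous_apply k)).norm.pow 2
  obtain ⟨a, a1, a2⟩ := h1.exists_forall_le' h2.continuousOn (a := 0) fun v hv => by
    obtain ⟨l, hl⟩ := exists_mom (fun k => v k - c) (fun k e => (hv k trivial).2
      (sub_eq_zero.1 e ▸ mem_ball_self hε)) (M := δ * n + 1) (by simp)
    refine Finset.sum_pos' (fun _ _ => by positivity) ⟨l, Finset.mem_univ _, pow_pos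
      (norm_pos_iff.2 (Finset.prod_ne_zero_iff.2 fun k _ => div_ne_zero (hl k) ?_)) 2⟩
    exact Complex.ofReal_ne_zero.2 (by positivity)
  exact ⟨a, a1, fun v hv => a2 v fun k _ => hv k⟩

variable {d n : ℕ} {X : Type} [TopologicalSpace X] [ChartedSpace (Cm d) X]

/-- the local data at `x` -/
structure Core (s : Chart d X → Cm d → Matrix (Fin d) (Fin d) ℂ) (T : Set X) (R : Set (X × X))
    (f : X → Cm n) (x : X) (U K A : Set X) (δ : ℕ) {m : ℕ} (g : Fin m → X → ℂ) : Prop where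
  opn : IsOpen U
  mem : x ∈ U
  cK : IsCompact K
  pos : 0 < δ
  hol : ∀ j, ∀ y ∈ U, Hol d (g j) y
  cpt : IsCompact {y | y ∈ U ∧ ∑ j, ‖g j y‖ ^ 2 ≤ 1}
  zero : ∀ j, g j x = 0
  tube : ∀ y ∈ U, y ∉ T → ∃ O b r, Tube s O f b r ∧ y ∈ O ∧ O ⊆ U ∧
    ∀ y ∈ O, ∀ y' ∈ O, f y = f y' → ∀ j, g j y = g j y'
  frq : ∀ y ∈ U, ∃ᶠ z in 𝓝 y, z ∈ A
  nrm : ∀ a : X → ℂ, (∀ y ∈ K, Hol d a y) → ∃ G : X → ℂ, (∀ y ∈ U, Hol d G y) ∧
    ∀ y ∈ U, y ∈ A → ∃ p : Fin δ → X, (∀ k, p k ∈ K ∧ (y, p k) ∈ R) ∧ G y = ∏ k, a (p k)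

variable [T2Space X] [CompactSpace X] [IsManifold 𝓘(ℂ, Cm d) ω X] {T : Set X} {f : X → Cm n}
  {x : X} {s : Chart d X → Cm d → Matrix (Fin d) (Fin d) ℂ} {R : Set (X × X)}

theorem Lam.core (h : Lam s T R f) (hd : d = 2 * n) (hn : 0 < n) {e : Chart d X} (he : At e x)
    (hc : Cv n (e.target ∩ e.symm ⁻¹' R2 R x)) {N : Set X} (hN : N ∈ 𝓝 x) :
    ∃ (U K A : Set X) (δ m : ℕ) (g : Fin m → X → ℂ), K ⊆ N ∧ Core s T R f x U K A δ g := by
  obtain ⟨r, rfl⟩ := Nat.exists_eq_succ_of_ne_zero hn.ne'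
  obtain ⟨Θ, hΘ⟩ := h.slc hd he hc
  obtain ⟨ρ, r1, -, r3, r4⟩ := hΘ.rad hN one_pos
  set c := (Θ x).2
  set σ : Cm (r + 1) → X := fun w => Θ.symm ((Θ x).1, w)
  have s0 : σ c = x := Θ.left_inv hΘ.mem
  have s1 : ∀ w ∈ closedBall c ρ, ((Θ x).1, w) ∈ Θ.target ∩ Θ.symm ⁻¹' N := fun w hw =>
    r3 ((closedBall_prod_same _ _ _).le ⟨mem_closedBall_self r1.le, hw⟩)
  have hσ : ∀ w ∈ closedBall c ρ, HolA (r + 1) d σ w := fun w hw =>
    hΘ.co.holA (anV_self (analyticAt_const.prod analyticAt_id)) (s1 w hw).1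
  have s2 : ContinuousOn σ (closedBall c ρ) := fun w hw => (hσ w hw).cont.continuousWithinAt
  have hx : x ∈ VV R σ c ρ := fun w hw k => r4 w hw ⟨x, h.refl x, k⟩
  have hit : ∀ ε, 0 < ε → ∃ᶠ y in 𝓝 x, y ∈ Gd T R f σ c ρ ∧ ∃ w ∈ ball c ε, w ∈ SS R σ c ρ y :=
    fun ε hε => frequently_frequently_nhds.1 (((hΘ.hit h hn (lt_min hε r1)).and_eventually
      ((vv_open h hσ).mem_nhds hx)).mono fun y k => ((gd_freq h hσ k.2).and_eventually k.1).mono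
        fun z ⟨a, w, b1, b2⟩ => ⟨a, w, ball_subset_ball (min_le_left _ _) b1,
          ball_subset_ball (min_le_right _ _) b1, b2⟩)
  obtain ⟨U, δ, u1, u2, u3, u4, u5, u6, u7⟩ := deg h hσ hx
    ((hit 1 one_pos).mono fun y ⟨a, w, _, b⟩ => ⟨a, w, b⟩)
  have l1 : ∀ l, ∀ w ∈ ball c ρ, ‖lf c ρ l w‖ ≤ 1 := fun l w hw =>
    (lf_le r1 l hw).trans_eq (div_self r1.ne')
  choose G g1 g2 g3 using fun l : Fin (δ * (r + 1) + 1) =>
    nrm h hσ (fun w _ => lf_an c ρ l w) (l1 l)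
  obtain ⟨M, M', m1, m2, m3, m4, m5⟩ := generalized_tube_lemma
    (vv_open h hσ).isClosed_compl.isCompact (isCompact_singleton (x := x))
    h.cl.isOpen_compl (by
      rintro ⟨a, _⟩ ⟨k1, rfl⟩ k2
      exact k1 fun w hw k => r4 w hw ⟨a, h.symm _ _ k2, k⟩)
  obtain ⟨ε, e1, e2⟩ := nhds_basis_ball.mem_iff.1 ((hσ c (mem_closedBall_self r1.le)).cont.eventually
    (m2.mem_nhds (s0.symm ▸ m4 rfl)))
  obtain ⟨a, a1, a2⟩ := lf_low c r1 e1 δ
  have g4 : ∀ y ∈ VV R σ c ρ, ContinuousAt (fun y => ∑ l, ‖G l y‖ ^ 2) y := fun y hy =>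
    tendsto_finsetSum _ fun l _ => (g1 l y hy).cont.norm.pow 2
  have g5 : ∀ y ∈ U, y ∈ M → a ≤ ∑ l, ‖G l y‖ ^ 2 := fun y b1 b2 => by
    refine isClosed_Ici.mem_of_frequently_of_tendsto (((gd_freq h hσ (u3 b1)).and_eventually
      ((u1.eventually_mem b1).and (m1.eventually_mem b2))).mono fun z k => ?_) (g4 y (u3 b1))
    obtain ⟨w, w1, w2⟩ := u7 z k.2.1 k.1
    have w3 : ∀ j, w j ∈ SS R σ c ρ z := fun j => w2 ▸ mem_range_self j
    simp only [mem_Ici, fun l => g2 l z k.1 δ w w1 w2]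
    exact a2 w fun j => ⟨ball_subset_closedBall (w3 j).1, fun l =>
      m5 (show (z, σ (w j)) ∈ M ×ˢ M' from ⟨k.2.2, e2 l⟩) (w3 j).2⟩
  have g6 : ∀ y, ∑ l, ‖((1 / a + 1 : ℝ) : ℂ) * G l y‖ ^ 2 = (1 / a + 1) ^ 2 * ∑ l, ‖G l y‖ ^ 2 :=
    fun y => by
      rw [Finset.mul_sum]
      refine Finset.sum_congr rfl fun l _ => ?_
      rw [norm_mul, Complex.norm_real, Real.norm_of_nonneg (by positivity), mul_pow]
  refine ⟨U, σ '' closedBall c ρ, Gd T R f σ c ρ, δ, _, fun l y => ((1 / a + 1 : ℝ) : ℂ) * G l y,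
    image_subset_iff.2 fun w hw => (s1 w hw).2, u1, u2,
    (isCompact_closedBall c ρ).image_of_continuousOn s2, u5,
    fun l y hy => (P277Z.hol_const _ _).mul (g1 l y (u3 hy)), ?_, fun l => ?_, fun y b1 b2 => ?_,
    fun y hy => gd_freq h hσ (u3 hy), fun φ hφ => ?_⟩
  · have b1 : (M ∪ (VV R σ c ρ \ U))ᶜ ⊆ U := fun y k => by_contra fun l =>
      k (Or.inr ⟨by_contra fun j => k (Or.inl (m3 j)), l⟩)
    have b2 := ContinuousOn.preimage_isClosed_of_isClosed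
      (f := fun y => (1 / a + 1) ^ 2 * ∑ l, ‖G l y‖ ^ 2)
      (fun y k => (continuousAt_const.mul (g4 y (u3 (b1 k)))).continuousWithinAt)
      (m1.union u4).isClosed_compl (isClosed_Iic (a := 1))
    refine (congrArg IsCompact (Set.ext fun y => ⟨fun k => And.intro (b1 k.1) ((g6 y).trans_le k.2),
      fun k => And.intro ?_ ((g6 y).symm.trans_le k.2)⟩)).mp b2.isCompact
    rintro (l | l)
    · have b3 := (mul_le_mul_of_nonneg_left (g5 y k.1 l) (sq_nonneg (1 / a + 1))).trans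
        ((g6 y).symm.trans_le k.2)
      have b4 : (1 / a + 1) ^ 2 * a = (1 / a + 1) * (1 + a) := by field_simp
      have b5 : 0 < 1 / a := by positivity
      nlinarith [mul_pos b5 a1]
    · exact l.2 k.1
  · refine mul_eq_zero_of_right _ (norm_le_zero_iff.1 (le_of_forall_pos_le_add fun η hη => ?_))
    refine isClosed_Iic.mem_of_frequently_of_tendsto (((hit (η * ρ) (by positivity)).and_eventually
      (u1.eventually_mem u2)).mono ?_) (g1 l x hx).cont.norm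
    rintro z ⟨⟨b1, v, b2, b3⟩, b4⟩
    obtain ⟨w, w1, w2⟩ := u7 z b4 b1
    obtain ⟨j, rfl⟩ : v ∈ range w := w2 ▸ b3
    rw [mem_Iic, g2 l z b1 δ w w1 w2, norm_prod, zero_add,
      ← Finset.mul_prod_erase _ _ (Finset.mem_univ j)]
    exact (mul_le_of_le_one_right (norm_nonneg _) (Finset.prod_le_one (fun _ _ => norm_nonneg _)
      fun k _ => l1 l _ (w2 ▸ mem_range_self k : w k ∈ SS R σ c ρ z).1)).trans
      ((lf_le r1 l b2).trans_eq (mul_div_cancel_right₀ _ r1.ne'))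
  · obtain ⟨O, b, β, c1, c2, c3, c4⟩ := h.tube y b2 U u1 (u6 y b1 b2)
    exact ⟨O, b, β, c1, c2, c3, fun z hz z' hz' k l =>
      congrArg _ (g3 l O b β ⟨c1, c4⟩ (c3.trans u3) z hz z' hz' k)⟩
  · have b1 : ∀ w ∈ closedBall c ρ, AnalyticAt ℂ (fun w => φ (σ w)) w := fun w hw =>
      (hσ w hw).hol (hφ _ ⟨w, hw, rfl⟩) _ (at_chart w)
    obtain ⟨C, hC⟩ := (isCompact_closedBall c ρ).exists_bound_of_continuousOn
      fun w hw => (b1 w hw).continuousAt.continuousWithinAt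
    have b2 : 0 < |C| + 1 := by positivity
    have b3 : ((|C| + 1 : ℝ) : ℂ) ≠ 0 := Complex.ofReal_ne_zero.2 b2.ne'
    obtain ⟨H, k1, k2, -⟩ := nrm h hσ (φ := fun w => φ (σ w) / ((|C| + 1 : ℝ) : ℂ))
      (fun w hw => (b1 w (ball_subset_closedBall hw)).div_const) fun w hw => by
        rw [norm_div, Complex.norm_real, Real.norm_of_nonneg b2.le, div_le_one b2]
        linarith [hC w (ball_subset_closedBall hw), le_abs_self C]
    refine ⟨fun y => ((|C| + 1 : ℝ) : ℂ) ^ δ * H y,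
      fun y hy => (P277Z.hol_const _ _).mul (k1 y (u3 hy)), fun y b4 b5 => ?_⟩
    obtain ⟨w, w1, w2⟩ := u7 y b4 b5
    have w3 : ∀ j, w j ∈ SS R σ c ρ y := fun j => w2 ▸ mem_range_self j
    refine ⟨fun k => σ (w k), fun k => ⟨⟨_, ball_subset_closedBall (w3 k).1, rfl⟩, (w3 k).2⟩, ?_⟩
    simp only [k2 y b5 δ w w1 w2, Finset.prod_div_distrib, Finset.prod_const, Finset.card_univ,
      Fintype.card_fin]
    exact mul_div_cancel₀ _ (pow_ne_zero _ b3)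

end Vale.Agent.P301Z.Sa.Sl
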