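import Vale.Agent.P301Z.Sa.Defs2
import Vale.Agent.P301Z.Sa.RatFin
import Vale.Agent.P301Z.Sa.Rank
import Vale.Agent.P301Z.Sa.Geo
import Vale.Agent.P301Z.Sa.Leaf
import Vale.Agent.P301Z.Sa.Null
import Vale.Agent.P301Z.Sa.Ch
import Vale.Agent.P301Z.Sa.Un
import Vale.Agent.P301Z.Sa.Divl
import Vale.Agent.P301Z.Sa.Unit
import Vale.Agent.P301Z.Sa.Hke
import Vale.Agent.P301Z.Sa.Iso
import Vale.Agent.P301Z.Sa.Dim

/-!
# P301Z, block ABUN: abundance from the local data and Lemma H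
-/

namespace Vale.Agent.P301Z.Sa

theorem abun_top (h : LOC) (hH : HPT) : P301Z.ABUN :=
  abun_of2 rat_ok rank geo leaf (ch_of nul) (unit_of nul un divl) (dim_of (iso_of hke)) h fin hH

end Vale.Agent.P301Z.Sa
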